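import Vale.Agent.P158.Basic

/-! The boundary cycle and the planar crossing lemmas. -/

namespace Vale.Agent.P158

open Finset MeasureTheory Filter
open scoped NNReal ENNReal Classical Topology

variable {o c s v : V} {n m i j k l a : ℤ}

lemma Cross_mod {N i x : ℤ} (hN : 0 < N) (h1 : i ≤ x) (h2 : x ≤ i + N) :
    x % N = i % N + (x - i) ∨ x % N = i % N + (x - i) - N := by
  have a1 := Int.emod_nonneg i hN.ne'
  have a2 := Int.emod_lt_of_pos i hN
  have a3 := Int.mul_ediv_add_emod i N
  by_cases h : i % N + (x - i) < N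
  · left
    rw [← Int.emod_eq_of_lt (a := i % N + (x - i)) (by omega) h,
      show x = i % N + (x - i) + N * (i / N) by omega, Int.add_mul_emod_self_left]
    congr 1
    omega
  · right
    rw [← Int.emod_eq_of_lt (a := i % N + (x - i) - N) (b := N) (by omega) (by omega),
      show x = i % N + (x - i) - N + N * (i / N + 1) by rw [mul_add]; omega,
      Int.add_mul_emod_self_left]
    congr 1
    rw [mul_add]
    omega

theorem bd_mem_bdry (hn : 0 < n) : bd o n i ∈ bdry o n := by
  have h1 := Int.emod_nonneg i (show 4 * n ≠ 0 by omega)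
  have h2 := Int.emod_lt_of_pos i (show 0 < 4 * n by omega)
  unfold bdry bd
  rw [Set.mem_ofPred_eq, mem_box]
  generalize i % (4 * n) = r at *
  split_ifs <;> dsimp only <;> omega

theorem bd_mem (hn : 0 < n) : bd o n i ∈ box o n := (bd_mem_bdry hn).1

theorem bd_adj (hn : 0 < n) : grid.Adj (bd o n i) (bd o n (i + 1)) := by
  have h1 := Int.emod_nonneg i (show 4 * n ≠ 0 by omega)
  have h2 := Int.emod_lt_of_pos i (show 0 < 4 * n by omega)
  have h3 := Int.emod_nonneg (i + 1) (show 4 * n ≠ 0 by omega)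
  have h4 := Int.emod_lt_of_pos (i + 1) (show 0 < 4 * n by omega)
  have h5 := Cross_mod (i := i) (x := i + 1) (show 0 < 4 * n by omega) (by omega) (by omega)
  rw [adj_iff]
  unfold bd
  generalize i % (4 * n) = r at *
  generalize (i + 1) % (4 * n) = r' at *
  split_ifs <;> dsimp only <;> omega

theorem bd_per : bd o n (i + 4 * n) = bd o n i := by
  unfold bd
  rw [Int.add_emod_right]

/-- Position of a boundary point along the cycle. -/
def Cross_pos (o : V) (n : ℤ) (p : V) : ℤ :=
  if p.2 = o.2 then p.1 - o.1 else if p.1 = o.1 + n then n + (p.2 - o.2)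
  else if p.2 = o.2 + n then 2 * n + (o.1 + n - p.1) else 3 * n + (o.2 + n - p.2)

lemma Cross_pos_bd (hn : 0 < n) (hv : v ∈ bdry o n) :
    0 ≤ Cross_pos o n v ∧ Cross_pos o n v < 4 * n ∧ bd o n (Cross_pos o n v) = v := by
  obtain ⟨h1, h2⟩ := hv
  rw [mem_box] at h1
  have h3 : 0 ≤ Cross_pos o n v ∧ Cross_pos o n v < 4 * n := by
    unfold Cross_pos
    omega
  refine ⟨h3.1, h3.2, ?_⟩
  unfold bd
  rw [Int.emod_eq_of_lt h3.1 h3.2]
  unfold Cross_pos
  split_ifs <;> refine Prod.ext ?_ ?_ <;> dsimp only <;> omega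

lemma Cross_bd_pos (hn : 0 < n) : Cross_pos o n (bd o n i) = i % (4 * n) := by
  have h1 := Int.emod_nonneg i (show 4 * n ≠ 0 by omega)
  have h2 := Int.emod_lt_of_pos i (show 0 < 4 * n by omega)
  unfold bd
  generalize i % (4 * n) = r at *
  split_ifs <;> unfold Cross_pos <;> dsimp only <;> omega

theorem bd_surj (hn : 0 < n) (hv : v ∈ bdry o n) (a : ℤ) :
    ∃ i, a ≤ i ∧ i < a + 4 * n ∧ bd o n i = v := by
  have h0 : 0 < 4 * n := by omega
  have h1 := Cross_pos_bd hn hv
  have h2 := Int.emod_nonneg (Cross_pos o n v - a) h0.ne'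
  have h3 := Int.emod_lt_of_pos (Cross_pos o n v - a) h0
  refine ⟨a + (Cross_pos o n v - a) % (4 * n), by omega, by omega, ?_⟩
  refine Eq.trans ?_ h1.2.2
  unfold bd
  rw [Int.add_emod_emod, add_sub_cancel]

theorem bd_shift : bd (o + s) n i = bd o n i + s := by
  unfold bd
  split_ifs <;> refine Prod.ext ?_ ?_ <;> simp only [Prod.fst_add, Prod.snd_add] <;> ring

theorem not_mem_ball_of_bdry {x : V} {L : ℤ} (h : ball x L ⊆ box o n) (hL : 0 ≤ L)
    (hv : v ∈ bdry o n) : v ∉ ball x (L - 1) := by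
  have h1 := mem_box.1 (h (a := (x.1 - L, x.2 - L)) (mem_ball.2 (by dsimp only; omega)))
  have h2 := mem_box.1 (h (a := (x.1 + L, x.2 + L)) (mem_ball.2 (by dsimp only; omega)))
  have h3 := hv.2
  rw [mem_ball]
  dsimp only at h1 h2
  omega

/-- Sum of a function over the steps of a walk. -/
def Cross_sum {x y : V} (p : grid.Walk x y) (g : V → V → ℤ) : ℤ :=
  (p.darts.map fun d => g d.fst d.snd).sum

lemma Cross_tel {x y : V} (p : grid.Walk x y) (g g' : V → V → ℤ) (χ : V → ℤ)
    (h : ∀ s t, grid.Adj s t → s ∈ p.support → t ∈ p.support → g s t - g' s t = χ t - χ s) :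
    Cross_sum p g - Cross_sum p g' = χ y - χ x := by
  induction p with
  | nil => simp [Cross_sum]
  | cons ha p ih =>
    have h1 := ih fun s t h1 h2 h3 => h s t h1 (by simp [h2]) (by simp [h3])
    have h2 := h _ _ ha (by simp) (by simp)
    simp only [Cross_sum, SimpleGraph.Walk.darts_cons, List.map_cons, List.sum_cons] at h1 ⊢
    linarith

lemma Cross_zero {x y : V} (p : grid.Walk x y) : Cross_sum p (fun _ _ => 0) = 0 := by
  simp [Cross_sum]

/-- Signed crossing of the downward ray just to the left of `v`. -/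
def Cross_h (v s t : V) : ℤ :=
  if s.2 < v.2 ∧ s.1 = v.1 - 1 ∧ t.1 = v.1 then 1
  else if s.2 < v.2 ∧ s.1 = v.1 ∧ t.1 = v.1 - 1 then -1 else 0

lemma Cross_ne {x y s : V} {p : grid.Walk x y} (hs : s ∈ p.support) (hv : v ∉ p.support) :
    ¬ (s.1 = v.1 ∧ s.2 = v.2) := fun h => hv (Prod.ext h.1 h.2 ▸ hs)

lemma Cross_inv {x y x' y' : V} {S : Set V} (p : grid.Walk x y) (q : grid.Walk x' y')
    (hq : In S q) (hd : ∀ v, v ∈ q.support → v ∉ p.support) (I : V → ℤ)
    (hh : ∀ a b, (a, b) ∈ S → (a + 1, b) ∈ S → (a, b) ∉ p.support → I (a + 1, b) - I (a, b) =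
      (if y.1 = a ∧ y.2 < b then 1 else 0) - (if x.1 = a ∧ x.2 < b then 1 else 0))
    (hv : ∀ a b, (a, b) ∉ p.support → I (a, b + 1) = I (a, b)) :
    Cross_sum p (Cross_h x') + I x' = Cross_sum p (Cross_h y') + I y' := by
  have H : ∀ a b, (a, b) ∈ S → (a + 1, b) ∈ S → (a, b) ∉ p.support →
      Cross_sum p (Cross_h (a, b)) + I (a, b) = Cross_sum p (Cross_h (a + 1, b)) + I (a + 1, b) := by
    intro a b s1 s2 s3
    have h1 := Cross_tel p (Cross_h (a, b)) (Cross_h (a + 1, b))
      (fun s => if s.1 = a ∧ s.2 < b then 1 else 0) fun s t h hs ht => by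
        have e1 := Cross_ne hs s3
        have e2 := Cross_ne ht s3
        rw [adj_iff] at h
        unfold Cross_h
        dsimp only at *
        omega
    linarith [hh a b s1 s2 s3]
  have H' : ∀ a b, (a, b) ∉ p.support →
      Cross_sum p (Cross_h (a, b)) + I (a, b) = Cross_sum p (Cross_h (a, b + 1)) + I (a, b + 1) := by
    intro a b s3
    have h1 := Cross_tel p (Cross_h (a, b)) (Cross_h (a, b + 1))
      (fun _ => 0) fun s t h hs ht => by
        have e1 := Cross_ne hs s3
        have e2 := Cross_ne ht s3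
        rw [adj_iff] at h
        unfold Cross_h
        dsimp only at *
        omega
    linarith [hv a b s3]
  induction q with
  | nil => rfl
  | @cons u w z ha q ih =>
    refine Eq.trans ?_ (ih (fun v h => hq v (by simp [h])) fun v h => hd v (by simp [h]))
    have s1 := hq u (by simp)
    have s2 := hq w (by simp)
    have s3 := hd u (by simp)
    have s4 := hd w (by simp)
    obtain ⟨a, b⟩ := u
    obtain ⟨a', b'⟩ := w
    rcases adj_iff.1 ha with ⟨h1, h2 | h2⟩ | ⟨h1, h2 | h2⟩ <;> dsimp only at h1 h2 <;> subst h1 h2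
    exacts [(H' _ _ s4).symm, H' _ _ s3, (H _ _ s2 s1 s4).symm, H _ _ s1 s2 s3]

/-- Crossings of the outer continuation of a boundary point. -/
def Cross_K (o p v : V) : ℤ :=
  if p.2 = o.2 then (if p.1 < v.1 then 1 else 0)
  else if p.1 = o.1 ∧ v.1 = o.1 ∧ p.2 < v.2 then -1 else 0

lemma Cross_K_h {p : V} {b : ℤ} (hp : p ∈ bdry o n) (s1 : (a, b) ∈ box o n)
    (s2 : (a + 1, b) ∈ box o n) (h : p ≠ (a, b)) :
    Cross_K o p (a + 1, b) - Cross_K o p (a, b) = if p.1 = a ∧ p.2 < b then 1 else 0 := by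
  obtain ⟨h1, h2⟩ := hp
  have h3 : ¬ (p.1 = a ∧ p.2 = b) := fun e => h (Prod.ext e.1 e.2)
  rw [mem_box] at *
  unfold Cross_K
  dsimp only at *
  omega

lemma Cross_K_v {p : V} {b : ℤ} (h : p ≠ (a, b)) :
    Cross_K o p (a, b + 1) = Cross_K o p (a, b) := by
  have h3 : ¬ (p.1 = a ∧ p.2 = b) := fun e => h (Prod.ext e.1 e.2)
  unfold Cross_K
  dsimp only
  omega

lemma Cross_top {x y : V} (p : grid.Walk x y) (hp : In (rect c m n) p) (hv : v ∉ p.support)
    (h : v.2 = c.2 + n) : Cross_sum p (Cross_h v) =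
      (if v.1 ≤ y.1 then 1 else 0) - (if v.1 ≤ x.1 then 1 else 0) := by
  have h1 := Cross_tel p (Cross_h v) (fun _ _ => 0) (fun s => if v.1 ≤ s.1 then 1 else 0)
    fun s t h hs ht => by
      have e1 := Cross_ne hs hv
      have e2 := Cross_ne ht hv
      have e3 := mem_rect.1 (hp s hs)
      have e4 := mem_rect.1 (hp t ht)
      rw [adj_iff] at h
      unfold Cross_h
      omega
  rwa [Cross_zero, sub_zero] at h1

lemma Cross_right {x y : V} (p : grid.Walk x y) (hp : In (rect c m n) p) (hv : v ∉ p.support)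
    (h : v.1 = c.1 + m) : Cross_sum p (Cross_h v) =
      (if y.1 = v.1 ∧ y.2 < v.2 then 1 else 0) - (if x.1 = v.1 ∧ x.2 < v.2 then 1 else 0) := by
  have h1 := Cross_tel p (Cross_h v) (fun _ _ => 0)
    (fun s => if s.1 = v.1 ∧ s.2 < v.2 then 1 else 0) fun s t h hs ht => by
      have e1 := Cross_ne hs hv
      have e2 := Cross_ne ht hv
      have e3 := mem_rect.1 (hp s hs)
      have e4 := mem_rect.1 (hp t ht)
      rw [adj_iff] at h
      unfold Cross_h
      omega
  rwa [Cross_zero, sub_zero] at h1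

lemma Cross_low {x y : V} (p : grid.Walk x y) (hp : In (rect c m n) p)
    (h : v.1 = c.1 ∨ v.2 = c.2) : Cross_sum p (Cross_h v) = 0 := by
  have h1 := Cross_tel p (Cross_h v) (fun _ _ => 0) (fun _ => 0) fun s t _ hs ht => by
      have e3 := mem_rect.1 (hp s hs)
      have e4 := mem_rect.1 (hp t ht)
      unfold Cross_h
      omega
  rwa [Cross_zero, sub_zero, sub_zero] at h1

lemma Cross_J (hn : 0 < n) {p : V} (hp : p ∈ bdry o n) (hv : v ∈ bdry o n)
    (h : ¬ (p.1 = v.1 ∧ p.2 = v.2)) :
    (if Cross_pos o n p < Cross_pos o n v then 1 else 0) = Cross_K o p v +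
      (if v.2 = o.2 then 0 else if v.1 = o.1 then 1
        else if v.1 = o.1 + n then (if p.1 = v.1 ∧ p.2 < v.2 then 1 else 0)
        else if v.1 ≤ p.1 then 1 else 0) := by
  obtain ⟨h1, h2⟩ := hp
  obtain ⟨h3, h4⟩ := hv
  rw [mem_box] at *
  unfold Cross_K Cross_pos
  split_ifs <;> omega

lemma Cross_val (hn : 0 < n) {x y : V} (p : grid.Walk x y) (hp : In (box o n) p)
    (hx : x ∈ bdry o n) (hy : y ∈ bdry o n) (hv : v ∈ bdry o n) (h : v ∉ p.support) :
    Cross_sum p (Cross_h v) + (Cross_K o y v - Cross_K o x v) =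
      (if Cross_pos o n y < Cross_pos o n v then 1 else 0) -
        (if Cross_pos o n x < Cross_pos o n v then 1 else 0) := by
  rw [Cross_J hn hx hv (Cross_ne p.start_mem_support h),
    Cross_J hn hy hv (Cross_ne p.end_mem_support h)]
  by_cases h1 : v.2 = o.2
  · rw [Cross_low p hp (Or.inr h1), if_pos h1, if_pos h1]
    ring
  rw [if_neg h1, if_neg h1]
  by_cases h2 : v.1 = o.1
  · rw [Cross_low p hp (Or.inl h2), if_pos h2, if_pos h2]
    ring
  rw [if_neg h2, if_neg h2]
  by_cases h3 : v.1 = o.1 + n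
  · rw [Cross_right p hp h h3, if_pos h3, if_pos h3]
    ring
  · have h4 := hv.2
    rw [Cross_top p hp h (by omega), if_neg h3, if_neg h3]
    ring

/-- Walks in a box between alternating boundary points meet. -/
theorem xlemma (hn : 0 < n) (hij : i ≤ j) (hjk : j ≤ k) (hkl : k ≤ l) (hli : l ≤ i + 4 * n)
    (p : grid.Walk (bd o n i) (bd o n k)) (q : grid.Walk (bd o n j) (bd o n l))
    (hp : In (box o n) p) (hq : In (box o n) q) : ∃ v, v ∈ p.support ∧ v ∈ q.support := by
  by_contra hd
  push Not at hd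
  have hN : 0 < 4 * n := by omega
  have b1 := bd_mem_bdry (o := o) (i := i) hn
  have b2 := bd_mem_bdry (o := o) (i := k) hn
  have h1 := Cross_inv p q hq (fun v h h' => hd v h' h)
    (fun v => Cross_K o (bd o n k) v - Cross_K o (bd o n i) v)
    (fun a b s1 s2 s3 => by
      have e1 := Cross_K_h b1 s1 s2 fun h => s3 (h ▸ p.start_mem_support)
      have e2 := Cross_K_h b2 s1 s2 fun h => s3 (h ▸ p.end_mem_support)
      linarith)
    (fun a b s3 => by
      rw [Cross_K_v fun h => s3 (h ▸ p.start_mem_support),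
        Cross_K_v fun h => s3 (h ▸ p.end_mem_support)])
  rw [Cross_val hn p hp b1 b2 (bd_mem_bdry hn) fun h => hd _ h q.start_mem_support,
    Cross_val hn p hp b1 b2 (bd_mem_bdry hn) fun h => hd _ h q.end_mem_support] at h1
  have ne : ∀ x y, bd o n x ∈ p.support → bd o n y ∈ q.support → x % (4 * n) ≠ y % (4 * n) := by
    intro x y hx hy h
    refine hd _ hx ?_
    have : bd o n x = bd o n y := by
      unfold bd
      rw [h]
    rwa [this]
  have n1 := ne i j p.start_mem_support q.start_mem_support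
  have n2 := ne i l p.start_mem_support q.end_mem_support
  have n3 := ne k j p.end_mem_support q.start_mem_support
  have n4 := ne k l p.end_mem_support q.end_mem_support
  have m1 := Cross_mod (i := i) (x := j) hN (by omega) (by omega)
  have m2 := Cross_mod (i := i) (x := k) hN (by omega) (by omega)
  have m3 := Cross_mod (i := i) (x := l) hN (by omega) (by omega)
  have r0 := Int.emod_nonneg i hN.ne'
  have r1 := Int.emod_nonneg j hN.ne'
  have r2 := Int.emod_nonneg k hN.ne'
  have r3 := Int.emod_nonneg l hN.ne'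
  have t0 := Int.emod_lt_of_pos i hN
  have t1 := Int.emod_lt_of_pos j hN
  have t2 := Int.emod_lt_of_pos k hN
  have t3 := Int.emod_lt_of_pos l hN
  simp only [Cross_bd_pos hn] at h1
  generalize i % (4 * n) = ri at *
  generalize j % (4 * n) = rj at *
  generalize k % (4 * n) = rk at *
  generalize l % (4 * n) = rl at *
  omega

/-- A left-right and a bottom-top crossing of a rectangle meet. -/
theorem lrtb {u u' x x' : V} (p : grid.Walk u u') (q : grid.Walk x x')
    (hp : In (rect c m n) p) (hq : In (rect c m n) q) (hu : u.1 = c.1) (hu' : u'.1 = c.1 + m)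
    (hx : x.2 = c.2) (hx' : x'.2 = c.2 + n) : ∃ v, v ∈ p.support ∧ v ∈ q.support := by
  by_contra hd
  push Not at hd
  have h1 := Cross_inv p q hq (fun v h h' => hd v h' h)
    (fun v => if v.1 = c.1 ∧ u.2 < v.2 then 1 else 0)
    (fun a b s1 s2 _ => by
      rw [mem_rect] at s1 s2
      dsimp only at *
      omega)
    (fun a b s3 => by
      have := Cross_ne p.start_mem_support s3
      dsimp only at *
      omega)
  have h2 := fun h => hd _ h q.end_mem_support
  have h3 := Cross_ne p.start_mem_support h2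
  have h4 := mem_rect.1 (hp _ p.start_mem_support)
  have h5 := mem_rect.1 (hq _ q.end_mem_support)
  rw [Cross_low p hp (Or.inr hx), Cross_top p hp h2 hx'] at h1
  omega

end Vale.Agent.P158
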