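import Vale.Agent.P158.Bud

/-! The three applications of the budget lemma. -/

namespace Vale.Agent.P158

open Finset MeasureTheory Filter
open scoped NNReal ENNReal Classical Topology

variable {w wp : Wt} {a b : V} {δ C : ℝ}

theorem app_wrap {R : ℤ} {Q Q' : V → ℤ → Prop}
    (h : ∃ L : ℤ, ∀ o n, ball a L ⊆ box o n →
      (∀ i, ¬ Touch (box o n) w (ball a R) (bd o n i) (bd o n (i + 1))) → Q o n)
    (hQ : ∀ o n, 0 < n → Q o n → Q' o n) :
    ∃ L : ℤ, ∀ o n, L ≤ n → ball a (n / 4) ⊆ box o n → GEv C o n w → Q' o n := by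
  obtain ⟨L, hL⟩ := h
  refine ⟨max (4 * L) (max (8 * R + 16) 1), fun o n h1 h2 h3 => ?_⟩
  have c1 := le_trans (le_max_left _ _) h1
  have c2 := le_trans (le_max_left _ _) (le_trans (le_max_right _ _) h1)
  have c3 := le_trans (le_max_right _ _) (le_trans (le_max_right _ _) h1)
  exact hQ o n (by omega) (hL o n ((cpt_ball_mono (by omega)).trans h2)
    (h3.not_touch (by omega) h2 (by omega)))

theorem app_gain (hw : NN w) (hδ : 0 ≤ δ) {γ : ℤ → V} {o : V} {n lo hi : ℤ}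
    (h : Bi (upE w s(γ 0, γ 1) δ) γ) (hp : Pass o n γ lo hi) (hhi : 0 < hi) :
    T (box o n) w (γ lo) (γ hi) + δ ≤ T (box o n) (upE w s(γ 0, γ 1) δ) (γ lo) (γ hi) := by
  obtain ⟨p1, p2, p3, -, -⟩ := hp
  have g := h.geoFn (fun e => (hw e).trans (cpt_le_upE hδ e)) conn_box (p1.trans p2) p3
  have c1 := cpt_seg_upE (w := w) hδ (f := γ) (i := lo) (j := hi) (k := 0) p1 hhi
  rw [zero_add, g.add lo hi le_rfl (p1.trans p2) le_rfl] at c1
  have c2 := T_le_seg hw (p1.trans p2) g.adj p3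
  linarith

theorem app_pt (hw : Nice w) (hδ : 0 < δ) (hwp : Nice (upE w s(a, b) δ))
    (hK : KP w (ball a 0)) (hKp : KP (upE w s(a, b) δ) (ball a 0)) (I : Finset (ℤ → V))
    (hI : ∀ γ ∈ I, γ ∈ biSet (upE w s(a, b) δ) a b) :
    ∃ L : ℤ, ∀ o n, L ≤ n → ball a (n / 4) ⊆ box o n → GEv C o n w →
      δ * I.card ≤ mass o n w (fun x y => ind (On (box o n) w x a y)) := by
  have hle : ∀ e, w e ≤ upE w s(a, b) δ e := cpt_le_upE hδ.le
  have ha : a ∈ ball a 0 := cpt_mem_ball_zero.2 rfl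
  have h := bud (a := a) (R := 0) hw hle (fun e he => cpt_upE_ne (by
      rintro rfl
      exact he a (Sym2.mem_mk_left _ _) ha)) hK I id (fun t ht => (hI t ht).1.1)
    (fun t ht => (hI t ht).1.inj hwp.pos) (fun t ht => (hI t ht).2.1 ▸ ha) hδ (fun _ => True) 1
    (fun t u => t = u) (fun t ht => by
      rw [Finset.filter_eq, if_pos ht]
      simp) (by
      have key : ∀ t ∈ I, ∀ u ∈ I, t ≠ u → SepP w a 0 t u := by
        intro t ht u hu hne
        refine sep_of_kp hw.nn hwp hle {s(a, b)} (fun e he => cpt_upE_ne (by simpa using he)) hKp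
          (hI t ht).1 (hI u hu).1 ((hI t ht).2.1 ▸ ha) ((hI u hu).2.1 ▸ ha) ?_
        rintro ⟨d, hd⟩
        have h0 := hd 0
        rw [(hI u hu).2.1, ← (hI t ht).2.1] at h0
        have := (hI t ht).1.inj hwp.pos h0
        refine hne (funext fun i => ?_)
        rw [hd i]
        congr 1
        omega
      exact fun t ht u hu hne => ⟨key t ht u hu hne, key u hu t ht (Ne.symm hne)⟩)
    (fun t ht => ⟨1, fun o n lo hi hb hp => by
      obtain ⟨h1, h2, h3⟩ := hI t ht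
      have := (hp.far (R := 0) h1.1 hb (by norm_num) (cpt_mem_ball_zero.2 h2)).2
      subst h2 h3
      exact ⟨app_gain hw.nn hδ.le h1 hp (by omega), trivial⟩⟩) zero_le_one
  refine app_wrap h fun o n hn hQ => ?_
  rw [one_mul] at hQ
  refine hQ.trans (mass_mono hw.nn hn fun i j => bud_ind_mono ?_)
  rintro ⟨⟨c, hc, hon⟩, -⟩
  rw [cpt_mem_ball_zero] at hc
  exact hc ▸ hon

theorem app_ns (hw : Nice w) (hδ : 0 < δ) {m ℓ : ℤ} (hℓ : 0 < ℓ) (hK : KP w (ball a ℓ))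
    {γ : ℤ → V} (h : Bi w γ) (h0 : γ 0 = a) (hp : Bi (upE w s(γ 0, γ 1) δ) γ)
    (hns : NS m ℓ γ 0) :
    ∃ L : ℤ, ∀ o n, L ≤ n → ball a (n / 4) ⊆ box o n → GEv C o n w →
      δ ≤ mass o n w (fun x y => ind (NSOn (box o n) w x y m ℓ a)) := by
  subst h0
  have ha : ∀ r, 0 ≤ r → γ 0 ∈ ball (γ 0) r := fun r hr =>
    cpt_ball_mono hr (cpt_mem_ball_zero.2 rfl)
  have hb := bud (a := γ 0) (R := ℓ) (wp := upE w s(γ 0, γ 1) δ) hw (cpt_le_upE hδ.le)
    (fun e he => cpt_upE_ne (by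
      rintro rfl
      exact he _ (Sym2.mem_mk_left _ _) (ha ℓ hℓ.le))) hK ({()} : Finset Unit) (fun _ => γ)
    (fun _ _ => h.1) (fun _ _ => h.inj hw.pos) (fun _ _ => ha ℓ hℓ.le) hδ
    (fun D => ∃ f : ℤ → V, f 0 = γ 0 ∧ (∀ t, 0 ≤ t → t < ℓ → (f t, f (t + 1)) ∈ D) ∧ NS m ℓ f 0) 1
    (fun _ _ => True) (fun t ht => by simp) (fun _ _ _ _ h => absurd trivial h)
    (fun _ _ => ⟨ℓ, fun o n lo hi hb hq => by
      have c1 := (hq.far h.1 hb hℓ.le (ha 0 le_rfl)).2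
      refine ⟨app_gain hw.nn hδ.le hp hq (by omega), γ, rfl, fun t t1 t2 => ?_, hns⟩
      obtain ⟨p1, p2, p3, -, -⟩ := hq
      have g := h.geoFn hw.nn conn_box (p1.trans p2) p3
      have hin : ∀ t, 0 ≤ t → t ≤ ℓ → γ t ∈ ball (γ 0) ℓ := by
        intro t t1 t2
        have := mem_ball_of_adj (f := γ) (lo := 0) (hi := ℓ) (i := 0) (j := t)
          (fun k _ _ => h.1 k) le_rfl hℓ.le t1 t2
        rw [sub_zero, abs_of_nonneg t1] at this
        exact cpt_ball_mono t2 this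
      exact ⟨hin t t1 t2.le, hin (t + 1) (by omega) (by omega),
        (g.dart_iff hw conn_box).2 ⟨t, by omega, by omega, rfl, rfl⟩⟩⟩) zero_le_one
  refine app_wrap hb fun o n hn hQ => ?_
  rw [one_mul, Finset.card_singleton, Nat.cast_one, mul_one] at hQ
  refine hQ.trans (mass_mono hw.nn hn fun i j => bud_ind_mono ?_)
  rintro ⟨-, f, f0, f1, f2⟩
  exact ⟨f, f0, fun t t1 t2 => (f1 t t1 t2).2.2, f2⟩

theorem app_hit (hw : Nice w) (hwp : Nice wp) {R ℓ : ℤ} (hK : KP w (ball a R))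
    (hKp : KP wp (ball a R)) (J : Finset (Sym2 V)) (hJ : ∀ e ∈ J, ∀ v ∈ e, v ∈ ball a R)
    (hoff : ∀ e, e ∉ J → wp e = w e) {κ M j₀ μ : ℝ} (hκ : 0 < κ) (hM : 0 < M) (hj : 0 < j₀)
    (hdiff : ∀ e ∈ J, w e + κ ≤ wp e ∧ wp e ≤ w e + M) (D : Finset V)
    (hD : ∀ v ∈ D, v ∈ ball a R) (hμ0 : 0 ≤ μ)
    (hμ : ∀ γ, Bi wp γ → ((D.filter fun v => ∃ i, γ i = v).card : ℝ) ≤ μ) :
    ∃ L : ℤ, ∀ o n, L ≤ n → ball a (n / 4) ⊆ box o n → GEv C o n w →
      j₀ * κ * (D.filter fun v => ∃ γ, Bi wp γ ∧ γ 0 = v ∧ j₀ ≤ cntJ J γ ℓ).card ≤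
        μ * mass o n w (fun x y => ind (j₀ * κ / M ≤ cntE (box o n) w x y J)) := by
  set I := D.filter fun v => ∃ γ, Bi wp γ ∧ γ 0 = v ∧ j₀ ≤ cntJ J γ ℓ with hI
  have hex : ∀ v ∈ I, ∃ γ, Bi wp γ ∧ γ 0 = v ∧ j₀ ≤ cntJ J γ ℓ := fun v hv =>
    (Finset.mem_filter.1 hv).2
  choose! γ hγ using hex
  have hle : ∀ e, w e ≤ wp e := by
    intro e
    by_cases he : e ∈ J
    · linarith [(hdiff e he).1]
    · exact (hoff e he).ge
  have h0 : ∀ v ∈ I, γ v 0 ∈ ball a R := fun v hv =>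
    (hγ v hv).2.1.symm ▸ hD v (Finset.mem_filter.1 hv).1
  have hcnt : ∀ o n x y, (J.filter fun e => ∃ p q, e = s(p, q) ∧ (p, q) ∈ dset o n w a R x y) =
      J.filter fun e => EdgeOn (box o n) w x y e := by
    intro o n x y
    refine Finset.filter_congr fun e he => ⟨?_, ?_⟩
    · rintro ⟨p, q, h1, -, -, h2⟩
      exact ⟨p, q, h1, h2⟩
    · rintro ⟨p, q, rfl, h2⟩
      exact ⟨p, q, rfl, hJ _ he p (Sym2.mem_mk_left _ _), hJ _ he q (Sym2.mem_mk_right _ _), h2⟩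
  have hb := bud (a := a) (R := R) (wp := wp) hw hle
    (fun e he => hoff e fun h => he e.out.1 e.out_fst_mem (hJ e h _ e.out_fst_mem)) hK I γ
    (fun v hv => (hγ v hv).1.1) (fun v hv => (hγ v hv).1.inj hwp.pos) h0 (mul_pos hj hκ)
    (fun E => j₀ * κ / M ≤ (J.filter fun e => ∃ p q, e = s(p, q) ∧ (p, q) ∈ E).card) μ
    (fun v u => Eqv (γ v) (γ u)) (fun v hv => by
      refine le_trans (Nat.cast_le.2 (Finset.card_le_card fun u hu => ?_)) (hμ _ (hγ v hv).1)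
      obtain ⟨u1, d, hd⟩ := Finset.mem_filter.1 hu
      exact Finset.mem_filter.2 ⟨(Finset.mem_filter.1 u1).1, 0 + d,
        (hd 0).symm.trans (hγ u u1).2.1⟩)
    (fun v hv u hu hne => ⟨sep_of_kp hw.nn hwp hle J hoff hKp (hγ v hv).1 (hγ u hu).1 (h0 v hv)
      (h0 u hu) hne, sep_of_kp hw.nn hwp hle J hoff hKp (hγ u hu).1 (hγ v hv).1 (h0 u hu)
      (h0 v hv) fun h => hne h.symm⟩)
    (fun v hv => ⟨max (R + ℓ) 0, fun o n lo hi hb hq => by
      obtain ⟨g1, -, g3⟩ := hγ v hv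
      have c1 := (hq.far g1.1 hb (le_max_right _ _) (h0 v hv)).2
      have c0 := le_max_left (R + ℓ) 0
      obtain ⟨p1, p2, p3, -, -⟩ := hq
      have g := g1.geoFn hwp.nn conn_box (p1.trans p2) p3
      have c2 := T_le_seg hw.nn (p1.trans p2) g.adj p3
      have c3 := g.add lo hi le_rfl (p1.trans p2) le_rfl
      have c4 : cntJ J (γ v) ℓ * κ ≤ seg wp (γ v) lo hi - seg w (γ v) lo hi := by
        unfold seg cntJ
        rw [← Finset.sum_sub_distrib, ← nsmul_eq_mul]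
        refine le_trans (Finset.card_nsmul_le_sum _
          (fun i => wp s(γ v i, γ v (i + 1)) - w s(γ v i, γ v (i + 1))) κ
          fun i hi => by linarith [(hdiff _ (Finset.mem_filter.1 hi).2).1]) ?_
        refine Finset.sum_le_sum_of_subset_of_nonneg ((Finset.filter_subset _ _).trans
          (Finset.Ico_subset_Ico p1 (by omega))) fun i _ _ => by
            linarith [hle s(γ v i, γ v (i + 1))]
      have c5 : j₀ * κ ≤ cntJ J (γ v) ℓ * κ := by gcongr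
      refine ⟨by linarith, ?_⟩
      have c6 := T_diff_on hw hle J hoff conn_box (p3 lo le_rfl (p1.trans p2))
        (p3 hi (p1.trans p2) le_rfl)
      have c7 := Finset.sum_le_card_nsmul
        (J.filter fun e => EdgeOn (box o n) w (γ v lo) (γ v hi) e) (fun e => wp e - w e) M
        fun e he => by linarith [(hdiff e (Finset.mem_filter.1 he).1).2]
      rw [nsmul_eq_mul] at c7
      rw [hcnt, div_le_iff₀ hM]
      linarith⟩) hμ0
  refine app_wrap hb fun o n hn hQ => ?_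
  refine hQ.trans (mul_le_mul_of_nonneg_left (mass_mono hw.nn hn fun i j => bud_ind_mono ?_) hμ0)
  rintro ⟨-, h⟩
  rw [hcnt] at h
  exact h

end Vale.Agent.P158
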