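import Vale.Agent.P158.Model

/-! Elementary facts: boxes, walks, restricted passage times. -/

namespace Vale.Agent.P158

open Finset MeasureTheory Filter
open scoped NNReal ENNReal Classical Topology

variable {S S' B : Set V} {w w' wp : Wt} {x y z a b c c' d d' o s v : V} {f g γ γ' : ℤ → V}
  {lo hi lo' hi' i j k n m r : ℤ}

theorem adj_iff : grid.Adj a b ↔ (a.1 = b.1 ∧ (a.2 = b.2 + 1 ∨ b.2 = a.2 + 1)) ∨
    (a.2 = b.2 ∧ (a.1 = b.1 + 1 ∨ b.1 = a.1 + 1)) := by
  change |a.1 - b.1| + |a.2 - b.2| = 1 ↔ _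
  rcases abs_cases (a.1 - b.1) with h1 | h1 <;> rcases abs_cases (a.2 - b.2) with h2 | h2 <;> omega

theorem mem_rect : v ∈ rect c m n ↔ c.1 ≤ v.1 ∧ v.1 ≤ c.1 + m ∧ c.2 ≤ v.2 ∧ v.2 ≤ c.2 + n :=
  Iff.rfl

theorem mem_box : v ∈ box o n ↔ o.1 ≤ v.1 ∧ v.1 ≤ o.1 + n ∧ o.2 ≤ v.2 ∧ v.2 ≤ o.2 + n := Iff.rfl

theorem mem_ball : v ∈ ball a r ↔ a.1 - r ≤ v.1 ∧ v.1 ≤ a.1 + r ∧ a.2 - r ≤ v.2 ∧ v.2 ≤ a.2 + r := by
  unfold ball
  rw [mem_rect]
  constructor <;> rintro ⟨h1, h2, h3, h4⟩ <;> simp only at * <;> omega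

theorem mem_rectF : v ∈ rectF c m n ↔ v ∈ rect c m n := by
  unfold rectF
  rw [mem_rect, Finset.mem_product, Finset.mem_Icc, Finset.mem_Icc]
  tauto

theorem mem_boxF : v ∈ boxF o n ↔ v ∈ box o n := mem_rectF

theorem mem_ballF : v ∈ ballF a r ↔ v ∈ ball a r := mem_rectF

theorem card_rectF (hm : 0 ≤ m) (hn : 0 ≤ n) : ((rectF c m n).card : ℤ) = (m + 1) * (n + 1) := by
  unfold rectF
  rw [Finset.card_product, Int.card_Icc, Int.card_Icc]
  push_cast
  rw [Int.toNat_of_nonneg (by omega), Int.toNat_of_nonneg (by omega)]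
  ring

theorem finite_ball : (ball a r).Finite := by
  refine (ballF a r).finite_toSet.subset fun v hv => ?_
  exact Finset.mem_coe.2 (mem_ballF.2 hv)

theorem basic_conn
    (hS : ∀ x ∈ S, ∀ y ∈ S, ∀ z : V, min x.1 y.1 ≤ z.1 → z.1 ≤ max x.1 y.1 → min x.2 y.2 ≤ z.2 →
      z.2 ≤ max x.2 y.2 → z ∈ S) : Conn S := by
  have key : ∀ N : ℕ, ∀ x ∈ S, ∀ y ∈ S, (x.1 - y.1).natAbs + (x.2 - y.2).natAbs = N →
      ∃ p : grid.Walk x y, In S p := by
    intro N
    induction N with
    | zero =>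
      intro x hx y hy h
      obtain rfl : x = y := Prod.ext (by omega) (by omega)
      refine ⟨SimpleGraph.Walk.nil, fun v hv => ?_⟩
      simp only [SimpleGraph.Walk.support_nil, List.mem_singleton] at hv
      rwa [hv]
    | succ N ih =>
      intro x hx y hy h
      have step : ∀ z : V, grid.Adj x z → min x.1 y.1 ≤ z.1 → z.1 ≤ max x.1 y.1 →
          min x.2 y.2 ≤ z.2 → z.2 ≤ max x.2 y.2 →
          (z.1 - y.1).natAbs + (z.2 - y.2).natAbs = N → ∃ p : grid.Walk x y, In S p := by
        intro z hz h1 h2 h3 h4 h5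
        obtain ⟨p, hp⟩ := ih z (hS x hx y hy z h1 h2 h3 h4) y hy h5
        refine ⟨SimpleGraph.Walk.cons hz p, fun v hv => ?_⟩
        rw [SimpleGraph.Walk.support_cons, List.mem_cons] at hv
        rcases hv with rfl | hv
        · exact hx
        · exact hp v hv
      rcases lt_trichotomy x.1 y.1 with h1 | h1 | h1
      · refine step (x.1 + 1, x.2) ?_ ?_ ?_ ?_ ?_ ?_ <;> (try rw [adj_iff]) <;> dsimp only <;> omega
      · rcases lt_trichotomy x.2 y.2 with h2 | h2 | h2
        · refine step (x.1, x.2 + 1) ?_ ?_ ?_ ?_ ?_ ?_ <;> (try rw [adj_iff]) <;> dsimp only <;> omega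
        · omega
        · refine step (x.1, x.2 - 1) ?_ ?_ ?_ ?_ ?_ ?_ <;> (try rw [adj_iff]) <;> dsimp only <;> omega
      · refine step (x.1 - 1, x.2) ?_ ?_ ?_ ?_ ?_ ?_ <;> (try rw [adj_iff]) <;> dsimp only <;> omega
  exact fun x hx y hy => key _ x hx y hy rfl

theorem conn_rect : Conn (rect c m n) := by
  exact basic_conn fun x hx y hy z h1 h2 h3 h4 => by
    rw [mem_rect] at *
    omega

theorem conn_box : Conn (box o n) := conn_rect

theorem conn_ball : Conn (ball a r) := conn_rect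

theorem conn_univ : Conn Set.univ := by
  exact basic_conn fun _ _ _ _ _ _ _ _ _ => Set.mem_univ _

theorem adj_add (h : grid.Adj a b) (s : V) : grid.Adj (a + s) (b + s) := by
  rw [adj_iff] at *
  simp only [Prod.fst_add, Prod.snd_add]
  omega

theorem basic_l1 (hadj : ∀ i, lo ≤ i → i < hi → grid.Adj (f i) (f (i + 1)))
    (hi1 : lo ≤ i) (hij : i ≤ j) (hj2 : j ≤ hi) :
    |(f j).1 - (f i).1| + |(f j).2 - (f i).2| ≤ j - i := by
  induction j, hij using Int.leInduction with
  | base => simp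
  | succ j hij ih =>
    have h1 := ih (by omega)
    have h2 := adj_iff.1 (hadj j (by omega) (by omega))
    rcases abs_cases ((f j).1 - (f i).1) with a1 | a1 <;>
    rcases abs_cases ((f j).2 - (f i).2) with a2 | a2 <;>
    rcases abs_cases ((f (j + 1)).1 - (f i).1) with a3 | a3 <;>
    rcases abs_cases ((f (j + 1)).2 - (f i).2) with a4 | a4 <;> omega

/-- Unit steps move at most one per index. -/
theorem mem_ball_of_adj (hadj : ∀ i, lo ≤ i → i < hi → grid.Adj (f i) (f (i + 1)))
    (hi1 : lo ≤ i) (hi2 : i ≤ hi) (hj1 : lo ≤ j) (hj2 : j ≤ hi) : f j ∈ ball (f i) |j - i| := by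
  rw [mem_ball]
  rcases le_total i j with h | h
  · have := basic_l1 hadj hi1 h hj2
    rw [abs_of_nonneg (by omega : 0 ≤ j - i)]
    have h1 := abs_nonneg ((f j).1 - (f i).1)
    have h2 := abs_nonneg ((f j).2 - (f i).2)
    have h3 := le_abs_self ((f j).1 - (f i).1)
    have h4 := le_abs_self ((f j).2 - (f i).2)
    have h5 := neg_abs_le ((f j).1 - (f i).1)
    have h6 := neg_abs_le ((f j).2 - (f i).2)
    omega
  · have := basic_l1 hadj hj1 h hi2
    rw [abs_of_nonpos (by omega : j - i ≤ 0)]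
    have h1 := abs_nonneg ((f i).1 - (f j).1)
    have h2 := abs_nonneg ((f i).2 - (f j).2)
    have h3 := le_abs_self ((f i).1 - (f j).1)
    have h4 := le_abs_self ((f i).2 - (f j).2)
    have h5 := neg_abs_le ((f i).1 - (f j).1)
    have h6 := neg_abs_le ((f i).2 - (f j).2)
    omega

/-- The l1 version. -/
theorem l1_le_of_adj (hadj : ∀ i, lo ≤ i → i < hi → grid.Adj (f i) (f (i + 1)))
    (hi1 : lo ≤ i) (hij : i ≤ j) (hj2 : j ≤ hi) :
    |(f j).1 - (f i).1| + |(f j).2 - (f i).2| ≤ j - i := by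
  exact basic_l1 hadj hi1 hij hj2

theorem Nice.nn (hw : Nice w) : NN w := fun e => (hw.pos e).le

theorem wt_nonneg (hw : NN w) (p : grid.Walk x y) : 0 ≤ wt w p := by
  refine List.sum_nonneg fun t ht => ?_
  obtain ⟨e, -, rfl⟩ := List.mem_map.1 ht
  exact hw e

theorem wt_append (p : grid.Walk x y) (q : grid.Walk y z) :
    wt w (p.append q) = wt w p + wt w q := by
  simp [wt]

theorem wt_reverse (p : grid.Walk x y) : wt w p.reverse = wt w p := by
  simp [wt, List.sum_reverse]

theorem wt_cons (h : grid.Adj x y) (p : grid.Walk y z) :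
    wt w (SimpleGraph.Walk.cons h p) = w s(x, y) + wt w p := by
  simp [wt]

theorem wt_bypass_le (hw : NN w) (p : grid.Walk x y) : wt w p.bypass ≤ wt w p := by
  refine List.Sublist.sum_le_sum (p.edges_bypass_sublist_edges.map w) fun t ht => ?_
  obtain ⟨e, -, rfl⟩ := List.mem_map.1 ht
  exact hw e

theorem T_nonneg (hw : NN w) : 0 ≤ T S w x y := by
  exact Real.iInf_nonneg fun p => wt_nonneg hw p.1

theorem T_le_wt (hw : NN w) {p : grid.Walk x y} (hp : In S p) : T S w x y ≤ wt w p := by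
  have hb : BddBelow (Set.range fun p : {p : grid.Walk x y // In S p} => wt w p.1) :=
    ⟨0, by rintro _ ⟨q, rfl⟩; exact wt_nonneg hw q.1⟩
  exact ciInf_le hb ⟨p, hp⟩

theorem le_T (hw : NN w) (hS : Conn S) (hx : x ∈ S) (hy : y ∈ S) {C : ℝ}
    (h : ∀ p : grid.Walk x y, In S p → p.IsPath → C ≤ wt w p) : C ≤ T S w x y := by
  obtain ⟨p0, hp0⟩ := hS x hx y hy
  have : Nonempty {p : grid.Walk x y // In S p} := ⟨⟨p0, hp0⟩⟩
  refine le_ciInf fun p => ?_
  refine le_trans (h p.1.bypass (fun v hv => p.2 v (p.1.support_bypass_subset_support hv))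
    p.1.bypass_isPath) (wt_bypass_le hw p.1)

theorem T_self (hw : NN w) (hx : x ∈ S) : T S w x x = 0 := by
  refine le_antisymm ?_ (T_nonneg hw)
  have h : In S (SimpleGraph.Walk.nil : grid.Walk x x) := by
    intro v hv
    simp only [SimpleGraph.Walk.support_nil, List.mem_singleton] at hv
    rwa [hv]
  simpa [wt] using T_le_wt hw h

theorem T_comm : T S w x y = T S w y x := by
  have key : ∀ x y : V, (Set.range fun p : {p : grid.Walk x y // In S p} => wt w p.1) ⊆
      Set.range fun p : {p : grid.Walk y x // In S p} => wt w p.1 := by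
    rintro x y _ ⟨p, rfl⟩
    refine ⟨⟨p.1.reverse, fun v hv => p.2 v ?_⟩, wt_reverse p.1⟩
    simpa using hv
  unfold T iInf
  rw [Set.Subset.antisymm (key x y) (key y x)]

theorem T_tri (hw : NN w) (hS : Conn S) (hx : x ∈ S) (hy : y ∈ S) (hz : z ∈ S) :
    T S w x z ≤ T S w x y + T S w y z := by
  have h1 : ∀ q : grid.Walk y z, In S q → T S w x z - wt w q ≤ T S w x y := by
    intro q hq
    refine le_T hw hS hx hy fun p hp _ => ?_
    have : In S (p.append q) := by
      intro v hv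
      rcases (SimpleGraph.Walk.mem_support_append_iff p q).1 hv with h | h
      · exact hp v h
      · exact hq v h
    have h2 := T_le_wt hw this
    rw [wt_append] at h2
    linarith
  have h2 : T S w x z - T S w x y ≤ T S w y z :=
    le_T hw hS hy hz fun q hq _ => by linarith [h1 q hq]
  linarith

theorem T_adj (hw : NN w) (h : grid.Adj a b) (ha : a ∈ S) (hb : b ∈ S) :
    T S w a b ≤ w s(a, b) := by
  have hp : In S (SimpleGraph.Walk.cons h SimpleGraph.Walk.nil) := by
    intro v hv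
    simp only [SimpleGraph.Walk.support_cons, SimpleGraph.Walk.support_nil, List.mem_cons,
      List.not_mem_nil, or_false] at hv
    rcases hv with rfl | rfl <;> assumption
  simpa [wt] using T_le_wt hw hp

theorem T_mono_w (hw : NN w) (hle : ∀ e, w e ≤ w' e) (hS : Conn S) (hx : x ∈ S) (hy : y ∈ S) :
    T S w x y ≤ T S w' x y := by
  refine le_T (fun e => (hw e).trans (hle e)) hS hx hy fun p hp _ => ?_
  refine (T_le_wt hw hp).trans ?_
  exact List.sum_le_sum fun e _ => hle e

theorem T_mono_S (hw : NN w) (hS : Conn S) (hx : x ∈ S) (hy : y ∈ S) (h : S ⊆ S') :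
    T S' w x y ≤ T S w x y := by
  exact le_T hw hS hx hy fun p hp _ => T_le_wt hw fun v hv => h (hp v hv)

theorem T_diff (hw : NN w) (hle : ∀ e, w e ≤ w' e) (J : Finset (Sym2 V))
    (hoff : ∀ e, e ∉ J → w' e = w e) (hS : Conn S) (hx : x ∈ S) (hy : y ∈ S) :
    T S w' x y ≤ T S w x y + ∑ e ∈ J, (w' e - w e) := by
  have hw' : NN w' := fun e => (hw e).trans (hle e)
  have key : T S w' x y - ∑ e ∈ J, (w' e - w e) ≤ T S w x y := by
    refine le_T hw hS hx hy fun p hp hpath => ?_
    have h1 := T_le_wt hw' hp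
    have hnd : p.edges.Nodup := hpath.isTrail.edges_nodup
    have h2 : wt w' p - wt w p = ∑ e ∈ p.edges.toFinset, (w' e - w e) := by
      unfold wt
      rw [Finset.sum_sub_distrib, List.sum_toFinset _ hnd, List.sum_toFinset _ hnd]
    have h3 : ∑ e ∈ p.edges.toFinset, (w' e - w e) ≤ ∑ e ∈ J, (w' e - w e) := by
      rw [← Finset.sum_filter_add_sum_filter_not p.edges.toFinset (· ∈ J)]
      have h4 : ∑ e ∈ p.edges.toFinset with e ∉ J, (w' e - w e) = 0 := by
        refine Finset.sum_eq_zero fun e he => ?_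
        rw [hoff e (Finset.mem_filter.1 he).2, sub_self]
      rw [h4, add_zero]
      exact Finset.sum_le_sum_of_subset_of_nonneg (fun e he => (Finset.mem_filter.1 he).2)
        fun e _ _ => sub_nonneg.2 (hle e)
    linarith
  linarith

theorem seg_self : seg w f i i = 0 := by
  simp [seg]

theorem seg_add (hij : i ≤ j) (hjk : j ≤ k) : seg w f i j + seg w f j k = seg w f i k := by
  unfold seg
  rw [← Finset.sum_union (Finset.Ico_disjoint_Ico_consecutive i j k),
    Finset.Ico_union_Ico_eq_Ico hij hjk]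

theorem seg_succ : seg w f i (i + 1) = w s(f i, f (i + 1)) := by
  unfold seg
  have : Ico i (i + 1) = {i} := by
    ext t
    simp only [Finset.mem_Ico, Finset.mem_singleton]
    omega
  rw [this, Finset.sum_singleton]

theorem seg_nonneg (hw : NN w) : 0 ≤ seg w f i j := by
  exact Finset.sum_nonneg fun _ _ => hw _

theorem seg_shift : seg w (fun t => f (t + k)) i j = seg w f (i + k) (j + k) := by
  unfold seg
  refine Finset.sum_bij' (fun t _ => t + k) (fun t _ => t - k) ?_ ?_ ?_ ?_ ?_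
  · intro t ht
    rw [Finset.mem_Ico] at *
    omega
  · intro t ht
    rw [Finset.mem_Ico] at *
    omega
  · intro t _
    simp
  · intro t _
    simp
  · intro t _
    simp only
    rw [add_right_comm t 1 k]

theorem seg_neg : seg w (fun t => f (-t)) i j = seg w f (-j) (-i) := by
  unfold seg
  refine Finset.sum_bij' (fun t _ => -t - 1) (fun t _ => -t - 1) ?_ ?_ ?_ ?_ ?_
  · intro t ht
    rw [Finset.mem_Ico] at *
    omega
  · intro t ht
    rw [Finset.mem_Ico] at *
    omega
  · intro t _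
    simp
  · intro t _
    simp
  · intro t _
    simp only
    rw [Sym2.eq_swap, show -(t + 1) = -t - 1 by ring, show -t - 1 + 1 = -t by ring]

/-- The walk along a sequence of unit steps. -/
theorem exists_walk_seg (hle : lo ≤ hi)
    (hadj : ∀ i, lo ≤ i → i < hi → grid.Adj (f i) (f (i + 1))) :
    ∃ p : grid.Walk (f lo) (f hi), (∀ w : Wt, wt w p = seg w f lo hi) ∧
      (∀ v, v ∈ p.support ↔ ∃ i, lo ≤ i ∧ i ≤ hi ∧ f i = v) ∧
      (∀ e, e ∈ p.edges ↔ ∃ i, lo ≤ i ∧ i < hi ∧ e = s(f i, f (i + 1))) ∧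
      (p.length : ℤ) = hi - lo ∧ (Set.InjOn f (Set.Icc lo hi) → p.IsPath) := by
  induction hi, hle using Int.leInduction with
  | base =>
    refine ⟨SimpleGraph.Walk.nil, fun w => by simp [wt, seg], fun v => ?_, fun e => ?_, by simp,
      fun _ => SimpleGraph.Walk.IsPath.nil⟩
    · simp only [SimpleGraph.Walk.support_nil, List.mem_singleton]
      constructor
      · rintro rfl
        exact ⟨lo, le_rfl, le_rfl, rfl⟩
      · rintro ⟨i, h1, h2, rfl⟩
        rw [le_antisymm h2 h1]
    · simp only [SimpleGraph.Walk.edges_nil, List.not_mem_nil, false_iff]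
      rintro ⟨i, h1, h2, -⟩
      omega
  | succ hi hle ih =>
    obtain ⟨p, h1, h2, h3, h4, h5⟩ := ih fun i a b => hadj i a (by omega)
    have ha := hadj hi hle (by omega)
    refine ⟨p.concat ha, fun w => ?_, fun v => ?_, fun e => ?_, ?_, fun hinj => ?_⟩
    · rw [← seg_add hle (by omega : hi ≤ hi + 1), seg_succ, ← h1 w]
      simp [wt]
    · rw [SimpleGraph.Walk.support_concat, List.mem_append, h2, List.mem_singleton]
      constructor
      · rintro (⟨i, a, b, c⟩ | rfl)
        · exact ⟨i, a, by omega, c⟩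
        · exact ⟨hi + 1, by omega, le_rfl, rfl⟩
      · rintro ⟨i, a, b, c⟩
        rcases eq_or_lt_of_le b with h | h
        · right
          rw [← c, h]
        · exact Or.inl ⟨i, a, by omega, c⟩
    · rw [SimpleGraph.Walk.edges_concat, List.concat_eq_append, List.mem_append, h3,
        List.mem_singleton]
      constructor
      · rintro (⟨i, a, b, c⟩ | rfl)
        · exact ⟨i, a, by omega, c⟩
        · exact ⟨hi, hle, by omega, rfl⟩
      · rintro ⟨i, a, b, c⟩
        rcases eq_or_lt_of_le (show i ≤ hi by omega) with h | h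
        · right
          rw [c, h]
        · exact Or.inl ⟨i, a, h, c⟩
    · rw [SimpleGraph.Walk.length_concat]
      push_cast
      omega
    · rw [SimpleGraph.Walk.concat_isPath_iff]
      refine ⟨h5 (hinj.mono (Set.Icc_subset_Icc_right (by omega))), fun hm => ?_⟩
      obtain ⟨i, a, b, c⟩ := (h2 _).1 hm
      have := hinj (Set.mem_Icc.2 ⟨a, by omega⟩) (Set.mem_Icc.2 ⟨by omega, le_rfl⟩) c
      omega

theorem basic_wt_range (p : grid.Walk x y) :
    wt w p = ∑ t ∈ range p.length, w s(p.getVert t, p.getVert (t + 1)) := by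
  induction p with
  | nil => simp [wt]
  | cons h p ih =>
    rw [wt_cons, ih, SimpleGraph.Walk.length_cons, Finset.sum_range_succ', add_comm]
    simp

/-- The sequence of vertices of a walk. -/
theorem exists_fn_walk (p : grid.Walk x y) :
    ∃ f : ℤ → V, f 0 = x ∧ f p.length = y ∧
      (∀ i, 0 ≤ i → i < p.length → grid.Adj (f i) (f (i + 1))) ∧
      (∀ w : Wt, wt w p = seg w f 0 p.length) ∧
      (∀ v, v ∈ p.support ↔ ∃ i : ℤ, 0 ≤ i ∧ i ≤ p.length ∧ f i = v) ∧
      (∀ e, e ∈ p.edges ↔ ∃ i : ℤ, 0 ≤ i ∧ i < p.length ∧ e = s(f i, f (i + 1))) ∧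
      (p.IsPath → Set.InjOn f (Set.Icc 0 p.length)) := by
  have hs : ∀ i : ℤ, 0 ≤ i → (i + 1).toNat = i.toNat + 1 := fun i h => by omega
  refine ⟨fun i => p.getVert i.toNat, by simp, by simp, fun i h1 h2 => ?_, fun w => ?_,
    fun v => ?_, fun e => ?_, fun hp i hi j hj h => ?_⟩
  · simp only
    rw [hs i (by omega)]
    exact p.adj_getVert_succ (by omega)
  · rw [basic_wt_range]
    unfold seg
    refine Finset.sum_bij' (fun t _ => (t : ℤ)) (fun t _ => t.toNat) ?_ ?_ ?_ ?_ ?_
    · intro t ht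
      rw [Finset.mem_range] at ht
      rw [Finset.mem_Ico]
      omega
    · intro t ht
      rw [Finset.mem_Ico] at ht
      rw [Finset.mem_range]
      omega
    · intro t _
      simp
    · intro t ht
      rw [Finset.mem_Ico] at ht
      omega
    · intro t _
      simp only
      rw [hs t (by omega), Int.toNat_natCast]
  · rw [SimpleGraph.Walk.mem_support_iff_exists_getVert]
    constructor
    · rintro ⟨t, h1, h2⟩
      exact ⟨t, by omega, by omega, by simpa using h1⟩
    · rintro ⟨i, h1, h2, h3⟩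
      exact ⟨i.toNat, h3, by omega⟩
  · induction e using Sym2.ind with
    | _ u v =>
      rw [SimpleGraph.Walk.mk_mem_edges_iff_exists]
      constructor
      · rintro ⟨t, h1, h2⟩
        refine ⟨t, by omega, by omega, ?_⟩
        simp only
        rw [hs t (by omega), Int.toNat_natCast, h2]
      · rintro ⟨i, h1, h2, h3⟩
        refine ⟨i.toNat, by omega, ?_⟩
        rw [h3]
        simp only
        rw [hs i h1]
  · rw [Set.mem_Icc] at hi hj
    have := hp.getVert_injOn (show i.toNat ≤ p.length by omega) (show j.toNat ≤ p.length by omega) h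
    omega

theorem T_le_seg (hw : NN w) (hle : lo ≤ hi)
    (hadj : ∀ i, lo ≤ i → i < hi → grid.Adj (f i) (f (i + 1)))
    (hmem : ∀ i, lo ≤ i → i ≤ hi → f i ∈ S) : T S w (f lo) (f hi) ≤ seg w f lo hi := by
  obtain ⟨p, h1, h2, -⟩ := exists_walk_seg hle hadj
  rw [← h1 w]
  refine T_le_wt hw fun v hv => ?_
  obtain ⟨i, a, b, rfl⟩ := (h2 v).1 hv
  exact hmem i a b

theorem geoFn_of_seg (hw : NN w) (hS : Conn S) (hle : lo ≤ hi)
    (hadj : ∀ i, lo ≤ i → i < hi → grid.Adj (f i) (f (i + 1)))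
    (hmem : ∀ i, lo ≤ i → i ≤ hi → f i ∈ S) (h : seg w f lo hi ≤ T S w (f lo) (f hi)) :
    GeoFn S w (f lo) (f hi) f lo hi := by
  refine ⟨hle, rfl, rfl, hadj, hmem, fun i j h1 h2 h3 => ?_⟩
  have a1 : T S w (f lo) (f i) ≤ seg w f lo i :=
    T_le_seg hw h1 (fun t a b => hadj t a (by omega)) fun t a b => hmem t a (by omega)
  have a2 : T S w (f i) (f j) ≤ seg w f i j :=
    T_le_seg hw h2 (fun t a b => hadj t (by omega) (by omega))
      fun t a b => hmem t (by omega) (by omega)
  have a3 : T S w (f j) (f hi) ≤ seg w f j hi :=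
    T_le_seg hw h3 (fun t a b => hadj t (by omega) b) fun t a b => hmem t (by omega) b
  have m0 := hmem lo le_rfl hle
  have m1 := hmem i h1 (by omega)
  have m2 := hmem j (by omega) h3
  have m3 := hmem hi hle le_rfl
  have b1 := T_tri hw hS m0 m1 m3
  have b2 := T_tri hw hS m1 m2 m3
  have c1 := seg_add (w := w) (f := f) h1 (show i ≤ hi by omega)
  have c2 := seg_add (w := w) (f := f) h2 h3
  linarith

/-- Distinct indices of an injective unit-step sequence carry distinct edges. -/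
theorem PathFn.edge_inj (h : PathFn f lo hi) (hi1 : lo ≤ i) (hi2 : i < hi) (hj1 : lo ≤ j)
    (hj2 : j < hi) (he : s(f i, f (i + 1)) = s(f j, f (j + 1))) : i = j := by
  have key : ∀ a b : ℤ, lo ≤ a → a ≤ hi → lo ≤ b → b ≤ hi → f a = f b → a = b :=
    fun a b a1 a2 b1 b2 e => h.2 (Set.mem_Icc.2 ⟨a1, a2⟩) (Set.mem_Icc.2 ⟨b1, b2⟩) e
  rcases Sym2.eq_iff.1 he with ⟨e1, -⟩ | ⟨e1, e2⟩
  · exact key i j hi1 hi2.le hj1 hj2.le e1
  · have a1 := key i (j + 1) hi1 hi2.le (by omega) (by omega) e1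
    have a2 := key (i + 1) j (by omega) (by omega) hj1 hj2.le e2
    omega

theorem PathFn.shift (h : PathFn f lo hi) (hi1 : lo ≤ i) (hj : j ≤ hi) :
    PathFn (fun t => f (t + i)) 0 (j - i) := by
  refine ⟨fun t h1 h2 => ?_, fun a ha b hb e => ?_⟩
  · simp only
    rw [add_right_comm t 1 i]
    exact h.1 _ (by omega) (by omega)
  · rw [Set.mem_Icc] at ha hb
    have := h.2 (Set.mem_Icc.2 ⟨by omega, by omega⟩) (Set.mem_Icc.2 ⟨by omega, by omega⟩) e
    omega

theorem PathFn.neg (h : PathFn f lo hi) : PathFn (fun t => f (-t)) (-hi) (-lo) := by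
  refine ⟨fun t h1 h2 => ?_, fun a ha b hb e => ?_⟩
  · have := (h.1 (-(t + 1)) (by omega) (by omega)).symm
    rwa [show -(t + 1) + 1 = -t by ring] at this
  · rw [Set.mem_Icc] at ha hb
    have := h.2 (Set.mem_Icc.2 ⟨by omega, by omega⟩) (Set.mem_Icc.2 ⟨by omega, by omega⟩) e
    omega

/-! ### Translation covariance -/

theorem basic_shift (s : V) (p : grid.Walk x y) {x' y' : V} (hx : x' = x + s) (hy : y' = y + s) :
    ∃ q : grid.Walk x' y', (∀ v ∈ q.support, ∃ u ∈ p.support, v = u + s) ∧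
      ∀ w : Wt, wt w q = wt (shiftW s w) p := by
  subst hx hy
  induction p with
  | nil => exact ⟨SimpleGraph.Walk.nil, by simp, fun w => by simp [wt]⟩
  | cons h p ih =>
    obtain ⟨q, h1, h2⟩ := ih
    refine ⟨SimpleGraph.Walk.cons (adj_add h s) q, fun v hv => ?_, fun w => ?_⟩
    · rw [SimpleGraph.Walk.support_cons, List.mem_cons] at hv
      rcases hv with rfl | hv
      · exact ⟨_, by simp, rfl⟩
      · obtain ⟨u, hu, rfl⟩ := h1 v hv
        exact ⟨u, by simp [hu], rfl⟩
    · rw [wt_cons, wt_cons, h2]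
      simp [shiftW]

theorem T_shift (h : ∀ v, v ∈ S ↔ v + s ∈ S') :
    T S (shiftW s w) x y = T S' w (x + s) (y + s) := by
  unfold T iInf
  congr 1
  apply Set.Subset.antisymm
  · rintro _ ⟨p, rfl⟩
    obtain ⟨q, h1, h2⟩ := basic_shift s p.1 rfl rfl
    refine ⟨⟨q, fun v hv => ?_⟩, h2 w⟩
    obtain ⟨u, hu, rfl⟩ := h1 v hv
    exact (h u).1 (p.2 u hu)
  · rintro _ ⟨p, rfl⟩
    obtain ⟨q, h1, h2⟩ := basic_shift (-s) p.1 (x' := x) (y' := y) (by simp) (by simp)
    refine ⟨⟨q, fun v hv => ?_⟩, ?_⟩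
    · obtain ⟨u, hu, rfl⟩ := h1 v hv
      exact (h _).2 (by simpa using p.2 u hu)
    · simp only
      rw [h2]
      congr 1
      funext e
      induction e using Sym2.ind with
      | _ u v => simp [shiftW]

theorem box_shift : v ∈ box o n ↔ v + s ∈ box (o + s) n := by
  rw [mem_box, mem_box]
  simp only [Prod.fst_add, Prod.snd_add]
  omega

theorem ball_shift : v ∈ ball a r ↔ v + s ∈ ball (a + s) r := by
  rw [mem_ball, mem_ball]
  simp only [Prod.fst_add, Prod.snd_add]
  omega

theorem shiftW_mk : shiftW s w s(a, b) = w s(a + s, b + s) := by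
  simp [shiftW]

theorem seg_shiftW : seg (shiftW s w) f i j = seg w (fun t => f t + s) i j := by
  unfold seg
  exact Finset.sum_congr rfl fun _ _ => shiftW_mk

theorem On_shift (h : ∀ v, v ∈ S ↔ v + s ∈ S') :
    On S (shiftW s w) x c y ↔ On S' w (x + s) (c + s) (y + s) := by
  unfold On
  rw [T_shift h, T_shift h, T_shift h, h c]

theorem DartOn_shift (h : ∀ v, v ∈ S ↔ v + s ∈ S') :
    DartOn S (shiftW s w) x y a b ↔ DartOn S' w (x + s) (y + s) (a + s) (b + s) := by
  unfold DartOn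
  rw [T_shift h, T_shift h, T_shift h, h a, h b, shiftW_mk]
  refine and_congr_left fun _ => ⟨fun h1 => adj_add h1 s, fun h1 => ?_⟩
  simpa using adj_add h1 (-s)

theorem Bi_shiftW : Bi (shiftW s w) γ ↔ Bi w (fun t => γ t + s) := by
  unfold Bi
  refine and_congr (forall_congr' fun i => ⟨fun h1 => adj_add h1 s, fun h1 => ?_⟩) ?_
  · simpa using adj_add h1 (-s)
  · refine forall_congr' fun i => forall_congr' fun j => forall_congr' fun _ => ?_
    rw [seg_shiftW, T_shift (S' := Set.univ) fun v => by simp]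

end Vale.Agent.P158
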