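import Vale.Agent.P158.Geod

/-! Compactness of geodesics (ultrafilter limits), passes through a box. -/

namespace Vale.Agent.P158

open Finset MeasureTheory Filter
open scoped NNReal ENNReal Classical Topology

variable {w : Wt} {o a : V} {n : ℤ} {γ : ℤ → V}

theorem cpt_ball_adj {b c : V} (h : grid.Adj b c) : c ∈ ball b 1 ∧ b ∈ ball c 1 := by
  rw [adj_iff] at h
  simp only [mem_ball]
  omega

theorem cpt_ball_mono {r r' : ℤ} (h : r ≤ r') : ball a r ⊆ ball a r' := by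
  intro v hv
  rw [mem_ball] at hv ⊢
  omega

theorem cpt_mem_ball_zero {v : V} : v ∈ ball a 0 ↔ v = a := by
  rw [mem_ball, Prod.ext_iff]
  omega

theorem cpt_seg_congr {w' : Wt} {f g : ℤ → V} {i j : ℤ}
    (h : ∀ k, i ≤ k → k < j → w s(f k, f (k + 1)) = w' s(g k, g (k + 1))) :
    seg w f i j = seg w' g i j :=
  Finset.sum_congr rfl fun k hk => h k (Finset.mem_Ico.1 hk).1 (Finset.mem_Ico.1 hk).2

theorem cpt_le_upE {e : Sym2 V} {δ : ℝ} (hδ : 0 ≤ δ) (e' : Sym2 V) : w e' ≤ upE w e δ e' := by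
  unfold upE
  by_cases h : e' = e
  · subst h
    rw [Function.update_self]
    linarith
  · rw [Function.update_of_ne h]

theorem cpt_upE_self {e : Sym2 V} {δ : ℝ} : upE w e δ e = w e + δ := by
  unfold upE
  rw [Function.update_self]

theorem cpt_upE_ne {e e' : Sym2 V} {δ : ℝ} (h : e' ≠ e) : upE w e δ e' = w e' := by
  unfold upE
  rw [Function.update_of_ne h]

theorem cpt_seg_upE {δ : ℝ} (hδ : 0 ≤ δ) {f : ℤ → V} {i j k : ℤ} (hik : i ≤ k) (hkj : k < j) :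
    seg w f i j + δ ≤ seg (upE w s(f k, f (k + 1)) δ) f i j := by
  unfold seg
  have hk : k ∈ Ico i j := Finset.mem_Ico.2 ⟨hik, hkj⟩
  rw [← Finset.add_sum_erase _ _ hk, ← Finset.add_sum_erase _ _ hk, cpt_upE_self]
  have := Finset.sum_le_sum (s := (Ico i j).erase k)
    fun l _ => cpt_le_upE (w := w) (e := s(f k, f (k + 1))) hδ s(f l, f (l + 1))
  linarith

theorem cpt_ev_ge (K : ℤ) : ∀ᶠ t : ℕ in (hyperfilter ℕ : Filter ℕ), K ≤ (t : ℤ) := by
  refine Filter.Eventually.filter_mono Nat.hyperfilter_le_atTop ?_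
  filter_upwards [eventually_ge_atTop K.toNat] with t ht
  omega

theorem cpt_half_pass {f : ℤ → V} (hadj : ∀ i, grid.Adj (f i) (f (i + 1)))
    (hinj : Function.Injective f) (h0 : f 0 ∈ box o n) :
    ∃ hi, 0 ≤ hi ∧ (∀ k, 0 ≤ k → k ≤ hi → f k ∈ box o n) ∧ f hi ∈ bdry o n := by
  have hfin : (box o n).Finite := (boxF o n).finite_toSet.subset fun v hv => mem_boxF.2 hv
  obtain ⟨K, hK⟩ : ∃ K : ℤ, 0 ≤ K ∧ f K ∉ box o n := by
    by_contra hcon
    push Not at hcon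
    exact (Set.Ici_infinite (0 : ℤ)) ((hfin.preimage hinj.injOn).subset fun k hk => hcon k hk)
  obtain ⟨l, ⟨hl0, hl⟩, hmin⟩ := Int.exists_least_of_bdd (P := fun k => 0 ≤ k ∧ f k ∉ box o n)
    ⟨0, fun z hz => hz.1⟩ ⟨K, hK⟩
  have hl1 : l ≠ 0 := by
    rintro rfl
    exact hl h0
  have hin : ∀ k, 0 ≤ k → k ≤ l - 1 → f k ∈ box o n := by
    intro k hk hk'
    by_contra hc
    have := hmin k ⟨hk, hc⟩
    omega
  refine ⟨l - 1, by omega, hin, hin _ (by omega) le_rfl, ?_⟩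
  have h1 := hin (l - 1) (by omega) le_rfl
  have h2 := hadj (l - 1)
  rw [sub_add_cancel, adj_iff] at h2
  rw [mem_box] at h1 hl
  omega

theorem ulim (U : Ultrafilter ℕ) (g : ℕ → ℤ → V) (B : Set V) (hB : B.Finite)
    (h0 : ∀ᶠ t in (U : Filter ℕ), g t 0 ∈ B)
    (hadj : ∀ i, ∀ᶠ t in (U : Filter ℕ), grid.Adj (g t i) (g t (i + 1))) :
    ∃ γ : ℤ → V, ∀ i, ∀ᶠ t in (U : Filter ℕ), g t i = γ i := by
  have h : ∀ i : ℤ, ∃ b, ∀ᶠ t in (U : Filter ℕ), g t i = b := by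
    intro i
    induction i using Int.induction_on with
    | zero =>
      obtain ⟨b, -, hb⟩ := (Ultrafilter.eventually_exists_mem_iff (f := U)
        (P := fun b t => g t 0 = b) hB).1 (h0.mono fun t ht => ⟨_, ht, rfl⟩)
      exact ⟨b, hb⟩
    | succ i ih =>
      obtain ⟨c, hc⟩ := ih
      obtain ⟨b, -, hb⟩ := (Ultrafilter.eventually_exists_mem_iff (f := U)
        (P := fun b t => g t (i + 1) = b) (finite_ball (a := c) (r := 1))).1 (by
          filter_upwards [hc, hadj i] with t h1 h2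
          exact ⟨_, h1 ▸ (cpt_ball_adj h2).1, rfl⟩)
      exact ⟨b, hb⟩
    | pred i ih =>
      obtain ⟨c, hc⟩ := ih
      obtain ⟨b, -, hb⟩ := (Ultrafilter.eventually_exists_mem_iff (f := U)
        (P := fun b t => g t (-i - 1) = b) (finite_ball (a := c) (r := 1))).1 (by
          filter_upwards [hc, hadj (-i - 1)] with t h1 h2
          rw [sub_add_cancel] at h2
          exact ⟨_, h1 ▸ (cpt_ball_adj h2).2, rfl⟩)
      exact ⟨b, hb⟩
  choose γ hγ using h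
  exact ⟨γ, hγ⟩

/-- A sequence in a finite set has an ultrafilter limit value. -/
theorem ulim_fin {α : Type*} (U : Ultrafilter ℕ) (g : ℕ → α) (B : Set α) (hB : B.Finite)
    (h0 : ∀ᶠ t in (U : Filter ℕ), g t ∈ B) : ∃ b ∈ B, ∀ᶠ t in (U : Filter ℕ), g t = b := by
  exact (Ultrafilter.eventually_exists_mem_iff (f := U) (P := fun b t => g t = b) hB).1
    (h0.mono fun t ht => ⟨_, ht, rfl⟩)

theorem T_stab_ev (hw : Nice w) (U : Filter ℕ) (S : ℕ → Set V) (hS : ∀ t, Conn (S t))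
    (hex : ∀ R, ∀ᶠ t in U, ball a R ⊆ S t) (x y : V) :
    ∀ᶠ t in U, x ∈ S t ∧ y ∈ S t ∧ T (S t) w x y = T Set.univ w x y := by
  obtain ⟨R, hy, hR⟩ := T_stab hw x y
  filter_upwards [hex (R + |x.1 - a.1| + |x.2 - a.2|)] with t ht
  have hsub : ball x R ⊆ S t := by
    intro v hv
    apply ht
    rw [mem_ball] at hv ⊢
    have h1 := le_abs_self (x.1 - a.1)
    have h2 := neg_abs_le (x.1 - a.1)
    have h3 := le_abs_self (x.2 - a.2)
    have h4 := neg_abs_le (x.2 - a.2)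
    omega
  refine ⟨hsub ?_, hsub hy, hR _ (hS t) hsub⟩
  rw [mem_ball] at hy ⊢
  omega

/-- Limit of geodesics whose ends go to infinity. -/
theorem lim_bi (hw : Nice w) (U : Ultrafilter ℕ) (S : ℕ → Set V) (hS : ∀ t, Conn (S t))
    (hex : ∀ R, ∀ᶠ t in (U : Filter ℕ), ball a R ⊆ S t) (x y : ℕ → V) (f : ℕ → ℤ → V)
    (lo hi : ℕ → ℤ) (hg : ∀ t, GeoFn (S t) w (x t) (y t) (f t) (lo t) (hi t))
    (hlo : ∀ k, ∀ᶠ t in (U : Filter ℕ), lo t ≤ k) (hhi : ∀ k, ∀ᶠ t in (U : Filter ℕ), k ≤ hi t)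
    (B : Set V) (hB : B.Finite) (h0 : ∀ᶠ t in (U : Filter ℕ), f t 0 ∈ B) :
    ∃ γ : ℤ → V, Bi w γ ∧ γ 0 ∈ B ∧ ∀ i, ∀ᶠ t in (U : Filter ℕ), f t i = γ i := by
  have hadj : ∀ i, ∀ᶠ t in (U : Filter ℕ), grid.Adj (f t i) (f t (i + 1)) := by
    intro i
    filter_upwards [hlo i, hhi (i + 1)] with t h1 h2
    exact (hg t).adj i h1 (by omega)
  obtain ⟨γ, hγ⟩ := ulim U f B hB h0 hadj
  refine ⟨γ, ⟨fun i => ?_, fun i j hij => ?_⟩, ?_, hγ⟩
  · obtain ⟨t, h1, h2, h3⟩ := ((hadj i).and ((hγ i).and (hγ (i + 1)))).exists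
    rwa [h2, h3] at h1
  · have hall : ∀ᶠ t in (U : Filter ℕ), ∀ k ∈ Icc i j, f t k = γ k :=
      (Filter.eventually_all_finset _).2 fun k _ => hγ k
    obtain ⟨t, h1, h2, h3, -, -, h4⟩ := (hall.and ((hlo i).and ((hhi j).and
      (T_stab_ev hw U S hS hex (γ i) (γ j))))).exists
    rw [← h4, ← h1 i (Finset.mem_Icc.2 ⟨le_rfl, hij⟩), ← h1 j (Finset.mem_Icc.2 ⟨hij, le_rfl⟩),
      ← (hg t).add i j h2 hij h3]
    refine cpt_seg_congr fun k hk hk' => ?_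
    rw [h1 k (Finset.mem_Icc.2 ⟨hk, hk'.le⟩), h1 (k + 1) (Finset.mem_Icc.2 ⟨by omega, by omega⟩)]
  · obtain ⟨t, h1, h2⟩ := (h0.and (hγ 0)).exists
    rwa [h2] at h1

theorem escape (hinj : Function.Injective γ) {B : Set V} (hB : B.Finite) :
    ∃ K : ℤ, ∀ i, K ≤ |i| → γ i ∉ B := by
  obtain ⟨K, hK⟩ := ((hB.preimage hinj.injOn).image fun i : ℤ => |i|).bddAbove
  refine ⟨K + 1, fun i hi hB' => ?_⟩
  have := hK ⟨i, hB', rfl⟩
  simp only at this
  omega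

theorem exists_pass (hadj : ∀ i, grid.Adj (γ i) (γ (i + 1))) (hinj : Function.Injective γ)
    (h0 : γ 0 ∈ box o n) : ∃ lo hi, Pass o n γ lo hi := by
  obtain ⟨hi, h1, h2, h3⟩ := cpt_half_pass hadj hinj h0
  obtain ⟨lo, h4, h5, h6⟩ := cpt_half_pass (f := fun t => γ (-t)) (o := o) (n := n)
    (fun i => by
      have := (hadj (-(i + 1))).symm
      rwa [show -(i + 1) + 1 = -i by ring] at this)
    (fun i j hij => neg_injective (hinj hij)) (by simpa using h0)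
  refine ⟨-lo, hi, by omega, h1, fun k hk hk' => ?_, h6, h3⟩
  rcases le_total 0 k with h | h
  · exact h2 k h hk'
  · simpa using h5 (-k) (by omega) (by omega)

theorem Pass.far {lo hi L R : ℤ} (h : Pass o n γ lo hi) (hadj : ∀ i, grid.Adj (γ i) (γ (i + 1)))
    (hL : ball a L ⊆ box o n) (hL0 : 0 ≤ L) (h0 : γ 0 ∈ ball a R) :
    lo ≤ R - L ∧ L - R ≤ hi := by
  obtain ⟨h1, h2, -, ⟨-, h4⟩, ⟨-, h5⟩⟩ := h
  have c1 : (a.1 - L, a.2 - L) ∈ box o n := hL (by rw [mem_ball]; simp only; omega)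
  have c2 : (a.1 + L, a.2 + L) ∈ box o n := hL (by rw [mem_ball]; simp only; omega)
  have b1 := mem_ball_of_adj (f := γ) (lo := lo) (hi := hi) (i := 0) (j := lo)
    (fun i _ _ => hadj i) h1 h2 le_rfl (by omega)
  have b2 := mem_ball_of_adj (f := γ) (lo := lo) (hi := hi) (i := 0) (j := hi)
    (fun i _ _ => hadj i) h1 h2 (by omega) le_rfl
  rw [sub_zero, abs_of_nonpos h1] at b1
  rw [sub_zero, abs_of_nonneg h2] at b2
  rw [mem_ball] at b1 b2 h0
  rw [mem_box] at c1 c2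
  simp only at c1 c2
  omega

end Vale.Agent.P158
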