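import Vale.Agent.P158.Kalm
import Vale.Agent.P158.Cpt

/-! Localisation, separation and the budget lemma. -/

namespace Vale.Agent.P158

open Finset MeasureTheory Filter
open scoped NNReal ENNReal Classical Topology

variable {w wp : Wt} {a : V} {R : ℤ}

theorem bud_far {o x y : V} {n L lo hi : ℤ} {f : ℤ → V} (hg : GeoFn (box o n) w x y f lo hi)
    (hx : x ∈ bdry o n) (hy : y ∈ bdry o n) (h1 : lo ≤ 0) (h2 : 0 ≤ hi) (h0 : f 0 ∈ ball a R)
    (hL : ball a L ⊆ box o n) (hL0 : 0 ≤ L) : lo ≤ R - L ∧ L - R ≤ hi := by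
  have b1 := mem_ball_of_adj (i := 0) (j := lo) hg.adj h1 h2 le_rfl hg.le
  have b2 := mem_ball_of_adj (i := 0) (j := hi) hg.adj h1 h2 hg.le le_rfl
  rw [sub_zero, abs_of_nonpos h1, hg.start] at b1
  rw [sub_zero, abs_of_nonneg h2, hg.stop] at b2
  have c1 := not_mem_ball_of_bdry hL hL0 hx
  have c2 := not_mem_ball_of_bdry hL hL0 hy
  rw [mem_ball] at b1 b2 h0 c1 c2
  omega

theorem bud_ev {Q : V → ℤ → Prop} (h : ∃ L : ℤ, ∀ o n, ball a L ⊆ box o n → Q o n) :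
    ∀ᶠ L : ℤ in atTop, ∀ o n, ball a L ⊆ box o n → Q o n := by
  obtain ⟨L, hL⟩ := h
  filter_upwards [eventually_ge_atTop L] with L' h' o n hb
  exact hL o n ((cpt_ball_mono h').trans hb)

theorem bud_touch_symm {S B : Set V} {x y : V} (h : Touch S w B x y) : Touch S w B y x := by
  obtain ⟨c, hc, h⟩ := h
  exact ⟨c, hc, on_symm.1 h⟩

theorem bud_loc_sub (hw : Nice w) (hK : KP w (ball a R)) :
    ∃ L : ℤ, ∀ o n x x' y, ball a L ⊆ box o n → x ∈ bdry o n → x' ∈ bdry o n → y ∈ bdry o n →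
      Touch (box o n) w (ball a R) x' y → dset o n w a R x y ⊆ dset o n w a R x' y := by
  by_contra hcon
  push Not at hcon
  have h : ∀ t : ℕ, ∃ (o : V) (n : ℤ) (x x' y : V) (f : ℤ → V) (lo hi : ℤ) (g : ℤ → V)
      (lo' hi' : ℤ), ball a t ⊆ box o n ∧ GeoFn (box o n) w x y f lo hi ∧
      GeoFn (box o n) w x' y g lo' hi' ∧ (lo ≤ R - t ∧ t - R ≤ hi) ∧ (lo' ≤ R - t ∧ t - R ≤ hi') ∧
      f 0 ∈ ball a R ∧ g 0 ∈ ball a R ∧ ¬ DartOn (box o n) w x' y (f 0) (f 1) := by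
    intro t
    obtain ⟨o, n, x, x', y, hL, hx, hx', hy, ⟨c, hc, hon⟩, hd⟩ := hcon t
    obtain ⟨d, ⟨d1, d2, d3⟩, hd'⟩ := Set.not_subset.1 hd
    obtain ⟨f, lo, hi, hf, f0, l1, l2⟩ := exists_geoFn hw conn_box hx.1 hy.1
      (d3.on_fst hw.nn conn_box hx.1 hy.1)
    obtain ⟨g, lo', hi', hg, g0, l3, l4⟩ := exists_geoFn hw conn_box hx'.1 hy.1 hon
    obtain ⟨i, i1, i2, i3, i4⟩ := (hf.dart_iff hw conn_box).1 d3
    have i5 : i = 0 := (hf.pathFn hw.pos).2 ⟨i1, i2.le⟩ ⟨l1, l2⟩ (i3.trans f0.symm)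
    subst i5
    rw [zero_add] at i4
    refine ⟨o, n, x, x', y, f, lo, hi, g, lo', hi', hL, hf, hg,
      bud_far hf hx hy l1 l2 (f0 ▸ d1) hL (by omega),
      bud_far hg hx' hy l3 l4 (g0 ▸ hc) hL (by omega), f0 ▸ d1, g0 ▸ hc, fun h => ?_⟩
    rw [i3, i4] at h
    exact hd' ⟨d1, d2, h⟩
  choose o n x x' y f lo hi g lo' hi' hL hf hg hfar hfar' f0 g0 hnd using h
  have hex : ∀ R', ∀ᶠ t : ℕ in (hyperfilter ℕ : Filter ℕ), ball a R' ⊆ box (o t) (n t) :=
    fun R' => (cpt_ev_ge R').mono fun t ht => (cpt_ball_mono ht).trans (hL t)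
  have e1 : ∀ k, ∀ᶠ t : ℕ in (hyperfilter ℕ : Filter ℕ), lo t ≤ k :=
    fun k => (cpt_ev_ge (R - k)).mono fun t ht => by have := hfar t; omega
  have e2 : ∀ k, ∀ᶠ t : ℕ in (hyperfilter ℕ : Filter ℕ), k ≤ hi t :=
    fun k => (cpt_ev_ge (R + k)).mono fun t ht => by have := hfar t; omega
  have e3 : ∀ k, ∀ᶠ t : ℕ in (hyperfilter ℕ : Filter ℕ), lo' t ≤ k :=
    fun k => (cpt_ev_ge (R - k)).mono fun t ht => by have := hfar' t; omega
  have e4 : ∀ k, ∀ᶠ t : ℕ in (hyperfilter ℕ : Filter ℕ), k ≤ hi' t :=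
    fun k => (cpt_ev_ge (R + k)).mono fun t ht => by have := hfar' t; omega
  obtain ⟨γ, b1, b2, b3⟩ := lim_bi hw (hyperfilter ℕ) _ (fun _ => conn_box) hex x y f lo hi hf
    e1 e2 _ finite_ball (Filter.Eventually.of_forall f0)
  obtain ⟨γ', c1, c2, c3⟩ := lim_bi hw (hyperfilter ℕ) _ (fun _ => conn_box) hex x' y g lo' hi'
    hg e3 e4 _ finite_ball (Filter.Eventually.of_forall g0)
  have st := T_stab_ev hw (hyperfilter ℕ : Filter ℕ) _ (fun _ => conn_box) hex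
  have hc : Compat w γ γ' := by
    refine ⟨T Set.univ w (γ' 0) (γ 0), fun i j hi0 hj0 => ?_⟩
    obtain ⟨t, ⟨t1, t2, t3, t4⟩, ⟨t5, t6, t7, t8⟩, ⟨m1, m2, s1⟩, ⟨m3, m4, s2⟩⟩ :=
      (((b3 i).and ((b3 0).and ((c3 0).and (c3 j)))).and (((e1 i).and ((e2 0).and ((e3 0).and
        (e4 j)))).and ((st (γ i) (γ' j)).and (st (γ' 0) (γ 0))))).exists
    have hy : y t ∈ box (o t) (n t) := (hf t).stop ▸ (hf t).mem _ (hf t).le le_rfl
    have u1 := (hf t).add i (hi t) t5 (by omega) le_rfl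
    have u2 := (hf t).add 0 (hi t) (by omega) t6 le_rfl
    have u3 := (hf t).add i 0 t5 hi0 t6
    have u4 := seg_add (w := w) (f := f t) hi0 t6
    have v1 := (hg t).add j (hi' t) (by omega) t8 le_rfl
    have v2 := (hg t).add 0 (hi' t) t7 (by omega) le_rfl
    have v3 := (hg t).add 0 j t7 hj0 t8
    have v4 := seg_add (w := w) (f := g t) hj0 t8
    rw [(hf t).stop] at u1 u2
    rw [(hg t).stop] at v1 v2
    rw [t1] at u1 u3
    rw [t2] at u2 u3
    rw [t3] at v2 v3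
    rw [t4] at v1 v3
    have z1 := T_tri hw.nn conn_box m1 m2 hy
    have z2 := T_tri hw.nn conn_box m3 m4 hy
    have z3 := T_mono_S hw.nn conn_box m1 m4 (Set.subset_univ _)
    have z4 := T_mono_S hw.nn conn_box m3 m2 (Set.subset_univ _)
    linarith
  obtain ⟨d, hd⟩ := hK γ γ' b1 c1 b2 c2 hc
  obtain ⟨t, ⟨t1, t2, t3, t4⟩, t5, t6⟩ := (((b3 0).and ((b3 1).and ((c3 (-d)).and
    (c3 (-d + 1))))).and ((e3 (-d)).and (e4 (-d + 1)))).exists
  refine hnd t (((hg t).dart_iff hw conn_box).2 ⟨-d, t5, by omega, ?_, ?_⟩)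
  · rw [t3, t1, hd]
    simp
  · rw [t4, t2, hd]
    congr 1
    ring

theorem bud_dset_symm {o x y : V} {n : ℤ} {d : V × V} :
    d ∈ dset o n w a R x y ↔ d.swap ∈ dset o n w a R y x := by
  simp only [dset, Set.mem_ofPred_eq, Prod.fst_swap, Prod.snd_swap]
  rw [dartOn_symm]
  tauto

/-- Two box geodesics with a common far endpoint which both touch the ball have the same darts
in the ball. -/
theorem loc_end (hw : Nice w) (hK : KP w (ball a R)) :
    ∃ L : ℤ, ∀ o n x x' y, ball a L ⊆ box o n → x ∈ bdry o n → x' ∈ bdry o n → y ∈ bdry o n →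
      Touch (box o n) w (ball a R) x y → Touch (box o n) w (ball a R) x' y →
      dset o n w a R x y = dset o n w a R x' y := by
  obtain ⟨L, hL⟩ := bud_loc_sub hw hK
  exact ⟨L, fun o n x x' y h hx hx' hy t1 t2 =>
    (hL o n x x' y h hx hx' hy t2).antisymm (hL o n x' x y h hx' hx hy t1)⟩

theorem loc_start (hw : Nice w) (hK : KP w (ball a R)) :
    ∃ L : ℤ, ∀ o n x y y', ball a L ⊆ box o n → x ∈ bdry o n → y ∈ bdry o n → y' ∈ bdry o n →
      Touch (box o n) w (ball a R) x y → Touch (box o n) w (ball a R) x y' →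
      dset o n w a R x y = dset o n w a R x y' := by
  obtain ⟨L, hL⟩ := loc_end hw hK
  refine ⟨L, fun o n x y y' h hx hy hy' t1 t2 => ?_⟩
  ext d
  rw [bud_dset_symm, hL o n y y' x h hy hy' hx (bud_touch_symm t1) (bud_touch_symm t2),
    ← bud_dset_symm]

theorem sep_of_kp (hw : NN w) (hwp : Nice wp) (hle : ∀ e, w e ≤ wp e) (J : Finset (Sym2 V))
    (hoff : ∀ e, e ∉ J → wp e = w e) (hK : KP wp (ball a R)) {γ γ' : ℤ → V} (h : Bi wp γ)
    (h' : Bi wp γ') (h0 : γ 0 ∈ ball a R) (h0' : γ' 0 ∈ ball a R) (hne : ¬ Eqv γ γ') :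
    SepP w a R γ γ' := by
  by_contra hcon
  unfold SepP at hcon
  push Not at hcon
  obtain ⟨B, hB⟩ := (((finite_ball (a := a) (r := R)).prod (finite_ball (a := a) (r := R))).image
    fun p : V × V => T (ball a R) wp p.1 p.2).bddAbove
  have hB' : ∀ p ∈ ball a R, ∀ q ∈ ball a R, T (ball a R) wp p q ≤ B := fun p hp q hq =>
    hB ⟨(p, q), ⟨hp, hq⟩, rfl⟩
  refine hne (hK γ γ' h h' h0 h0' ⟨2 * B + 2 * ∑ e ∈ J, (wp e - w e), fun i j hi0 hj0 => ?_⟩)
  obtain ⟨L, ⟨-, -, hL1⟩, hL2⟩ := ((T_stab_ev (a := a) hwp atTop (fun t : ℕ => ball a t)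
    (fun _ => conn_ball) (fun R' => by
      filter_upwards [eventually_ge_atTop R'.toNat] with t ht
      exact cpt_ball_mono (by omega)) (γ i) (γ' j)).and
    (eventually_ge_atTop (|R| + |i| + |j|).toNat)).exists
  obtain ⟨o, n, lo, hi, lo', hi', hb, hp, hp', p, hpB, hon⟩ := hcon L
  have r1 := le_abs_self R
  have r2 := neg_abs_le i
  have r3 := le_abs_self j
  have r4 := abs_nonneg R
  have r5 := abs_nonneg i
  have r6 := abs_nonneg j
  have f1 := (hp.far h.1 hb (by omega) h0).1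
  have f2 := (hp'.far h'.1 hb (by omega) h0').2
  have hsub : ball a R ⊆ box o n := (cpt_ball_mono (by omega)).trans hb
  obtain ⟨p1, p2, p3, -, -⟩ := hp
  obtain ⟨q1, q2, q3, -, -⟩ := hp'
  have g := h.geoFn hwp.nn conn_box (show lo ≤ hi by omega) p3
  have g' := h'.geoFn hwp.nn conn_box (show lo' ≤ hi' by omega) q3
  have m1 := p3 lo le_rfl (by omega)
  have m2 := p3 i (by omega) (by omega)
  have m3 := q3 j (by omega) (by omega)
  have m4 := q3 hi' (by omega) le_rfl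
  have u1 := g.add lo i le_rfl (by omega) (by omega)
  have u2 := g.add lo 0 le_rfl p1 p2
  have u3 := seg_add (w := wp) (f := γ) (i := lo) (j := i) (k := 0) (by omega) hi0
  have u4 := h.2 i 0 hi0
  have v1 := g'.add j hi' (by omega) (by omega) le_rfl
  have v2 := g'.add 0 hi' q1 q2 le_rfl
  have v3 := seg_add (w := wp) (f := γ') (i := 0) (j := j) (k := hi') hj0 (by omega)
  have v4 := h'.2 0 j hj0
  have z1 := T_tri hwp.nn conn_box m1 m2 m4
  have z2 := T_tri hwp.nn conn_box m2 m3 m4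
  have z3 := T_mono_w hw hle conn_box m1 m4
  have z4 := T_diff hw hle J hoff conn_box m1 hon.1
  have z5 := T_diff hw hle J hoff conn_box hon.1 m4
  have z6 := T_tri hwp.nn conn_box m1 hon.1 (hsub h0)
  have z7 := T_tri hwp.nn conn_box (hsub h0') hon.1 m4
  have z8 := (T_mono_S hwp.nn conn_ball hpB h0 hsub).trans (hB' _ hpB _ h0)
  have z9 := (T_mono_S hwp.nn conn_ball h0' hpB hsub).trans (hB' _ h0' _ hpB)
  have z10 : T (box o n) wp (γ i) (γ' j) ≤ T (ball a L) wp (γ i) (γ' j) := by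
    refine T_mono_S hwp.nn conn_ball ?_ ?_ hb
    · have := mem_ball_of_adj (f := γ) (lo := i) (hi := 0) (i := 0) (j := i)
        (fun k _ _ => h.1 k) hi0 le_rfl le_rfl hi0
      rw [mem_ball, sub_zero] at this
      rw [mem_ball] at h0 ⊢
      omega
    · have := mem_ball_of_adj (f := γ') (lo := 0) (hi := j) (i := 0) (j := j)
        (fun k _ _ => h'.1 k) le_rfl hj0 hj0 le_rfl
      rw [mem_ball, sub_zero] at this
      rw [mem_ball] at h0' ⊢
      omega
  linarith [hon.2]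

theorem bud_ind_nonneg (p : Prop) : 0 ≤ ind p := by
  unfold ind
  split_ifs <;> norm_num

theorem bud_ind_mono {p q : Prop} (h : p → q) : ind p ≤ ind q := by
  unfold ind
  split_ifs with h1 h2
  · exact le_rfl
  · exact absurd (h h1) h2
  · norm_num
  · exact le_rfl

theorem bud (hw : Nice w) (hle : ∀ e, w e ≤ wp e)
    (hoff : ∀ e, (∀ v ∈ e, v ∉ ball a R) → wp e = w e) (hK : KP w (ball a R))
    {ι : Type} (I : Finset ι) (γ : ι → ℤ → V)
    (hadj : ∀ t ∈ I, ∀ i, grid.Adj (γ t i) (γ t (i + 1)))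
    (hinj : ∀ t ∈ I, Function.Injective (γ t)) (h0 : ∀ t ∈ I, γ t 0 ∈ ball a R)
    {G : ℝ} (hG : 0 < G) (Ψ : Set (V × V) → Prop) (μ : ℝ) (rel : ι → ι → Prop)
    (hμ : ∀ t ∈ I, ((I.filter fun u => rel t u).card : ℝ) ≤ μ)
    (hsep : ∀ t ∈ I, ∀ u ∈ I, ¬ rel t u → SepP w a R (γ t) (γ u) ∧ SepP w a R (γ u) (γ t))
    (hgain : ∀ t ∈ I, ∃ L : ℤ, ∀ o n lo hi, ball a L ⊆ box o n → Pass o n (γ t) lo hi →
      T (box o n) w (γ t lo) (γ t hi) + G ≤ T (box o n) wp (γ t lo) (γ t hi) ∧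
        Ψ (dset o n w a R (γ t lo) (γ t hi))) (hμ0 : 0 ≤ μ) :
    ∃ L : ℤ, ∀ o n, ball a L ⊆ box o n →
      (∀ i, ¬ Touch (box o n) w (ball a R) (bd o n i) (bd o n (i + 1))) →
      G * I.card ≤ μ * mass o n w (fun x y =>
        ind (Touch (box o n) w (ball a R) x y ∧ Ψ (dset o n w a R x y))) := by
  have E1 := bud_ev (a := a) (Q := fun o n => ∀ x x' y, x ∈ bdry o n → x' ∈ bdry o n →
      y ∈ bdry o n → Touch (box o n) w (ball a R) x y → Touch (box o n) w (ball a R) x' y →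
      dset o n w a R x y = dset o n w a R x' y) (by
    obtain ⟨L, hL⟩ := loc_end hw hK
    exact ⟨L, fun o n h x x' y => hL o n x x' y h⟩)
  have E2 := bud_ev (a := a) (Q := fun o n => ∀ x y y', x ∈ bdry o n → y ∈ bdry o n →
      y' ∈ bdry o n → Touch (box o n) w (ball a R) x y → Touch (box o n) w (ball a R) x y' →
      dset o n w a R x y = dset o n w a R x y') (by
    obtain ⟨L, hL⟩ := loc_start hw hK
    exact ⟨L, fun o n h x x' y => hL o n x x' y h⟩)
  have E3 : ∀ᶠ L : ℤ in atTop, ∀ t ∈ I, ∀ o n, ball a L ⊆ box o n → ∀ lo hi,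
      Pass o n (γ t) lo hi →
      T (box o n) w (γ t lo) (γ t hi) + G ≤ T (box o n) wp (γ t lo) (γ t hi) ∧
        Ψ (dset o n w a R (γ t lo) (γ t hi)) := by
    refine (Filter.eventually_all_finset _).2 fun t ht => bud_ev ?_
    obtain ⟨L, hL⟩ := hgain t ht
    exact ⟨L, fun o n h lo hi => hL o n lo hi h⟩
  have sepev : ∀ g g' : ℤ → V, SepP w a R g g' → ∀ᶠ L : ℤ in atTop, ∀ o n, ball a L ⊆ box o n →
      ∀ lo hi lo' hi', Pass o n g lo hi → Pass o n g' lo' hi' →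
        ¬ Touch (box o n) w (ball a R) (g lo) (g' hi') := by
    intro g g' ⟨L, hL⟩
    exact bud_ev ⟨L, fun o n h lo hi lo' hi' => hL o n lo hi lo' hi' h⟩
  have E4 : ∀ᶠ L : ℤ in atTop, ∀ t ∈ I, ∀ u ∈ I, ¬ rel t u → ∀ o n, ball a L ⊆ box o n →
      ∀ lo hi lo' hi', Pass o n (γ t) lo hi → Pass o n (γ u) lo' hi' →
        ¬ Touch (box o n) w (ball a R) (γ t lo) (γ u hi') ∧
          ¬ Touch (box o n) w (ball a R) (γ u lo') (γ t hi) := by
    refine (Filter.eventually_all_finset _).2 fun t ht =>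
      (Filter.eventually_all_finset _).2 fun u hu => ?_
    by_cases hr : rel t u
    · exact Filter.Eventually.of_forall fun _ h => absurd hr h
    · filter_upwards [sepev _ _ (hsep t ht u hu hr).1, sepev _ _ (hsep t ht u hu hr).2]
        with L h1 h2 _ o n hb lo hi lo' hi' p1 p2
      exact ⟨h1 o n hb lo hi lo' hi' p1 p2, h2 o n hb lo' hi' lo hi p2 p1⟩
  obtain ⟨L, h1, h2, h3, h4, h5, h6⟩ := (E1.and (E2.and (E3.and (E4.and
    ((eventually_ge_atTop R).and (eventually_ge_atTop 1)))))).exists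
  refine ⟨L, fun o n hb hnt => ?_⟩
  have hsub : ball a R ⊆ box o n := (cpt_ball_mono h5).trans hb
  have hn : 0 < n := by
    have c1 : (a.1 - L, a.2 - L) ∈ box o n := hb (by rw [mem_ball]; simp only; omega)
    have c2 : (a.1 + L, a.2 + L) ∈ box o n := hb (by rw [mem_ball]; simp only; omega)
    rw [mem_box] at c1 c2
    simp only at c1 c2
    omega
  have hex : ∀ t ∈ I, ∃ p : ℤ × ℤ × ℤ × ℤ, Pass o n (γ t) p.1 p.2.1 ∧ 0 ≤ p.2.2.1 ∧
      p.2.2.1 < 4 * n ∧ p.2.2.1 ≤ p.2.2.2 ∧ p.2.2.2 < p.2.2.1 + 4 * n ∧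
      bd o n p.2.2.1 = γ t p.1 ∧ bd o n p.2.2.2 = γ t p.2.1 := by
    intro t ht
    obtain ⟨lo, hi, hp⟩ := exists_pass (hadj t ht) (hinj t ht) (hsub (h0 t ht))
    obtain ⟨i, i1, i2, i3⟩ := bd_surj hn hp.2.2.2.1 0
    obtain ⟨j, j1, j2, j3⟩ := bd_surj hn hp.2.2.2.2 i
    exact ⟨(lo, hi, i, j), hp, i1, by simpa using i2, j1, j2, i3, j3⟩
  choose! p hp using hex
  set A : ι → ℤ := fun t => (p t).2.2.1 with hA
  set B : ι → ℤ := fun t => (p t).2.2.2 with hB
  set φ : V → V → ℝ := fun x y =>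
    ind (Touch (box o n) w (ball a R) x y ∧ Ψ (dset o n w a R x y)) with hφ
  have htouch : ∀ t ∈ I, Touch (box o n) w (ball a R) (bd o n (A t)) (bd o n (B t)) := by
    intro t ht
    obtain ⟨p1, -, -, -, -, p6, p7⟩ := hp t ht
    by_contra hc
    have c1 := T_eq_of_not_touch hw hle hoff conn_box (bd_mem hn) (bd_mem hn) hc
    have c2 := (h3 t ht o n hb _ _ p1).1
    rw [← p6, ← p7] at c2
    linarith
  have hone : ∀ t ∈ I, G ≤ ∑ i ∈ Ico 0 (8 * n), ∑ j ∈ Icc (i + 2) (i + 4 * n),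
      gcell o n w i j * φ (bd o n i) (bd o n j) * ind (A t ≤ i ∧ j ≤ B t) := by
    intro t ht
    obtain ⟨p1, p2, p3, p4, p5, p6, p7⟩ := hp t ht
    obtain ⟨c1, c2⟩ := h3 t ht o n hb _ _ p1
    rw [← p6, ← p7] at c1 c2
    have c3 := tri hw hn conn_ball hsub hle hoff hnt p4 p5.le
    refine le_trans (by linarith) (c3.trans ?_)
    have nn : ∀ i, ∀ j ∈ Icc (i + 2) (i + 4 * n),
        0 ≤ gcell o n w i j * φ (bd o n i) (bd o n j) * ind (A t ≤ i ∧ j ≤ B t) := by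
      intro i j hj
      have := Finset.mem_Icc.1 hj
      exact mul_nonneg (mul_nonneg (gcell_nonneg hw.nn hn this.1 this.2) (bud_ind_nonneg _))
        (bud_ind_nonneg _)
    refine le_trans (Finset.sum_le_sum fun i hi => ?_) (Finset.sum_le_sum_of_subset_of_nonneg
      (Finset.Ico_subset_Ico p2 (by omega)) fun i _ _ => Finset.sum_nonneg (nn i))
    have hi' := Finset.mem_Ico.1 hi
    refine le_trans (Finset.sum_le_sum fun j hj => ?_) (Finset.sum_le_sum_of_subset_of_nonneg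
      (Finset.Icc_subset_Icc_right (by omega)) fun j hj _ => nn i j hj)
    have hj' := Finset.mem_Icc.1 hj
    have e : ind (A t ≤ i ∧ j ≤ B t) = 1 := if_pos ⟨hi'.1, hj'.2⟩
    rw [e, mul_one]
    refine mul_le_mul_of_nonneg_left (bud_ind_mono fun h => ⟨h, ?_⟩)
      (gcell_nonneg hw.nn hn hj'.1 (by omega))
    have c4 := mono_touch (a := A t) (x := i) (x' := i) (y' := j) (y := B t) (b := B t) hw hn
      conn_ball hsub hi'.1 le_rfl (by omega) hj'.2 le_rfl p5.le (htouch t ht) h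
    rw [← h2 o n hb _ _ _ (bd_mem_bdry hn) (bd_mem_bdry hn) (bd_mem_bdry hn) c4 h,
      ← h1 o n hb _ _ _ (bd_mem_bdry hn) (bd_mem_bdry hn) (bd_mem_bdry hn) (htouch t ht) c4]
    exact c2
  have hsum := Finset.card_nsmul_le_sum I _ G hone
  rw [nsmul_eq_mul, mul_comm] at hsum
  refine hsum.trans ?_
  unfold mass
  rw [Finset.sum_comm, Finset.mul_sum]
  refine Finset.sum_le_sum fun i _ => ?_
  rw [Finset.sum_comm, Finset.mul_sum]
  refine Finset.sum_le_sum fun j hj => ?_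
  have hj' := Finset.mem_Icc.1 hj
  rw [← Finset.mul_sum, mul_comm μ]
  by_cases hto : Touch (box o n) w (ball a R) (bd o n i) (bd o n j)
  · refine mul_le_mul_of_nonneg_left ?_
      (mul_nonneg (gcell_nonneg hw.nn hn hj'.1 hj'.2) (bud_ind_nonneg _))
    have e : ∑ t ∈ I, ind (A t ≤ i ∧ j ≤ B t) = (I.filter fun t => A t ≤ i ∧ j ≤ B t).card := by
      rw [Finset.card_filter]
      push_cast
      refine Finset.sum_congr rfl fun t _ => ?_
      unfold ind
      congr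
    rw [e]
    rcases (I.filter fun t => A t ≤ i ∧ j ≤ B t).eq_empty_or_nonempty with h | ⟨t, ht⟩
    · rw [h]
      simpa using hμ0
    · obtain ⟨t1, t2, t3⟩ := Finset.mem_filter.1 ht
      refine le_trans ?_ (hμ t t1)
      refine Nat.cast_le.2 (Finset.card_le_card fun u hu => ?_)
      obtain ⟨u1, u2, u3⟩ := Finset.mem_filter.1 hu
      refine Finset.mem_filter.2 ⟨u1, ?_⟩
      by_contra hr
      obtain ⟨p1, -, -, -, p5, p6, p7⟩ := hp t t1
      obtain ⟨q1, -, -, -, q5, q6, q7⟩ := hp u u1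
      obtain ⟨c1, c2⟩ := h4 t t1 u u1 hr o n hb _ _ _ _ p1 q1
      rw [← p6, ← q7] at c1
      rw [← q6, ← p7] at c2
      rcases le_total (A t) (A u) with h | h
      · exact c2 (mono_touch (a := A t) (x := A u) (x' := i) (y' := j) (y := B t) (b := B t) hw hn
          conn_ball hsub h u2 (by omega) t3 le_rfl p5.le (htouch t t1) hto)
      · exact c1 (mono_touch (a := A u) (x := A t) (x' := i) (y' := j) (y := B u) (b := B u) hw hn
          conn_ball hsub h t2 (by omega) u3 le_rfl q5.le (htouch u u1) hto)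
  · have e : φ (bd o n i) (bd o n j) = 0 := if_neg fun h => hto h.1
    rw [e]
    simp

end Vale.Agent.P158
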