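import Mathlib

/-! Statement-level definitions for planar first-passage percolation. -/

namespace Vale.Agent.P158

open scoped NNReal

/-- The nearest-neighbour graph on `ℤ²`. -/
def grid : SimpleGraph (ℤ × ℤ) where
  Adj u v := |u.1 - v.1| + |u.2 - v.2| = 1
  symm := ⟨fun u v h => by rwa [abs_sub_comm v.1, abs_sub_comm v.2]⟩
  loopless := ⟨fun u h => by simp at h⟩

open Classical in
/-- The weight of an unordered pair of vertices: `t e` for an edge `e` of the lattice
(only edges are ever evaluated below). -/
noncomputable def edgeWeight (t : grid.edgeSet → ℝ≥0) (e : Sym2 (ℤ × ℤ)) : ℝ≥0 :=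
  if h : e ∈ grid.edgeSet then t ⟨e, h⟩ else 0

/-- Passage time: infimum over finite nearest-neighbour paths from `x` to `y` of the sum of the
weights of the traversed edges. -/
noncomputable def passage (t : grid.edgeSet → ℝ≥0) (x y : ℤ × ℤ) : ℝ≥0 :=
  ⨅ p : grid.Walk x y, (p.edges.map (edgeWeight t)).sum

/-- A bigeodesic: pairwise distinct vertices indexed by `ℤ`, consecutive ones adjacent, every
finite piece realising the passage time between its endpoints. -/
def IsBigeodesic (t : grid.edgeSet → ℝ≥0) (v : ℤ → ℤ × ℤ) : Prop :=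
  Function.Injective v ∧ (∀ i, grid.Adj (v i) (v (i + 1))) ∧
    ∀ i j : ℤ, i < j → ∑ k ∈ Finset.Ico i j, edgeWeight t s(v k, v (k + 1)) = passage t (v i) (v j)

end Vale.Agent.P158
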