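import Vale.Agent.P158.Key


/-! Assembly. -/

namespace Vale.Agent.P158

open Finset MeasureTheory Filter
open scoped NNReal ENNReal Classical Topology

variable {G : Measure ℝ≥0} [IsProbabilityMeasure G] [NullSingletonClass G] {q1 q2 M : ℝ≥0}

theorem fin_lam (C₁ C₂ c p : ℝ) (hc : 0 < c) (hp : 0 < p) (L₀ : ℕ) :
    ∃ lam : ℕ, L₀ ≤ lam ∧ 0 < lam ∧
      C₁ + C₂ * lam ^ 5 * Real.exp (-(c * lam)) + 1 < c * lam * p := by
  have h1 : Tendsto (fun x : ℝ => x ^ 5 * Real.exp (-x)) atTop (𝓝 0) :=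
    Real.tendsto_pow_mul_exp_neg_atTop_nhds_zero 5
  have h2 : Tendsto (fun n : ℕ => c * (n : ℝ)) atTop atTop :=
    Tendsto.const_mul_atTop hc tendsto_natCast_atTop_atTop
  have h3 := (h1.comp h2).const_mul (C₂ / c ^ 5)
  rw [mul_zero] at h3
  have h4 : ∀ᶠ n : ℕ in atTop, C₂ * n ^ 5 * Real.exp (-(c * n)) < 1 := by
    filter_upwards [h3.eventually (gt_mem_nhds one_pos)] with n hn
    have : C₂ / c ^ 5 * ((c * n) ^ 5 * Real.exp (-(c * n))) =
        C₂ * n ^ 5 * Real.exp (-(c * n)) := by field_simp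
    simpa [Function.comp, this] using hn
  have h5 : ∀ᶠ n : ℕ in atTop, C₁ + 2 < c * n * p :=
    (h2.atTop_mul_const hp).eventually (eventually_gt_atTop _)
  obtain ⟨n, ⟨⟨h4, h5⟩, h6⟩, h7⟩ :=
    (((h4.and h5).and (eventually_ge_atTop L₀)).and (eventually_gt_atTop 0)).exists
  exact ⟨n, h6, h7, by linarith⟩

theorem no_bi_zero (hP : Par G q1 q2 M) :
    PP G {ω | ∃ γ, Bi (W M ω) γ ∧ γ 0 = 0} = 0 := by
  by_contra h
  obtain ⟨p, hp, hs⟩ := straight hP h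
  obtain ⟨C₁, C₂, c, N, hC₁, hC₂, hc, hN, L₀, hk⟩ := key hP
  obtain ⟨lam, hl0, hlpos, hlt⟩ := fin_lam C₁ C₂ c p hc hp L₀
  obtain ⟨ρ₀, hρ⟩ := hk lam hl0 1 one_pos
  have hm : 0 < lam ^ 4 := pow_pos hlpos 4
  obtain ⟨k, hk2⟩ := hs (lam ^ 4) (N * (ρ₀ + 1)) hm (Nat.mul_pos hN (Nat.succ_pos _))
  have h3 := hρ (N * (ρ₀ + 1) * (lam ^ 4) ^ k) (Dvd.dvd.mul_right (Dvd.intro _ rfl) _) (by
    have h1 : 1 ≤ (lam ^ 4) ^ k := Nat.one_le_pow _ _ hm
    have h2 : ρ₀ + 1 ≤ N * (ρ₀ + 1) := Nat.le_mul_of_pos_left _ hN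
    nlinarith)
  have e : ((N * (ρ₀ + 1) : ℕ) : ℤ) * ((lam ^ 4 : ℕ) : ℤ) ^ (k + 1) =
      ((lam ^ 4 : ℕ) : ℤ) * ((N * (ρ₀ + 1) * (lam ^ 4) ^ k : ℕ) : ℤ) := by
    push_cast; ring
  rw [e] at hk2
  have h4 : ENNReal.ofReal (c * lam) * ENNReal.ofReal p ≤
      ENNReal.ofReal (C₁ + C₂ * lam ^ 5 * Real.exp (-(c * lam)) + 1) :=
    (mul_le_mul_right hk2 _).trans h3
  rw [← ENNReal.ofReal_mul (by positivity), ENNReal.ofReal_le_ofReal_iff (by positivity)] at h4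
  linarith

theorem no_bi_W (hP : Par G q1 q2 M) : ∀ᵐ ω ∂PP G, ∀ γ, ¬ Bi (W M ω) γ := by
  have h : ∀ v : V, ∀ᵐ ω ∂PP G, ¬ ∃ γ, Bi (W M ω) γ ∧ γ 0 = v := by
    intro v
    have h0 := no_bi_zero hP
    rw [← measure_shift v] at h0
    rw [ae_iff]
    refine measure_mono_null ?_ h0
    intro ω hω
    simp only [not_not, Set.mem_setOf_eq] at hω
    obtain ⟨γ, hγ, hv⟩ := hω
    refine ⟨fun t => γ t - v, ?_, by simp [hv]⟩
    rw [W_shift, Bi_shiftW]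
    simpa using hγ
  filter_upwards [ae_all_iff.2 h] with ω hω γ hγ
  exact hω (γ 0) ⟨γ, hγ, rfl⟩

theorem no_bi_raw : ∀ᵐ ω ∂PP G, ∀ γ : ℤ → V, ¬ Bi (fun e => (ω e : ℝ)) γ := by
  obtain ⟨q1, q2, M, hP⟩ := par_exists (G := G)
  filter_upwards [no_bi_W hP, ae_nice hP, ae_shield hP.hM] with ω h1 h2 h3 γ hγ
  refine h1 γ (red h2 h3 (hγ.inj fun e => ?_) hγ)
  exact (h2.pos e).trans_le (W_le ω e)

theorem fin_wt_congr {w w' : Wt} (h : ∀ e ∈ grid.edgeSet, w e = w' e) {x y : V}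
    (p : grid.Walk x y) : wt w p = wt w' p := by
  unfold wt
  congr 1
  exact List.map_congr_left fun e he => h e (p.edges_subset_edgeSet he)

theorem fin_bi_congr {w w' : Wt} (h : ∀ e ∈ grid.edgeSet, w e = w' e) {γ : ℤ → V}
    (hγ : Bi w γ) : Bi w' γ := by
  refine ⟨hγ.1, fun i j hij => ?_⟩
  have h1 : seg w' γ i j = seg w γ i j :=
    Finset.sum_congr rfl fun k _ => (h _ (hγ.1 k)).symm
  have h2 : T Set.univ w' (γ i) (γ j) = T Set.univ w (γ i) (γ j) := by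
    unfold T
    exact iInf_congr fun p => (fin_wt_congr h p.1).symm
  rw [h1, h2, hγ.2 i j hij]

theorem fin_passage (τ : grid.edgeSet → ℝ≥0) (x y : V) :
    (passage τ x y : ℝ) = T Set.univ (fun e => (edgeWeight τ e : ℝ)) x y := by
  unfold passage T
  rw [NNReal.coe_iInf]
  let E : grid.Walk x y ≃ {p : grid.Walk x y // In Set.univ p} :=
    (Equiv.subtypeUnivEquiv fun p v _ => Set.mem_univ v).symm
  rw [← E.iInf_comp]
  refine iInf_congr fun p => ?_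
  rw [NNReal.coe_list_sum, List.map_map]
  rfl

theorem fin_bi_of {τ : grid.edgeSet → ℝ≥0} {v : ℤ → V} (h : IsBigeodesic τ v) :
    Bi (fun e => (edgeWeight τ e : ℝ)) v := by
  refine ⟨h.2.1, fun i j hij => ?_⟩
  rcases hij.eq_or_lt with rfl | hlt
  · rw [seg_self, T_self (fun e => NNReal.coe_nonneg _) (Set.mem_univ _)]
  · rw [← fin_passage, ← h.2.2 i j hlt, NNReal.coe_sum]
    rfl

theorem main {Ω : Type*} [MeasurableSpace Ω] (P : Measure Ω) [IsProbabilityMeasure P]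
    (t : grid.edgeSet → Ω → ℝ≥0) (hm : ∀ e, Measurable (t e))
    (hind : ProbabilityTheory.iIndepFun t P) (hlaw : ∀ e, P.map (t e) = G) :
    ∀ᵐ ω ∂P, ¬ ∃ v : ℤ → ℤ × ℤ, IsBigeodesic (fun e => t e ω) v := by
  have hext : Measurable fun τ : grid.edgeSet → ℝ≥0 => (fun e => (edgeWeight τ e : ℝ) : Wt) := by
    refine measurable_pi_lambda _ fun e => ?_
    unfold edgeWeight
    by_cases he : e ∈ grid.edgeSet
    · simp only [dif_pos he]; fun_prop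
    · simp only [dif_neg he]; fun_prop
  have hB : MeasurableSet {w : Wt | ∃ γ, Bi w γ} := by
    have : {w : Wt | ∃ γ, Bi w γ} =
        ⋃ v : V, {w : Wt | ∃ γ, Bi w γ ∧ ∀ i, (0 : ℤ) ≤ i → i ≤ 0 → γ i = (fun _ => v) i} := by
      ext w
      simp only [Set.mem_setOf_eq, Set.mem_iUnion]
      constructor
      · rintro ⟨γ, hγ⟩
        exact ⟨γ 0, γ, hγ, fun i h1 h2 => by rw [le_antisymm h2 h1]⟩
      · rintro ⟨v, γ, hγ, -⟩
        exact ⟨γ, hγ⟩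
    rw [this]
    exact MeasurableSet.iUnion fun v => measurableSet_ext _ 0 0 le_rfl
  have hB' : MeasurableSet
      {τ : grid.edgeSet → ℝ≥0 | ¬ ∃ γ, Bi (fun e => (edgeWeight τ e : ℝ)) γ} := (hext hB).compl
  have hpr : (PP G).map (fun (ω : Om) (e : grid.edgeSet) => ω e.1) =
      Measure.infinitePi fun _ : grid.edgeSet => G :=
    Measure.map_infinitePi_infinitePi_of_inj (P := fun _ : Sym2 V => G) Subtype.val_injective
  have h1 : ∀ᵐ τ ∂(Measure.infinitePi fun _ : grid.edgeSet => G),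
      ¬ ∃ γ, Bi (fun e => (edgeWeight τ e : ℝ)) γ := by
    rw [← hpr, ae_map_iff (Measurable.aemeasurable (by fun_prop)) hB']
    filter_upwards [no_bi_raw (G := G)] with ω hω
    rintro ⟨γ, hγ⟩
    refine hω γ (fin_bi_congr (fun e he => ?_) hγ)
    simp [edgeWeight, he]
  have h2 : P.map (fun ω e => t e ω) = Measure.infinitePi fun _ : grid.edgeSet => G := by
    rw [hind.map_fun_eq_infinitePi_map hm]
    simp only [hlaw]
  rw [← h2] at h1
  filter_upwards [ae_of_ae_map (Measurable.aemeasurable (by fun_prop)) h1] with ω hω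
  rintro ⟨v, hv⟩
  exact hω ⟨v, fin_bi_of hv⟩

end Vale.Agent.P158
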