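import Vale.Agent.P158.Geod

/-! Straightness at most scales, strips, visits of geodesics to balls. -/

namespace Vale.Agent.P158

open Finset MeasureTheory Filter
open scoped NNReal ENNReal Classical Topology

lemma Geo_var (d : ℕ → ℤ) (m : ℕ) :
    ∑ j ∈ range m, (m * d j - ∑ i ∈ range m, d i) ^ 2 =
      m * (m * ∑ j ∈ range m, d j ^ 2 - (∑ i ∈ range m, d i) ^ 2) := by
  generalize hD : ∑ i ∈ range m, d i = D
  have h1 : ∀ j, (m * d j - D) ^ 2 = m ^ 2 * d j ^ 2 - 2 * m * D * d j + D ^ 2 := fun j => by ring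
  simp only [h1]
  rw [sum_add_distrib, sum_sub_distrib, ← mul_sum, ← mul_sum, hD, sum_const, card_range,
    nsmul_eq_mul]
  ring

/-- The variance defect of one coordinate. -/
def Geo_U (g : ℤ → ℤ) (m l : ℕ) (i : ℤ) : ℤ :=
  m * ∑ j ∈ range m, (g (i + j * l + l) - g (i + j * l)) ^ 2 - (g (i + m * l) - g i) ^ 2

lemma Geo_tel (g : ℤ → ℤ) (l J : ℕ) (i : ℤ) :
    ∑ j ∈ range J, (g (i + j * l + l) - g (i + j * l)) = g (i + J * l) - g i := by
  induction J with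
  | zero => simp
  | succ J ih =>
    rw [sum_range_succ, ih]
    push_cast
    rw [show i + (J + 1 : ℤ) * l = i + J * l + l by ring]
    ring

lemma Geo_U_eq (g : ℤ → ℤ) (m l : ℕ) (i : ℤ) :
    ∑ j ∈ range m, (m * (g (i + j * l + l) - g (i + j * l)) - (g (i + m * l) - g i)) ^ 2 =
      m * Geo_U g m l i := by
  have h1 := Geo_var (fun j => g (i + j * l + l) - g (i + j * l)) m
  rw [Geo_tel] at h1
  exact h1

lemma Geo_U_nonneg (g : ℤ → ℤ) {m : ℕ} (hm : 0 < m) (l : ℕ) (i : ℤ) : 0 ≤ Geo_U g m l i := by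
  have h1 := Geo_U_eq g m l i
  have h2 : (0 : ℤ) < m := by exact_mod_cast hm
  exact nonneg_of_mul_nonneg_right (h1 ▸ sum_nonneg fun j _ => sq_nonneg _) h2

lemma Geo_coord (g : ℤ → ℤ) {m l J : ℕ} (i : ℤ) (hU : Geo_U g m l i ≤ l ^ 2) (hJ : J ≤ m) :
    |m * (g (i + J * l) - g i) - J * (g (i + m * l) - g i)| ≤ m * l := by
  have h1 := sq_sum_le_card_mul_sum_sq (s := range J)
    (f := fun j : ℕ => m * (g (i + j * l + l) - g (i + j * l)) - (g (i + m * l) - g i))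
  have h2 : ∑ j ∈ range J, (m * (g (i + j * l + l) - g (i + j * l)) - (g (i + m * l) - g i)) ^ 2 ≤
      m * Geo_U g m l i := by
    rw [← Geo_U_eq]
    exact sum_le_sum_of_subset_of_nonneg (range_mono hJ) fun _ _ _ => sq_nonneg _
  rw [sum_sub_distrib, ← mul_sum, Geo_tel, sum_const, card_range, nsmul_eq_mul] at h1
  have h3 : (J : ℤ) ≤ m := by exact_mod_cast hJ
  have h4 : (0 : ℤ) ≤ m := by positivity
  have h5 := mul_le_mul h3 (h2.trans (mul_le_mul_of_nonneg_left hU h4))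
    (sum_nonneg fun j _ => sq_nonneg _) h4
  exact abs_le_of_sq_le_sq (by linarith) (by positivity)

lemma Geo_slope_pos {m D1 D2 : ℤ} (hm : 0 ≤ m) (h0 : 0 < D1) (h : |D2| ≤ D1) :
    ∃ a, -m ≤ a ∧ a ≤ m ∧ |m * D2 - a * D1| ≤ D1 := by
  have h1 := Int.mul_ediv_add_emod (m * D2) D1
  have h2 := Int.emod_nonneg (m * D2) h0.ne'
  have h3 := Int.emod_lt_of_pos (m * D2) h0
  obtain ⟨h4, h5⟩ := abs_le.1 h
  have h6 := mul_le_mul_of_nonneg_left h4 hm
  have h7 := mul_le_mul_of_nonneg_left h5 hm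
  refine ⟨m * D2 / D1, ?_, ?_, abs_le.2 ⟨by linarith, by linarith⟩⟩
  · by_contra hc
    have : m * D2 / D1 + 1 ≤ -m := by omega
    nlinarith
  · by_contra hc
    have : m + 1 ≤ m * D2 / D1 := by omega
    nlinarith

lemma Geo_slope {m D1 D2 : ℤ} (hm : 0 ≤ m) (h : |D2| ≤ |D1|) :
    ∃ a, -m ≤ a ∧ a ≤ m ∧ |m * D2 - a * D1| ≤ |D1| := by
  rcases lt_trichotomy D1 0 with h0 | h0 | h0
  · rw [abs_of_neg h0] at h ⊢
    obtain ⟨a, h1, h2, h3⟩ := Geo_slope_pos (D2 := -D2) hm (neg_pos.2 h0) (by rwa [abs_neg])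
    exact ⟨a, h1, h2, by rwa [← abs_neg, show -(m * D2 - a * D1) = m * -D2 - a * -D1 by ring]⟩
  · subst h0
    have : D2 = 0 := by simpa using h
    exact ⟨0, by linarith, hm, by simp [this]⟩
  · rw [abs_of_pos h0] at h ⊢
    exact Geo_slope_pos hm h0 h

lemma Geo_line {m L J a x1 x2 D1 D2 : ℤ} (hm : 0 < m) (hJ0 : 0 ≤ J) (hJ : J ≤ m) (ha : |a| ≤ m)
    (h1 : |m * x1 - J * D1| ≤ 2 * L) (h2 : |m * x2 - J * D2| ≤ 2 * L)
    (h3 : |m * D2 - a * D1| ≤ L) : |m * x2 - a * x1| ≤ 5 * L := by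
  have e : m * (m * x2 - a * x1) =
      m * (m * x2 - J * D2) - a * (m * x1 - J * D1) + J * (m * D2 - a * D1) := by ring
  have b1 : |m * (m * x2 - J * D2)| ≤ m * (2 * L) := by
    rw [abs_mul, abs_of_pos hm]
    exact mul_le_mul_of_nonneg_left h2 hm.le
  have b2 : |a * (m * x1 - J * D1)| ≤ m * (2 * L) := by
    rw [abs_mul]
    exact mul_le_mul ha h1 (abs_nonneg _) hm.le
  have b3 : |J * (m * D2 - a * D1)| ≤ m * L := by
    rw [abs_mul, abs_of_nonneg hJ0]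
    exact mul_le_mul hJ h3 (abs_nonneg _) hm.le
  have b4 : |m * (m * x2 - a * x1)| ≤ m * (5 * L) := by
    rw [e]
    rw [abs_le] at *
    constructor <;> linarith [b1.1, b1.2, b2.1, b2.2, b3.1, b3.2]
  rw [abs_mul, abs_of_pos hm] at b4
  exact le_of_mul_le_mul_left b4 hm

lemma Geo_near (g : ℤ → ℤ) {m l : ℕ} (hl : 0 < l) (i : ℤ) (hU : Geo_U g m l i ≤ l ^ 2)
    (hg : ∀ s t : ℤ, 0 ≤ s → s ≤ t → t ≤ m * l → |g (i + t) - g (i + s)| ≤ t - s) {t : ℤ}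
    (ht0 : 0 ≤ t) (ht : t ≤ m * l) :
    |m * (g (i + t) - g i) - t / l * (g (i + m * l) - g i)| ≤ 2 * (m * l) := by
  have hl' : (0 : ℤ) < l := by exact_mod_cast hl
  have h1 := Int.mul_ediv_add_emod t l
  have h2 := Int.emod_nonneg t hl'.ne'
  have h3 := Int.emod_lt_of_pos t hl'
  have h4 : 0 ≤ t / l := Int.ediv_nonneg ht0 hl'.le
  have h5 : t / l ≤ m := Int.ediv_le_of_le_mul hl' ht
  obtain ⟨J, hJ⟩ := Int.eq_ofNat_of_zero_le h4
  rw [hJ] at h1 h5 ⊢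
  have h6 := Geo_coord g i hU (J := J) (by exact_mod_cast h5)
  have h7 := hg (J * l) t (by positivity) (by linarith) ht
  have h8 : |(m : ℤ) * (g (i + t) - g (i + J * l))| ≤ m * l := by
    rw [abs_mul, Nat.abs_cast]
    exact mul_le_mul_of_nonneg_left (by linarith) (by positivity)
  rw [abs_le] at *
  constructor <;> linarith [h6.1, h6.2, h8.1, h8.2]

lemma Geo_str (f : ℤ → V) (lo hi : ℤ)
    (hadj : ∀ i, lo ≤ i → i < hi → grid.Adj (f i) (f (i + 1))) {m l : ℕ} (hm : 0 < m)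
    (hl : 0 < l) {i : ℤ} (hi1 : lo ≤ i) (hi2 : i ≤ hi - m * l)
    (h1 : Geo_U (fun t => (f t).1) m l i ≤ l ^ 2) (h2 : Geo_U (fun t => (f t).2) m l i ≤ l ^ 2) :
    ¬ NS m (m * l) f i := by
  have hm' : (0 : ℤ) < m := by exact_mod_cast hm
  have hl' : (0 : ℤ) < l := by exact_mod_cast hl
  have hb : ∀ s t, 0 ≤ s → s ≤ t → t ≤ (m : ℤ) * l →
      |(f (i + t)).1 - (f (i + s)).1| ≤ t - s ∧ |(f (i + t)).2 - (f (i + s)).2| ≤ t - s := by
    intro s t hs hst ht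
    have := l1_le_of_adj hadj (i := i + s) (j := i + t) (by linarith) (by linarith) (by linarith)
    constructor <;> linarith [abs_nonneg ((f (i + t)).1 - (f (i + s)).1),
      abs_nonneg ((f (i + t)).2 - (f (i + s)).2)]
  have n1 := fun t => Geo_near (fun t => (f t).1) hl i h1 (fun s t a b c => (hb s t a b c).1) (t := t)
  have n2 := fun t => Geo_near (fun t => (f t).2) hl i h2 (fun s t a b c => (hb s t a b c).2) (t := t)
  have hD := hb 0 (m * l) le_rfl (by positivity) le_rfl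
  have hJ : ∀ t : ℤ, 0 ≤ t → t ≤ m * l → 0 ≤ t / l ∧ t / l ≤ m := fun t h0 ht =>
    ⟨Int.ediv_nonneg h0 hl'.le, Int.ediv_le_of_le_mul hl' ht⟩
  rw [add_zero, sub_zero] at hD
  intro hns
  rcases le_total |(f (i + m * l)).2 - (f i).2| |(f (i + m * l)).1 - (f i).1| with h | h
  · obtain ⟨a, a1, a2, a3⟩ := Geo_slope hm'.le h
    refine hns (false, a) (mem_product.2 ⟨mem_univ _, mem_Icc.2 ⟨a1, a2⟩⟩) fun t h0 ht => ⟨?_, ?_⟩
    · have := (hb 0 t le_rfl h0 ht).1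
      rw [add_zero] at this
      exact this.trans (by linarith)
    · exact Geo_line hm' (hJ t h0 ht).1 (hJ t h0 ht).2 (abs_le.2 ⟨a1, a2⟩) (n1 t h0 ht)
        (n2 t h0 ht) (a3.trans hD.1)
  · obtain ⟨a, a1, a2, a3⟩ := Geo_slope hm'.le h
    refine hns (true, a) (mem_product.2 ⟨mem_univ _, mem_Icc.2 ⟨a1, a2⟩⟩) fun t h0 ht => ⟨?_, ?_⟩
    · have := (hb 0 t le_rfl h0 ht).2
      rw [add_zero] at this
      exact this.trans (by linarith)
    · exact Geo_line hm' (hJ t h0 ht).1 (hJ t h0 ht).2 (abs_le.2 ⟨a1, a2⟩) (n2 t h0 ht)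
        (n1 t h0 ht) (a3.trans hD.2)

/-- Squared length of an increment. -/
def Geo_Q (f : ℤ → V) (l i : ℤ) : ℤ := ((f (i + l)).1 - (f i).1) ^ 2 + ((f (i + l)).2 - (f i).2) ^ 2

/-- The energy at scale `l`. -/
noncomputable def Geo_E (f : ℤ → V) (lo hi l : ℤ) : ℤ := ∑ i ∈ Icc lo (hi - l), Geo_Q f l i

lemma Geo_Q_nonneg (f : ℤ → V) (l i : ℤ) : 0 ≤ Geo_Q f l i := by
  unfold Geo_Q
  positivity

lemma Geo_E_nonneg (f : ℤ → V) (lo hi l : ℤ) : 0 ≤ Geo_E f lo hi l :=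
  sum_nonneg fun i _ => Geo_Q_nonneg f l i

lemma Geo_E_le (f : ℤ → V) (lo hi : ℤ) (hle : lo ≤ hi)
    (hadj : ∀ i, lo ≤ i → i < hi → grid.Adj (f i) (f (i + 1))) (l : ℤ) (hl : 0 ≤ l) :
    Geo_E f lo hi l ≤ (hi - lo + 1) * l ^ 2 := by
  have h1 : Geo_E f lo hi l ≤ (Icc lo (hi - l)).card • l ^ 2 := by
    refine sum_le_card_nsmul _ _ _ fun i hi => ?_
    rw [mem_Icc] at hi
    have h2 := l1_le_of_adj hadj (i := i) (j := i + l) hi.1 (by linarith) (by linarith)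
    unfold Geo_Q
    rw [← sq_abs ((f (i + l)).1 - (f i).1), ← sq_abs ((f (i + l)).2 - (f i).2)]
    have a1 := abs_nonneg ((f (i + l)).1 - (f i).1)
    have a2 := abs_nonneg ((f (i + l)).2 - (f i).2)
    nlinarith [mul_nonneg a1 a2]
  rw [nsmul_eq_mul, Int.card_Icc] at h1
  exact h1.trans (mul_le_mul_of_nonneg_right (by omega) (sq_nonneg _))

lemma Geo_step (f : ℤ → V) (lo hi : ℤ)
    (hadj : ∀ i, lo ≤ i → i < hi → grid.Adj (f i) (f (i + 1))) (m l : ℕ) (hm : 0 < m)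
    (hl : 0 < l) :
    (((Icc lo (hi - m * l)).filter fun i => NS m (m * l) f i).card : ℤ) * l ^ 2 ≤
      m ^ 2 * Geo_E f lo hi l - Geo_E f lo hi (m * l) := by
  have hU : ∀ i, Geo_U (fun t => (f t).1) m l i + Geo_U (fun t => (f t).2) m l i =
      m * ∑ j ∈ range m, Geo_Q f l (i + j * l) - Geo_Q f (m * l) i := by
    intro i
    unfold Geo_U Geo_Q
    rw [sum_add_distrib]
    ring
  have h1 : (((Icc lo (hi - m * l)).filter fun i => NS m (m * l) f i).card : ℤ) * l ^ 2 ≤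
      ∑ i ∈ Icc lo (hi - m * l),
        (Geo_U (fun t => (f t).1) m l i + Geo_U (fun t => (f t).2) m l i) := by
    rw [← nsmul_eq_mul]
    refine (card_nsmul_le_sum _ _ _ fun i hi => ?_).trans
      (sum_le_sum_of_subset_of_nonneg (filter_subset _ _) fun i _ _ =>
        add_nonneg (Geo_U_nonneg _ hm l i) (Geo_U_nonneg _ hm l i))
    rw [mem_filter, mem_Icc] at hi
    by_contra hc
    have a1 := Geo_U_nonneg (fun t => (f t).1) hm l i
    have a2 := Geo_U_nonneg (fun t => (f t).2) hm l i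
    exact Geo_str f lo _ hadj hm hl hi.1.1 hi.1.2 (by linarith) (by linarith) hi.2
  have h2 : ∀ j ∈ range m, ∑ i ∈ Icc lo (hi - m * l), Geo_Q f l (i + j * l) ≤ Geo_E f lo hi l := by
    intro j hj
    have hj' : (j : ℤ) + 1 ≤ m := by exact_mod_cast mem_range.1 hj
    have h3 := mul_le_mul_of_nonneg_right hj' (show (0 : ℤ) ≤ l by positivity)
    have h4 : (0 : ℤ) ≤ j * l := by positivity
    rw [← sum_image (s := Icc lo (hi - m * l)) (g := fun i => i + (j : ℤ) * l) (f := Geo_Q f l)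
      fun a _ b _ h => add_right_cancel h]
    refine sum_le_sum_of_subset_of_nonneg (fun x hx => ?_) fun i _ _ => Geo_Q_nonneg f l i
    obtain ⟨i, hi, rfl⟩ := mem_image.1 hx
    rw [mem_Icc] at hi ⊢
    constructor <;> linarith [hi.1, hi.2]
  have h3 := sum_le_card_nsmul _ _ _ h2
  rw [card_range, nsmul_eq_mul, sum_comm] at h3
  simp only [hU] at h1
  rw [sum_sub_distrib, ← mul_sum] at h1
  have h4 := mul_le_mul_of_nonneg_left h3 (show (0 : ℤ) ≤ m by positivity)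
  unfold Geo_E at *
  linarith

theorem pig (f : ℤ → V) (lo hi : ℤ) (hle : lo ≤ hi)
    (hadj : ∀ i, lo ≤ i → i < hi → grid.Adj (f i) (f (i + 1))) (m l₀ : ℕ) (hm : 0 < m)
    (hl : 0 < l₀) (K : ℕ) :
    ∑ k ∈ range K, (((Icc lo (hi - l₀ * m ^ (k + 1))).filter fun i =>
      NS m (l₀ * m ^ (k + 1)) f i).card : ℤ) ≤ m ^ 2 * (hi - lo + 1) := by
  have hm' : (0 : ℝ) < m := by exact_mod_cast hm
  have hL : ∀ k, 0 < l₀ * m ^ k := fun k => Nat.mul_pos hl (pow_pos hm k)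
  let E : ℕ → ℝ := fun k => (Geo_E f lo hi (l₀ * m ^ k : ℕ) : ℝ) / ((l₀ * m ^ k : ℕ) : ℝ) ^ 2
  have h1 : ∀ k, (((Icc lo (hi - l₀ * m ^ (k + 1))).filter fun i =>
      NS m (l₀ * m ^ (k + 1)) f i).card : ℝ) ≤ m ^ 2 * E k - m ^ 2 * E (k + 1) := by
    intro k
    have h2 := Geo_step f lo hi hadj m (l₀ * m ^ k) hm (hL k)
    have h3 : (m : ℤ) * (l₀ * m ^ k : ℕ) = l₀ * m ^ (k + 1) := by
      push_cast
      ring
    have h4 : ((l₀ * m ^ (k + 1) : ℕ) : ℤ) = l₀ * m ^ (k + 1) := by push_cast; rfl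
    have h5 : (0 : ℝ) < (l₀ * m ^ k : ℕ) := by exact_mod_cast hL k
    have h6 : ((l₀ * m ^ (k + 1) : ℕ) : ℝ) = m * (l₀ * m ^ k : ℕ) := by
      push_cast
      ring
    rw [h3] at h2
    have h7 : (((Icc lo (hi - l₀ * m ^ (k + 1))).filter fun i =>
        NS m (l₀ * m ^ (k + 1)) f i).card : ℝ) * ((l₀ * m ^ k : ℕ) : ℝ) ^ 2 ≤
        m ^ 2 * (Geo_E f lo hi (l₀ * m ^ k : ℕ) : ℝ) - Geo_E f lo hi (l₀ * m ^ (k + 1)) := by
      exact_mod_cast h2
    simp only [E]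
    rw [h4, h6, ← le_div_iff₀ (by positivity)] at *
    refine h7.trans (le_of_eq ?_)
    field_simp
  have h2 := sum_le_sum (s := range K) fun k _ => h1 k
  rw [sum_range_sub' (fun k => (m : ℝ) ^ 2 * E k)] at h2
  have h3 : 0 ≤ E K := div_nonneg (by exact_mod_cast Geo_E_nonneg f lo hi _) (by positivity)
  have h4 : E 0 ≤ hi - lo + 1 := by
    have h5 : (0 : ℝ) < (l₀ * m ^ 0 : ℕ) := by exact_mod_cast hL 0
    have h6 := Geo_E_le f lo hi hle hadj (l₀ * m ^ 0 : ℕ) (by positivity)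
    simp only [E]
    rw [div_le_iff₀ (by positivity)]
    exact_mod_cast h6
  have h5 : ∑ k ∈ range K, (((Icc lo (hi - l₀ * m ^ (k + 1))).filter fun i =>
      NS m (l₀ * m ^ (k + 1)) f i).card : ℝ) ≤ m ^ 2 * (hi - lo + 1) := by
    nlinarith [mul_le_mul_of_nonneg_left h4 (sq_nonneg (m : ℝ)), mul_nonneg (sq_nonneg (m : ℝ)) h3]
  exact_mod_cast h5

lemma Geo_nson {S : Set V} {w : Wt} (hw : Nice w) (hS : Conn S) {x y v : V} {f : ℤ → V}
    {lo hi m ℓ : ℤ} (h : GeoFn S w x y f lo hi) (hℓ : 0 < ℓ) (hv : NSOn S w x y m ℓ v) :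
    ∃ i, lo ≤ i ∧ i ≤ hi - ℓ ∧ f i = v ∧ NS m ℓ f i := by
  obtain ⟨g, g0, gd, gn⟩ := hv
  obtain ⟨i, i1, i2, i3, -⟩ := (h.dart_iff hw hS).1 (gd 0 le_rfl hℓ)
  have key : ∀ t, 0 ≤ t → t ≤ ℓ → i + t ≤ hi ∧ f (i + t) = g t := by
    intro t ht
    induction t, ht using Int.leInduction with
    | base => exact fun _ => ⟨by linarith, by rw [add_zero, i3]⟩
    | succ t ht ih =>
      intro h1
      obtain ⟨h2, h3⟩ := ih (by linarith)
      obtain ⟨j, j1, j2, j3, j4⟩ := (h.dart_iff hw hS).1 (gd t ht (by linarith))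
      have h4 : j = i + t := (h.pathFn hw.pos).2 ⟨j1, j2.le⟩ ⟨by linarith, h2⟩ (j3.trans h3.symm)
      subst h4
      exact ⟨by linarith, by rw [← add_assoc, j4]⟩
  refine ⟨i, i1, by linarith [(key ℓ hℓ.le le_rfl).1], i3.trans g0, fun θ hθ hs => ?_⟩
  refine gn θ hθ fun t h0 ht => ?_
  rw [zero_add, ← (key t h0 ht).2, ← i3]
  exact hs t h0 ht

theorem nson_count {w : Wt} (hw : Nice w) {o x y : V} {n : ℤ} (hx : x ∈ box o n)
    (hy : y ∈ box o n) (m l₀ : ℕ) (hm : 0 < m) (hl : 0 < l₀) (K : ℕ) (F : Finset V) :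
    ∑ k ∈ range K, ∑ v ∈ F, ind (NSOn (box o n) w x y m (l₀ * m ^ (k + 1)) v) ≤
      (m : ℝ) ^ 2 * cntOn (box o n) w x y (boxF o n) := by
  obtain ⟨f, lo, hi, h, -, -, -⟩ := exists_geoFn hw conn_box hx hy (on_left hw.nn hx)
  have h1 := pig f lo hi h.le h.adj m l₀ hm hl K
  rw [← h.cntOn_eq hw conn_box (F := boxF o n) fun v hv => mem_boxF.2 hv] at h1
  have h2 : ∑ k ∈ range K, (((Icc lo (hi - l₀ * m ^ (k + 1))).filter fun i =>
      NS m (l₀ * m ^ (k + 1)) f i).card : ℝ) ≤ (m : ℝ) ^ 2 * cntOn (box o n) w x y (boxF o n) := by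
    exact_mod_cast h1
  refine le_trans (sum_le_sum fun k _ => ?_) h2
  unfold ind
  rw [sum_boole]
  refine Nat.cast_le.2 ((card_le_card fun v hv => ?_).trans (card_image_le (f := f)))
  obtain ⟨i, h3, h4, h5, h6⟩ := Geo_nson hw conn_box h (by positivity) (mem_filter.1 hv).2
  exact mem_image.2 ⟨i, mem_filter.2 ⟨mem_Icc.2 ⟨h3, h4⟩, h6⟩, h5⟩

lemma Geo_Str_add {s : V} {m ℓ i : ℤ} {θ : Bool × ℤ} {f : ℤ → V} :
    Str m ℓ θ (fun t => f t + s) i ↔ Str m ℓ θ f i := by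
  unfold Str
  simp only [add_sub_add_right_eq_sub]

theorem NSOn_shift {S S' : Set V} {s x y v : V} {w : Wt} {m ℓ : ℤ}
    (h : ∀ v, v ∈ S ↔ v + s ∈ S') :
    NSOn S (shiftW s w) x y m ℓ v ↔ NSOn S' w (x + s) (y + s) m ℓ (v + s) := by
  constructor
  · rintro ⟨f, h0, h1, h2⟩
    exact ⟨fun t => f t + s, by simp only [h0], fun t a b => (DartOn_shift h).1 (h1 t a b),
      fun θ hθ hs => h2 θ hθ (Geo_Str_add.1 hs)⟩
  · rintro ⟨f, h0, h1, h2⟩
    refine ⟨fun t => f t + -s, by simp only [h0, add_neg_cancel_right],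
      fun t a b => (DartOn_shift h).2 ?_, fun θ hθ hs => h2 θ hθ (Geo_Str_add.1 hs)⟩
    simp only [neg_add_cancel_right]
    exact h1 t a b

theorem StEv_shift {s v : V} {w : Wt} {m ℓ : ℤ} {θ : Bool × ℤ} :
    StEv m ℓ θ (shiftW s w) v ↔ StEv m ℓ θ w (v + s) := by
  constructor
  · rintro ⟨f, h0, h1, h2⟩
    exact ⟨fun t => f t + s, Bi_shiftW.1 h0, by simp only [h1], Geo_Str_add.2 h2⟩
  · rintro ⟨f, h0, h1, h2⟩
    refine ⟨fun t => f t + -s, Bi_shiftW.2 ?_, by simp only [h1, add_neg_cancel_right],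
      Geo_Str_add.2 h2⟩
    simp only [neg_add_cancel_right]
    exact h0

theorem card_Th (m : ℕ) : (Th m).card = 2 * (2 * m + 1) := by
  unfold Th
  rw [card_product, card_univ, Fintype.card_bool, Int.card_Icc]
  omega

lemma Geo_sw_sw (b : Bool) (v : V) : sw b (sw b v) = v := by
  cases b <;> simp [sw]

lemma Geo_sw_add (b : Bool) (u v : V) : sw b (u + v) = sw b u + sw b v := by
  cases b <;> simp [sw]

lemma Geo_sw_sub (b : Bool) (u v : V) : sw b (u - v) = sw b u - sw b v := by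
  cases b <;> simp [sw]

lemma Geo_sw_ball {b : Bool} {v : V} {r : ℤ} :
    v ∈ ball 0 r ↔ |(sw b v).1| ≤ r ∧ |(sw b v).2| ≤ r := by
  rw [mem_ball, abs_le, abs_le]
  cases b <;> simp [sw] <;> tauto

lemma Geo_mem_Th {θ : Bool × ℤ} {m : ℤ} : θ ∈ Th m ↔ |θ.2| ≤ m := by
  unfold Th
  rw [mem_product, mem_Icc, abs_le]
  simp

lemma Geo_strip_ball {θ : Bool × ℤ} {m ℓ : ℤ} (hm : 0 < m) (hθ : θ ∈ Th m) {v : V}
    (hv : v ∈ strip θ m (2 * ℓ) (10 * ℓ)) : v ∈ ball 0 (12 * ℓ) := by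
  obtain ⟨h1, h2⟩ := hv
  have hℓ : 0 ≤ ℓ := by linarith [abs_nonneg (sw θ.1 v).1]
  refine (Geo_sw_ball (b := θ.1)).2 ⟨by linarith, ?_⟩
  have h3 : |θ.2 * (sw θ.1 v).1| ≤ m * (2 * ℓ) := by
    rw [abs_mul]
    exact mul_le_mul (Geo_mem_Th.1 hθ) h1 (abs_nonneg _) hm.le
  have h4 : |m * (sw θ.1 v).2| ≤ m * (12 * ℓ) := by
    have h5 : ℓ ≤ m * ℓ := le_mul_of_one_le_left hℓ hm
    rw [abs_le] at *
    constructor <;> linarith [h2.1, h2.2, h3.1, h3.2]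
  rw [abs_mul, abs_of_pos hm] at h4
  exact le_of_mul_le_mul_left h4 hm

theorem card_D1 (θ : Bool × ℤ) (m l : ℕ) : (D1 θ m (m * l) l).card = m * l * l := by
  unfold D1
  rw [card_image_of_injective, card_product, Int.card_Ico, Int.card_Ico, sub_zero, sub_zero,
    ← Nat.cast_mul, Int.toNat_natCast, Int.toNat_natCast]
  intro p p' h
  have h1 := congrArg (sw θ.1) h
  simp only [Geo_sw_sw, Prod.mk.injEq] at h1
  refine Prod.ext h1.1 ?_
  have h2 := h1.2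
  rw [h1.1] at h2
  exact add_left_cancel h2

theorem D1_add {θ : Bool × ℤ} {m l : ℕ} (hm : 0 < m) (hl : 0 < l) (hθ : θ ∈ Th m) {v u : V}
    (hv : v ∈ D1 θ m (m * l) l) (hu : u ∈ strip θ m (m * l) (5 * (m * l))) :
    v + u ∈ D2 θ m (m * l) := by
  have hm' : (0 : ℤ) < m := by exact_mod_cast hm
  have hl' : (0 : ℤ) < l := by exact_mod_cast hl
  obtain ⟨p, hp, rfl⟩ := mem_image.1 hv
  rw [mem_product, mem_Ico, mem_Ico] at hp
  obtain ⟨⟨p1, p2⟩, p3, p4⟩ := hp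
  obtain ⟨u1, u2⟩ := hu
  have h1 := Int.mul_ediv_add_emod (θ.2 * p.1) m
  have h2 := Int.emod_nonneg (θ.2 * p.1) hm'.ne'
  have h3 := Int.emod_lt_of_pos (θ.2 * p.1) hm'
  have h4 := mul_le_mul_of_nonneg_left p3 hm'.le
  have h5 := mul_le_mul_of_nonneg_left p4.le hm'.le
  have h6 : (m : ℤ) ≤ m * l := le_mul_of_one_le_right hm'.le hl'
  have h7 : sw θ.1 (p.1, θ.2 * p.1 / m + p.2) + u ∈ strip θ m (2 * (m * l)) (10 * (m * l)) := by
    unfold strip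
    rw [Set.mem_ofPred_eq, Geo_sw_add, Geo_sw_sw, Prod.fst_add, Prod.snd_add]
    rw [abs_le] at *
    rw [abs_le]
    refine ⟨⟨?_, ?_⟩, ?_, ?_⟩ <;> dsimp only <;> linarith [u1.1, u1.2, u2.1, u2.2]
  exact mem_filter.2 ⟨mem_ballF.2 (Geo_strip_ball hm' hθ h7), h7⟩

theorem D1_sub_ball {θ : Bool × ℤ} {m l : ℕ} (hm : 0 < m) (hl : 0 < l) (hθ : θ ∈ Th m) {v : V}
    (hv : v ∈ D1 θ m (m * l) l) : v ∈ ball 0 (12 * (m * l)) := by
  have h1 := D1_add hm hl hθ hv (u := 0) (by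
    have h2 : sw θ.1 (0 : V) = 0 := by cases θ.1 <;> rfl
    unfold strip
    rw [Set.mem_ofPred_eq, h2]
    simp
    positivity)
  rw [add_zero] at h1
  exact mem_ballF.1 (mem_filter.1 h1).1

theorem card_D2 (θ : Bool × ℤ) {m l : ℕ} (hm : 0 < m) (hl : 0 < l) :
    (D2 θ m (m * l)).card ≤ 105 * (m * l * l) := by
  have hm' : (0 : ℤ) < m := by exact_mod_cast hm
  have h1 : D2 θ m (m * l) ⊆ (Icc (-(2 * (m * l)) : ℤ) (2 * (m * l)) ×ˢ
      Icc (-(10 * l) : ℤ) (10 * l)).image fun p => sw θ.1 (p.1, θ.2 * p.1 / m + p.2) := by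
    intro v hv
    obtain ⟨h2, h3⟩ := (mem_filter.1 hv).2
    refine mem_image.2 ⟨((sw θ.1 v).1, (sw θ.1 v).2 - θ.2 * (sw θ.1 v).1 / m), ?_, ?_⟩
    · have e1 := Int.mul_ediv_add_emod (θ.2 * (sw θ.1 v).1) m
      have e2 := Int.emod_nonneg (θ.2 * (sw θ.1 v).1) hm'.ne'
      have e3 := Int.emod_lt_of_pos (θ.2 * (sw θ.1 v).1) hm'
      rw [abs_le] at h2 h3
      rw [mem_product, mem_Icc, mem_Icc]
      refine ⟨h2, le_of_mul_le_mul_left (by linarith [h3.1]) hm', Int.lt_add_one_iff.1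
        (lt_of_mul_lt_mul_left (a := (m : ℤ)) (by linarith [h3.2]) hm'.le)⟩
    · simp only [add_sub_cancel]
      exact Geo_sw_sw _ _
  refine (card_le_card h1).trans (card_image_le.trans ?_)
  rw [card_product, Int.card_Icc, Int.card_Icc, ← Nat.cast_mul]
  have h2 := Nat.mul_pos hm hl
  generalize m * l = L at *
  calc _ ≤ 5 * L * (21 * l) := Nat.mul_le_mul (by omega) (by omega)
    _ = _ := by ring

theorem mem_edgesF {D : Finset V} {e : Sym2 V} :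
    e ∈ edgesF D ↔ ∃ a b, e = s(a, b) ∧ grid.Adj a b ∧ a ∈ D ∧ b ∈ D := by
  unfold edgesF
  simp only [mem_image, mem_filter, mem_product]
  constructor
  · rintro ⟨p, ⟨⟨h1, h2⟩, h3⟩, rfl⟩
    exact ⟨p.1, p.2, rfl, h3, h1, h2⟩
  · rintro ⟨a, b, rfl, h3, h1, h2⟩
    exact ⟨(a, b), ⟨⟨h1, h2⟩, h3⟩, rfl⟩

theorem card_edgesF (D : Finset V) : (edgesF D).card ≤ 4 * D.card := by
  refine card_image_le.trans (card_le_mul_card_image_of_maps_to (f := Prod.fst)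
    (fun p hp => (mem_product.1 (mem_filter.1 hp).1).1) 4 fun a _ => ?_)
  refine (card_le_card (t := {(a, (a.1 + 1, a.2)), (a, (a.1 - 1, a.2)), (a, (a.1, a.2 + 1)),
    (a, (a.1, a.2 - 1))}) fun p hp => ?_).trans card_le_four
  obtain ⟨hp1, rfl⟩ := mem_filter.1 hp
  have h1 := adj_iff.1 (mem_filter.1 hp1).2
  simp only [mem_insert, mem_singleton, Prod.ext_iff, true_and]
  omega

lemma Geo_path_add {f : ℤ → V} {lo hi : ℤ} (h : PathFn f lo hi) (s : V) :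
    PathFn (fun t => f t + s) lo hi :=
  ⟨fun i a b => adj_add (h.1 i a b) s, fun _ a _ b e => h.2 a b (add_right_cancel e)⟩

lemma Geo_Pe_shift {q M : ℝ} {s x : V} {w : Wt} {k : ℤ} :
    Pe q M (shiftW s w) x k ↔ Pe q M w (x + s) k := by
  have hc : ∀ f n, cntA q M (shiftW s w) f 0 n = cntA q M w (fun t => f t + s) 0 n := by
    intro f n
    unfold cntA
    simp only [shiftW_mk]
  constructor
  · intro h f n h0 hk hp
    have h1 := h (fun t => f t + -s) n (by simp only [h0, add_neg_cancel_right]) hk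
      (Geo_path_add hp _)
    rw [hc] at h1
    simp only [neg_add_cancel_right] at h1
    exact h1
  · intro h f n h0 hk hp
    rw [hc]
    exact h _ n (by simp only [h0]) hk (Geo_path_add hp s)

lemma Geo_ball_all {a s : V} {r : ℤ} {P : V → Prop} :
    (∀ b ∈ ball a r, P (b + s)) ↔ ∀ b ∈ ball (a + s) r, P b := by
  refine ⟨fun h b hb => ?_, fun h b hb => h _ (ball_shift.1 hb)⟩
  have h1 := h (b - s) (ball_shift.2 (by rwa [sub_add_cancel]))
  rwa [sub_add_cancel] at h1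

theorem GoodPt_shift {C : ℕ} {q M : ℝ} {s a : V} {w : Wt} {ρ : ℤ} :
    GoodPt C q M (shiftW s w) a ρ ↔ GoodPt C q M w (a + s) ρ := by
  unfold GoodPt
  have hT : ∀ b b', T (ball a (C * ρ)) (shiftW s w) b b' =
      T (ball (a + s) (C * ρ)) w (b + s) (b' + s) := fun b b' => T_shift fun _ => ball_shift
  simp only [hT, Geo_Pe_shift]
  refine and_congr ?_ (Geo_ball_all (P := fun b => Pe q M w b ρ))
  refine Iff.trans ?_ (Geo_ball_all (P := fun b => ∀ b' ∈ ball (a + s) ρ,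
    T (ball (a + s) (C * ρ)) w b b' ≤ C * ρ))
  exact forall₂_congr fun b _ =>
    Geo_ball_all (P := fun b' => T (ball (a + s) (C * ρ)) w (b + s) b' ≤ C * ρ)

theorem Good_shift {C : ℕ} {q M : ℝ} {s a : V} {w : Wt} {ρ ℓ : ℤ} :
    Good C q M (shiftW s w) a ρ ℓ ↔ Good C q M w (a + s) ρ ℓ := by
  unfold Good
  simp only [GoodPt_shift]
  exact Geo_ball_all (P := fun v => GoodPt C q M w v ρ ∧ GoodPt C q M w v (24 * ℓ))

/-- Long geodesics are heavy. -/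
theorem len_le_of_pe {S : Set V} {w : Wt} (hw : Nice w) {q M : ℝ} (hq : 0 < q) {x y : V}
    {f : ℤ → V} {lo hi k : ℤ} (h : GeoFn S w x y f lo hi) (hpe : Pe q M w x k)
    (hk : k ≤ hi - lo) : q * (hi - lo) ≤ 2 * T S w x y := by
  have h1 := hpe (fun t => f (t + lo)) (hi - lo) (by simp only [zero_add, h.start]) hk
    ((h.pathFn hw.pos).shift le_rfl le_rfl)
  have h2 : seg w (fun t => f (t + lo)) 0 (hi - lo) = T S w x y := by
    rw [seg_shift, zero_add, sub_add_cancel, h.add lo hi le_rfl h.le le_rfl, h.start, h.stop]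
  have h3 : (cntA q M w (fun t => f (t + lo)) 0 (hi - lo) : ℝ) * q ≤
      seg w (fun t => f (t + lo)) 0 (hi - lo) := by
    unfold cntA seg
    rw [← nsmul_eq_mul]
    exact (card_nsmul_le_sum _ _ _ fun i hi => (mem_filter.1 hi).2.1.le).trans
      (sum_le_sum_of_subset_of_nonneg (filter_subset _ _) fun i _ _ => hw.nn _)
  have h4 : (hi - lo : ℝ) ≤ 2 * cntA q M w (fun t => f (t + lo)) 0 (hi - lo) := by
    exact_mod_cast h1
  have h5 := mul_le_mul_of_nonneg_left h4 hq.le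
  linarith

lemma Geo_card (D : Finset V) (f : ℤ → V) (P : ℤ → Prop) {B : ℝ} (hB : 0 ≤ B)
    (hD : ∀ v ∈ D, ∃ i, P i ∧ f i = v)
    (h : ∀ i j, P i → P j → i ≤ j → f i ∈ D → f j ∈ D → (j - i + 1 : ℝ) ≤ B) :
    (D.card : ℝ) ≤ B := by
  rcases D.eq_empty_or_nonempty with rfl | hne
  · simpa using hB
  choose! ix h1 h2 using hD
  obtain ⟨u, hu, hu'⟩ := D.exists_min_image ix hne
  obtain ⟨v, hv, hv'⟩ := D.exists_max_image ix hne
  have h3 : D ⊆ (Icc (ix u) (ix v)).image f := fun z hz =>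
    mem_image.2 ⟨ix z, mem_Icc.2 ⟨hu' z hz, hv' z hz⟩, h2 z hz⟩
  have h4 := (card_le_card h3).trans card_image_le
  have h5 := hu' v hv
  have h6 : (D.card : ℤ) ≤ ix v - ix u + 1 := by
    rw [Int.card_Icc] at h4
    omega
  refine le_trans ?_ (h _ _ (h1 u hu) (h1 v hv) h5 (by rwa [h2 u hu]) (by rwa [h2 v hv]))
  exact_mod_cast h6

lemma Geo_gap {S : Set V} {w : Wt} (hw : Nice w) {C : ℕ} {q M : ℝ} (hq : 0 < q)
    {a x y : V} {ρ : ℤ} (hρ : 0 < ρ) (hC : 0 < C) (hg : GoodPt C q M w a ρ)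
    (hsub : ball a (C * ρ) ⊆ S) {f : ℤ → V} {i j : ℤ} (h : GeoFn S w x y f i j)
    (hx : x ∈ ball a ρ) (hy : y ∈ ball a ρ) : (j - i + 1 : ℝ) ≤ (2 * C / q + 2) * ρ := by
  have hρ' : (1 : ℝ) ≤ ρ := by exact_mod_cast hρ
  have h0 : 0 ≤ 2 * (C : ℝ) / q * ρ := by positivity
  have hb : ∀ v ∈ ball a ρ, v ∈ ball a (C * ρ) := fun v hv => by
    have h1 : ρ ≤ C * ρ := le_mul_of_one_le_left hρ.le (by exact_mod_cast hC)
    rw [mem_ball] at hv ⊢
    omega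
  rcases le_or_gt ρ (j - i) with hk | hk
  · have h1 := len_le_of_pe hw hq h (hg.2 x hx) hk
    have h2 := T_mono_S hw.nn conn_ball (hb x hx) (hb y hy) hsub
    have h3 := hg.1 x hx y hy
    have h4 : (j - i : ℝ) ≤ 2 * C / q * ρ := by
      rw [div_mul_eq_mul_div, le_div_iff₀ hq]
      linarith
    linarith
  · have h1 : (j - i + 1 : ℝ) ≤ ρ := by exact_mod_cast hk
    linarith

theorem vis {S : Set V} {w : Wt} (hw : Nice w) (hS : Conn S) {C : ℕ} {q M : ℝ} (hq : 0 < q)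
    {a x y : V} {ρ : ℤ} (hρ : 0 < ρ) (hC : 0 < C) (hg : GoodPt C q M w a ρ)
    (hsub : ball a (C * ρ) ⊆ S) (hx : x ∈ S) (hy : y ∈ S) :
    (cntOn S w x y (ballF a ρ) : ℝ) ≤ (2 * C / q + 2) * ρ := by
  obtain ⟨f, lo, hi, h, -, -, -⟩ := exists_geoFn hw hS hx hy (on_left hw.nn hx)
  have hρ' : (0 : ℝ) < ρ := by exact_mod_cast hρ
  refine Geo_card _ f (fun i => lo ≤ i ∧ i ≤ hi) (by positivity) (fun v hv => ?_)
    fun i j h1 h2 h3 h4 h5 => Geo_gap hw hq hρ hC hg hsub (h.sub h1.1 h3 h2.2)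
      (mem_ballF.1 (mem_filter.1 h4).1) (mem_ballF.1 (mem_filter.1 h5).1)
  obtain ⟨i, h1, h2, h3⟩ := (h.on_iff hw hS).1 (mem_filter.1 hv).2
  exact ⟨i, ⟨h1, h2⟩, h3⟩

theorem vis_bi {w : Wt} (hw : Nice w) {C : ℕ} {q M : ℝ} (hq : 0 < q) {a : V} {ρ : ℤ}
    (hρ : 0 < ρ) (hC : 0 < C) (hg : GoodPt C q M w a ρ) {γ : ℤ → V} (h : Bi w γ) (D : Finset V)
    (hD : ∀ v ∈ D, v ∈ ball a ρ) :
    ((D.filter fun v => ∃ i, γ i = v).card : ℝ) ≤ (2 * C / q + 2) * ρ := by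
  have hρ' : (0 : ℝ) < ρ := by exact_mod_cast hρ
  refine Geo_card _ γ (fun _ => True) (by positivity) (fun v hv => ?_)
    fun i j _ _ h3 h4 h5 => Geo_gap hw hq hρ hC hg (Set.subset_univ _)
      (h.geoFn hw.nn conn_univ h3 fun _ _ _ => Set.mem_univ _)
      (hD _ (mem_filter.1 h4).1) (hD _ (mem_filter.1 h5).1)
  obtain ⟨i, hi⟩ := (mem_filter.1 hv).2
  exact ⟨i, trivial, hi⟩

end Vale.Agent.P158
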