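import Vale.Agent.P158.Basic

/-! Geodesics in a nice environment; bigeodesics under raising and lowering. -/

namespace Vale.Agent.P158

open Finset MeasureTheory Filter
open scoped NNReal ENNReal Classical Topology

variable {S S' B : Set V} {w w' wp : Wt} {x y z a b c c' d d' o s v : V} {f g γ γ' : ℤ → V}
  {lo hi lo' hi' i j k n m r : ℤ}

theorem geod_finite (N : ℕ) (x y : V) : {p : grid.Walk x y | p.length < N}.Finite := by
  have : grid.LocallyFinite := fun v => Set.Finite.fintype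
    ((finite_ball (a := v) (r := 1)).subset fun u hu => by
      have := adj_iff.1 ((SimpleGraph.mem_neighborSet _ _ _).1 hu)
      rw [mem_ball]
      omega)
  rw [← SimpleGraph.coe_finsetWalkLengthLT_eq]
  exact Finset.finite_toSet _

theorem geod_fn_walk (p : grid.Walk x y) :
    ∃ f : ℤ → V, f 0 = x ∧ f p.length = y ∧
      (∀ i : ℤ, 0 ≤ i → i < p.length → grid.Adj (f i) (f (i + 1))) ∧
      (∀ w : Wt, wt w p = seg w f 0 p.length) ∧
      (∀ v, v ∈ p.support ↔ ∃ i : ℤ, 0 ≤ i ∧ i ≤ p.length ∧ f i = v) ∧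
      (∀ e, e ∈ p.edges ↔ ∃ i : ℤ, 0 ≤ i ∧ i < p.length ∧ e = s(f i, f (i + 1))) ∧
      (p.IsPath → Set.InjOn f (Set.Icc 0 p.length)) := by
  obtain ⟨f, h0, h1, h2, h3⟩ := exists_fn_walk p
  refine ⟨f, h0, h1, fun i i1 i2 => ?_, h3⟩
  lift i to ℕ using i1
  exact h2 i (by positivity) (by exact_mod_cast i2)

theorem geod_seg_pos (hw : ∀ e, 0 < w e) (hij : i < j) : 0 < seg w f i j :=
  Finset.sum_pos (fun _ _ => hw _) (Finset.nonempty_Ico.2 hij)

theorem geod_seg_congr (h : ∀ k, i ≤ k → k < j → w' s(f k, f (k + 1)) = w s(f k, f (k + 1))) :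
    seg w' f i j = seg w f i j :=
  Finset.sum_congr rfl fun k hk => h k (Finset.mem_Ico.1 hk).1 (Finset.mem_Ico.1 hk).2

theorem geod_walk (h : GeoFn S w x y f lo hi) :
    ∃ p : grid.Walk x y, (∀ w : Wt, wt w p = seg w f lo hi) ∧
      (∀ v, v ∈ p.support ↔ ∃ i, lo ≤ i ∧ i ≤ hi ∧ f i = v) ∧
      (∀ e, e ∈ p.edges ↔ ∃ i, lo ≤ i ∧ i < hi ∧ e = s(f i, f (i + 1))) ∧
      (p.length : ℤ) = hi - lo ∧ (Set.InjOn f (Set.Icc lo hi) → p.IsPath) := by
  obtain ⟨h1, rfl, rfl, h2, -, -⟩ := h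
  exact exists_walk_seg h1 h2

theorem GeoFn.left (h : GeoFn S w x y f lo hi) (h1 : lo ≤ i) (h2 : i ≤ hi) :
    T S w x (f i) = seg w f lo i := by
  rw [h.add lo i le_rfl h1 h2, h.start]

theorem GeoFn.right (h : GeoFn S w x y f lo hi) (h1 : lo ≤ i) (h2 : i ≤ hi) :
    T S w (f i) y = seg w f i hi := by
  rw [h.add i hi h1 h2 le_rfl, h.stop]

theorem GeoFn.whole (h : GeoFn S w x y f lo hi) : T S w x y = seg w f lo hi := by
  rw [← h.left h.le le_rfl, h.stop]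

theorem GeoFn.mem_start (h : GeoFn S w x y f lo hi) : x ∈ S := h.start ▸ h.mem lo le_rfl h.le

theorem GeoFn.mem_stop (h : GeoFn S w x y f lo hi) : y ∈ S := h.stop ▸ h.mem hi h.le le_rfl

theorem GeoFn.le_seg (h : GeoFn S w x y f lo hi) (hw' : NN w')
    (hmem : ∀ i, lo ≤ i → i ≤ hi → f i ∈ S') : T S' w' x y ≤ seg w' f lo hi := by
  have := T_le_seg hw' h.le h.adj hmem
  rwa [h.start, h.stop] at this

theorem exists_geo_walk (hw : Nice w) (hS : Conn S) (hx : x ∈ S) (hy : y ∈ S) :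
    ∃ p : grid.Walk x y, p.IsPath ∧ In S p ∧ wt w p = T S w x y := by
  obtain ⟨p0, hp0⟩ := hS x hx y hy
  obtain ⟨k, hk⟩ := hw.proper x (wt w p0)
  have hfin : {p : grid.Walk x y | p.IsPath ∧ In S p ∧ wt w p ≤ wt w p0}.Finite := by
    refine (geod_finite k.toNat x y).subset fun p hp => ?_
    by_contra hl
    obtain ⟨f, h0, -, h1, h2, -, -, h3⟩ := geod_fn_walk p
    have h4 : k ≤ p.length := by
      simp only [Set.mem_ofPred_eq] at hl
      omega
    have := hk f _ h0 h4 ⟨h1, h3 hp.1⟩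
    rw [← h2] at this
    exact this.not_ge hp.2.2
  obtain ⟨p, hp, hmin⟩ := Set.exists_min_image _ (wt w) hfin ⟨p0.bypass, p0.bypass_isPath,
    fun v hv => hp0 v (p0.support_bypass_subset_support hv), wt_bypass_le hw.nn p0⟩
  refine ⟨p, hp.1, hp.2.1, le_antisymm (le_T hw.nn hS hx hy fun q h1 h2 => ?_)
    (T_le_wt hw.nn hp.2.1)⟩
  rcases le_total (wt w q) (wt w p0) with h3 | h3
  exacts [hmin q ⟨h2, h1, h3⟩, hp.2.2.trans h3]

theorem T_pos (hw : Nice w) (hS : Conn S) (hx : x ∈ S) (hy : y ∈ S) (h : x ≠ y) :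
    0 < T S w x y := by
  obtain ⟨p, -, -, hp⟩ := exists_geo_walk hw hS hx hy
  cases p with
  | nil => exact absurd rfl h
  | cons h' p =>
    rw [← hp, wt_cons]
    exact add_pos_of_pos_of_nonneg (hw.pos _) (wt_nonneg hw.nn p)

theorem on_left (hw : NN w) (hx : x ∈ S) : On S w x x y := by
  exact ⟨hx, by rw [T_self hw hx, zero_add]⟩

theorem on_right (hw : NN w) (hy : y ∈ S) : On S w x y y := by
  exact ⟨hy, by rw [T_self hw hy, add_zero]⟩

theorem on_symm : On S w x c y ↔ On S w y c x := by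
  unfold On
  rw [T_comm (x := x) (y := c), T_comm (x := c) (y := y), T_comm (x := x) (y := y), add_comm]

theorem dartOn_symm : DartOn S w x y a b ↔ DartOn S w y x b a := by
  unfold DartOn
  rw [T_comm (x := x) (y := a), T_comm (x := b) (y := y), T_comm (x := x) (y := y),
    Sym2.eq_swap (a := a), grid.adj_comm]
  constructor <;> exact fun ⟨h1, h2, h3, h4⟩ => ⟨h1, h3, h2, by linarith⟩

theorem DartOn.on_fst (hw : NN w) (hS : Conn S) (hx : x ∈ S) (hy : y ∈ S)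
    (h : DartOn S w x y a b) : On S w x a y := by
  obtain ⟨h1, ha, hb, h2⟩ := h
  refine ⟨ha, le_antisymm ?_ (T_tri hw hS hx ha hy)⟩
  linarith [T_tri hw hS ha hb hy, T_adj hw h1 ha hb]

theorem DartOn.on_snd (hw : NN w) (hS : Conn S) (hx : x ∈ S) (hy : y ∈ S)
    (h : DartOn S w x y a b) : On S w x b y := by
  exact on_symm.1 ((dartOn_symm.1 h).on_fst hw hS hy hx)

theorem GeoFn.pathFn (hw : ∀ e, 0 < w e) (h : GeoFn S w x y f lo hi) : PathFn f lo hi := by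
  have key : ∀ i j, lo ≤ i → i < j → j ≤ hi → f i ≠ f j := fun i j h1 h2 h3 h4 => by
    have h5 := h.add i j h1 h2.le h3
    rw [← h4, T_self (fun e => (hw e).le) (h.mem i h1 (by omega))] at h5
    exact (geod_seg_pos hw h2).ne' h5
  refine ⟨h.adj, fun i hi j hj e => ?_⟩
  rcases lt_trichotomy i j with h1 | h1 | h1
  exacts [absurd e (key i j hi.1 h1 hj.2), h1, absurd e.symm (key j i hj.1 h1 hi.2)]

theorem GeoFn.shift (h : GeoFn S w x y f lo hi) (k : ℤ) :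
    GeoFn S w x y (fun t => f (t + k)) (lo - k) (hi - k) := by
  refine ⟨by linarith [h.le], by rw [sub_add_cancel, h.start], by rw [sub_add_cancel, h.stop],
    fun i h1 h2 => ?_, fun i h1 h2 => h.mem _ (by omega) (by omega), fun i j h1 h2 h3 => ?_⟩
  · rw [add_right_comm]
    exact h.adj _ (by omega) (by omega)
  · rw [seg_shift]
    exact h.add _ _ (by omega) (by omega) (by omega)

theorem GeoFn.neg (h : GeoFn S w x y f lo hi) :
    GeoFn S w y x (fun t => f (-t)) (-hi) (-lo) := by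
  refine ⟨by linarith [h.le], by rw [neg_neg, h.stop], by rw [neg_neg, h.start],
    fun i h1 h2 => ?_, fun i h1 h2 => h.mem _ (by omega) (by omega), fun i j h1 h2 h3 => ?_⟩
  · have := h.adj (-(i + 1)) (by omega) (by omega)
    rw [show -(i + 1) + 1 = -i by ring] at this
    exact this.symm
  · rw [seg_neg, T_comm]
    exact h.add _ _ (by omega) (by omega) (by omega)

theorem GeoFn.sub (h : GeoFn S w x y f lo hi) (hi1 : lo ≤ i) (hij : i ≤ j) (hj : j ≤ hi) :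
    GeoFn S w (f i) (f j) f i j := by
  exact ⟨hij, rfl, rfl, fun k h1 h2 => h.adj k (by omega) (by omega),
    fun k h1 h2 => h.mem k (by omega) (by omega),
    fun k l h1 h2 h3 => h.add k l (by omega) h2 (by omega)⟩

theorem GeoFn.unique (hw : Nice w) (h : GeoFn S w x y f lo hi) (h' : GeoFn S w x y g lo' hi') :
    hi - lo = hi' - lo' ∧ ∀ k, 0 ≤ k → k ≤ hi - lo → f (lo + k) = g (lo' + k) := by
  obtain ⟨p, p1, -, p2, p3, p4⟩ := geod_walk h
  obtain ⟨q, q1, -, q2, q3, q4⟩ := geod_walk h'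
  have hg := (h'.pathFn hw.pos).2
  obtain rfl : p = q := hw.uniq _ _ p q (p4 (h.pathFn hw.pos).2) (q4 hg)
    (by rw [p1, q1, ← h.whole, ← h'.whole])
  have hl : hi - lo = hi' - lo' := p3.symm.trans q3
  refine ⟨hl, fun k hk => ?_⟩
  induction k, hk using Int.leInduction with
  | base => exact fun _ => by rw [add_zero, add_zero, h.start, h'.start]
  | succ k hk ih =>
    intro h1
    have h2 := ih (by omega)
    obtain ⟨j, h3, h4, h5⟩ := (q2 _).1 ((p2 _).2 ⟨lo + k, by omega, by omega, rfl⟩)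
    rcases Sym2.eq_iff.1 h5 with ⟨h6, h7⟩ | ⟨h6, h7⟩
    · obtain rfl : lo' + k = j := hg ⟨by omega, by omega⟩ ⟨h3, h4.le⟩ (h2.symm.trans h6)
      rw [← add_assoc, ← add_assoc, h7]
    · have h8 := h.left (i := lo + k) (by omega) (by omega)
      have h9 := h.left (i := lo + k + 1) (by omega) (by omega)
      rw [h6, h'.left (by omega) (by omega), ← seg_add h3 (by omega)] at h8
      rw [h7, h'.left h3 h4.le, ← seg_add (f := f) (j := lo + k) (by omega) (by omega)] at h9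
      linarith [geod_seg_pos (f := g) hw.pos (lt_add_one j),
        geod_seg_pos (f := f) hw.pos (lt_add_one (lo + k))]

theorem exists_geoFn (hw : Nice w) (hS : Conn S) (hx : x ∈ S) (hy : y ∈ S) (hc : On S w x c y) :
    ∃ f lo hi, GeoFn S w x y f lo hi ∧ f 0 = c ∧ lo ≤ 0 ∧ 0 ≤ hi := by
  obtain ⟨p, -, p1, p2⟩ := exists_geo_walk hw hS hx hc.1
  obtain ⟨q, -, q1, q2⟩ := exists_geo_walk hw hS hc.1 hy
  obtain ⟨f, h0, h1, h2, h3, h4, -⟩ := geod_fn_walk (p.append q)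
  have h5 := geoFn_of_seg hw.nn hS (Nat.cast_nonneg _) h2 (fun i i1 i2 => by
    rcases (SimpleGraph.Walk.mem_support_append_iff _ _).1 ((h4 _).2 ⟨i, i1, i2, rfl⟩) with h | h
    exacts [p1 _ h, q1 _ h]) (by rw [← h3, h0, h1, wt_append, p2, q2, hc.2])
  rw [h0, h1] at h5
  obtain ⟨i, i1, i2, h6⟩ := (h4 c).1
    ((SimpleGraph.Walk.mem_support_append_iff _ _).2 (Or.inr q.start_mem_support))
  exact ⟨_, _, _, h5.shift i, by simpa using h6, by omega, by omega⟩

theorem GeoFn.on_iff (hw : Nice w) (hS : Conn S) (h : GeoFn S w x y f lo hi) :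
    On S w x c y ↔ ∃ i, lo ≤ i ∧ i ≤ hi ∧ f i = c := by
  constructor
  · intro hc
    obtain ⟨g, lo', hi', h1, h2, h3, h4⟩ := exists_geoFn hw hS h.mem_start h.mem_stop hc
    obtain ⟨h5, h6⟩ := h.unique hw h1
    exact ⟨lo + -lo', by omega, by omega, by
      rw [h6 _ (by omega) (by omega), add_neg_cancel, h2]⟩
  · rintro ⟨i, h1, h2, rfl⟩
    exact ⟨h.mem i h1 h2, by rw [h.left h1 h2, h.right h1 h2, seg_add h1 h2, h.whole]⟩

theorem GeoFn.dart_iff (hw : Nice w) (hS : Conn S) (h : GeoFn S w x y f lo hi) :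
    DartOn S w x y a b ↔ ∃ i, lo ≤ i ∧ i < hi ∧ f i = a ∧ f (i + 1) = b := by
  constructor
  · intro hd
    obtain ⟨i, i1, i2, rfl⟩ := (h.on_iff hw hS).1 (hd.on_fst hw.nn hS h.mem_start h.mem_stop)
    obtain ⟨j, j1, j2, rfl⟩ := (h.on_iff hw hS).1 (hd.on_snd hw.nn hS h.mem_start h.mem_stop)
    obtain ⟨h1, -, -, h2⟩ := hd
    rw [h.left i1 i2, h.right j1 j2, h.whole] at h2
    have hij : i < j := by
      by_contra h3
      have h4 := seg_add (w := w) (f := f) j1 (not_lt.1 h3)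
      linarith [seg_add (w := w) (f := f) j1 j2, hw.pos s(f i, f j),
        seg_nonneg (f := f) (i := j) (j := i) hw.nn]
    have h3 := h.sub i1 hij.le j2
    obtain ⟨p, p1, -, -, p3, p4⟩ := geod_walk h3
    have h4 : p = SimpleGraph.Walk.cons h1 SimpleGraph.Walk.nil := by
      refine hw.uniq _ _ _ _ (p4 (h3.pathFn hw.pos).2) (by simpa using h1.ne) ?_
      have h5 : wt w (SimpleGraph.Walk.nil : grid.Walk (f j) (f j)) = 0 := by simp [wt]
      rw [p1, wt_cons, h5]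
      linarith [seg_add (w := w) (f := f) i1 hij.le, seg_add (w := w) (f := f) j1 j2]
    rw [h4] at p3
    obtain rfl : i + 1 = j := by
      simp at p3
      omega
    exact ⟨i, i1, by omega, rfl, rfl⟩
  · rintro ⟨i, h1, h2, rfl, rfl⟩
    refine ⟨h.adj i h1 h2, h.mem i h1 h2.le, h.mem _ (by omega) h2, ?_⟩
    rw [h.left h1 h2.le, h.right (by omega) h2, ← seg_succ (w := w) (f := f), seg_add h1 (by omega),
      seg_add (by omega) h2, h.whole]

theorem GeoFn.edge_iff (hw : Nice w) (hS : Conn S) (h : GeoFn S w x y f lo hi) {e : Sym2 V} :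
    EdgeOn S w x y e ↔ ∃ i, lo ≤ i ∧ i < hi ∧ e = s(f i, f (i + 1)) := by
  constructor
  · rintro ⟨a, b, rfl, hd⟩
    obtain ⟨i, h1, h2, rfl, rfl⟩ := (h.dart_iff hw hS).1 hd
    exact ⟨i, h1, h2, rfl⟩
  · rintro ⟨i, h1, h2, rfl⟩
    exact ⟨_, _, rfl, (h.dart_iff hw hS).2 ⟨i, h1, h2, rfl, rfl⟩⟩

theorem geod_exists (hw : Nice w) (hS : Conn S) (hx : x ∈ S) (hy : y ∈ S) :
    ∃ f lo hi, GeoFn S w x y f lo hi := by
  obtain ⟨f, lo, hi, h, -⟩ := exists_geoFn hw hS hx hy (on_left hw.nn hx)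
  exact ⟨f, lo, hi, h⟩

/-- The geodesic as a walk, with its support described by `On`. -/
theorem exists_geo_support (hw : Nice w) (hS : Conn S) (hx : x ∈ S) (hy : y ∈ S) :
    ∃ p : grid.Walk x y, In S p ∧ ∀ v, v ∈ p.support ↔ On S w x v y := by
  obtain ⟨f, lo, hi, h⟩ := geod_exists hw hS hx hy
  obtain ⟨p, -, p2, -⟩ := geod_walk h
  have h1 : ∀ v, v ∈ p.support ↔ On S w x v y := fun v => (p2 v).trans (h.on_iff hw hS).symm
  exact ⟨p, fun v hv => ((h1 v).1 hv).1, h1⟩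

theorem GeoFn.cntOn_eq (hw : Nice w) (hS : Conn S) (h : GeoFn S w x y f lo hi) {F : Finset V}
    (hF : ∀ v ∈ S, v ∈ F) : (cntOn S w x y F : ℤ) = hi - lo + 1 := by
  have h1 : F.filter (fun v => On S w x v y) = (Icc lo hi).image f := by
    ext v
    simp only [mem_filter, mem_image, mem_Icc]
    exact ⟨fun hv => ((h.on_iff hw hS).1 hv.2).imp fun i hi => ⟨⟨hi.1, hi.2.1⟩, hi.2.2⟩,
      fun ⟨i, h2, h3⟩ => ⟨hF v (h3 ▸ h.mem i h2.1 h2.2),
        (h.on_iff hw hS).2 ⟨i, h2.1, h2.2, h3⟩⟩⟩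
  rw [cntOn, h1, card_image_of_injOn (by rw [coe_Icc]; exact (h.pathFn hw.pos).2), Int.card_Icc]
  have := h.le
  omega

theorem on_total (hw : Nice w) (hS : Conn S) (hx : x ∈ S) (hy : y ∈ S) (h : On S w x c y)
    (h' : On S w x c' y) : On S w x c c' ∨ On S w x c' c := by
  obtain ⟨f, lo, hi, hf⟩ := geod_exists hw hS hx hy
  obtain ⟨i, i1, i2, rfl⟩ := (hf.on_iff hw hS).1 h
  obtain ⟨j, j1, j2, rfl⟩ := (hf.on_iff hw hS).1 h'
  rw [← hf.start]
  exact (le_total i j).imp (fun h1 => ((hf.sub le_rfl j1 j2).on_iff hw hS).2 ⟨i, i1, h1, rfl⟩)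
    fun h1 => ((hf.sub le_rfl i1 i2).on_iff hw hS).2 ⟨j, j1, h1, rfl⟩

theorem on_trans (hw : NN w) (hS : Conn S) (hx : x ∈ S) (hy : y ∈ S) (h : On S w x c c')
    (h' : On S w x c' y) : On S w x c y ∧ On S w c c' y := by
  have h1 := T_tri hw hS hx h.1 hy
  have h2 := T_tri hw hS h.1 h'.1 hy
  exact ⟨⟨h.1, by linarith [h.2, h'.2]⟩, h'.1, by linarith [h.2, h'.2]⟩

theorem on_between (hw : Nice w) (hS : Conn S) (hx : x ∈ S) (hy : y ∈ S) (ha : On S w x a y)
    (hb : On S w x b y) (hc : On S w a c b) : On S w x c y := by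
  rcases on_total hw hS hx hy ha hb with h | h
  · exact (on_trans hw.nn hS hx hy
      (on_symm.1 (on_trans hw.nn hS hb.1 hx (on_symm.1 hc) (on_symm.1 h)).1) hb).1
  · exact (on_trans hw.nn hS hx hy
      (on_symm.1 (on_trans hw.nn hS ha.1 hx hc (on_symm.1 h)).1) ha).1

theorem child_exists (hw : Nice w) (hS : Conn S) (hc : c ∈ S) (hz : z ∈ S) (h : c ≠ z) :
    ∃ d, Child S w c z d := by
  obtain ⟨f, lo, hi, hf⟩ := geod_exists hw hS hc hz
  have h1 : lo < hi := hf.le.lt_of_ne fun e => h (by rw [← hf.start, e, hf.stop])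
  obtain ⟨h2, -, h3, h4⟩ := (hf.dart_iff hw hS).2 ⟨lo, le_rfl, h1, hf.start, rfl⟩
  exact ⟨_, h2, h3, by rw [← h4, T_self hw.nn hc, zero_add]⟩

theorem child_unique (hw : Nice w) (hS : Conn S) (hc : c ∈ S) (hz : z ∈ S)
    (h : Child S w c z d) (h' : Child S w c z d') : d = d' := by
  obtain ⟨f, lo, hi, hf⟩ := geod_exists hw hS hc hz
  obtain ⟨i, i1, i2, i3, rfl⟩ := (hf.dart_iff hw hS).1
    ⟨h.1, hc, h.2.1, by rw [T_self hw.nn hc, zero_add, h.2.2]⟩
  obtain ⟨j, j1, j2, j3, rfl⟩ := (hf.dart_iff hw hS).1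
    ⟨h'.1, hc, h'.2.1, by rw [T_self hw.nn hc, zero_add, h'.2.2]⟩
  rw [(hf.pathFn hw.pos).2 ⟨i1, i2.le⟩ ⟨j1, j2.le⟩ (i3.trans j3.symm)]

theorem Child.extend (hw : NN w) (hS : Conn S) (hc : c ∈ S) (hz : z ∈ S) (h : Child S w c c' d)
    (h' : On S w c c' z) : Child S w c z d := by
  obtain ⟨h1, h2, h3⟩ := h
  refine ⟨h1, h2, ?_⟩
  linarith [T_tri hw hS h2 h'.1 hz, T_tri hw hS hc h2 hz, T_adj hw h1 hc h2, h'.2]

theorem T_eq_of_not_touch (hw : Nice w) (hle : ∀ e, w e ≤ wp e)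
    (hoff : ∀ e, (∀ v ∈ e, v ∉ B) → wp e = w e) (hS : Conn S) (hx : x ∈ S) (hy : y ∈ S)
    (h : ¬ Touch S w B x y) : T S wp x y = T S w x y := by
  obtain ⟨f, lo, hi, hf⟩ := geod_exists hw hS hx hy
  refine le_antisymm ((hf.le_seg (fun e => (hw.nn e).trans (hle e)) hf.mem).trans_eq ?_)
    (T_mono_w hw.nn hle hS hx hy)
  have h1 : ∀ i, lo ≤ i → i ≤ hi → f i ∉ B := fun i h1 h2 h3 =>
    h ⟨_, h3, (hf.on_iff hw hS).2 ⟨i, h1, h2, rfl⟩⟩
  rw [hf.whole]
  refine geod_seg_congr fun k h2 h3 => hoff _ fun v hv => ?_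
  rcases Sym2.mem_iff.1 hv with rfl | rfl
  exacts [h1 _ h2 h3.le, h1 _ (by omega) h3]

theorem T_diff_on (hw : Nice w) (hle : ∀ e, w e ≤ wp e) (J : Finset (Sym2 V))
    (hoff : ∀ e, e ∉ J → wp e = w e) (hS : Conn S) (hx : x ∈ S) (hy : y ∈ S) :
    T S wp x y ≤ T S w x y + ∑ e ∈ J.filter (fun e => EdgeOn S w x y e), (wp e - w e) := by
  obtain ⟨f, lo, hi, hf⟩ := geod_exists hw hS hx hy
  refine (hf.le_seg (fun e => (hw.nn e).trans (hle e)) hf.mem).trans ?_
  rw [hf.whole, ← sub_le_iff_le_add', seg, seg, ← sum_sub_distrib,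
    ← sum_image (g := fun k => s(f k, f (k + 1))) (f := fun e => wp e - w e) fun i hi j hj e =>
      (hf.pathFn hw.pos).edge_inj (mem_Ico.1 hi).1 (mem_Ico.1 hi).2 (mem_Ico.1 hj).1
        (mem_Ico.1 hj).2 e,
    ← sum_filter_of_ne (p := (· ∈ J)) fun e _ h => by_contra fun h1 => h (sub_eq_zero.2 (hoff e h1))]
  refine sum_le_sum_of_subset_of_nonneg (fun e he => ?_) fun e _ _ => sub_nonneg.2 (hle e)
  obtain ⟨h1, h2⟩ := mem_filter.1 he
  obtain ⟨i, h3, rfl⟩ := mem_image.1 h1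
  exact mem_filter.2 ⟨h2, (hf.edge_iff hw hS).2 ⟨i, (mem_Ico.1 h3).1, (mem_Ico.1 h3).2, rfl⟩⟩

theorem T_stab (hw : Nice w) (x y : V) :
    ∃ R : ℤ, y ∈ ball x R ∧ ∀ S, Conn S → ball x R ⊆ S → T S w x y = T Set.univ w x y := by
  obtain ⟨f, lo, hi, hf⟩ := geod_exists hw conn_univ (Set.mem_univ x) (Set.mem_univ y)
  have h1 : ∀ i, lo ≤ i → i ≤ hi → f i ∈ ball x (hi - lo) := fun i h1 h2 => by
    have := mem_ball_of_adj hf.adj le_rfl hf.le h1 h2
    rw [hf.start, abs_of_nonneg (by omega), mem_ball] at this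
    rw [mem_ball]
    omega
  refine ⟨hi - lo, hf.stop ▸ h1 hi hf.le le_rfl, fun S hS h2 => le_antisymm ?_
    (T_mono_S hw.nn hS (h2 (hf.start ▸ h1 lo le_rfl hf.le)) (h2 (hf.stop ▸ h1 hi hf.le le_rfl))
      (Set.subset_univ _))⟩
  rw [hf.whole]
  exact hf.le_seg hw.nn fun i i1 i2 => h2 (h1 i i1 i2)

/-- A geodesic through `f 0` reaches a point at bounded passage time within boundedly many steps. -/
theorem idx_bound (hw : Nice w) (x : V) (C : ℝ) :
    ∃ K : ℤ, ∀ S x' y' f lo hi i, GeoFn S w x' y' f lo hi → f 0 = x → lo ≤ 0 → 0 ≤ hi →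
      lo ≤ i → i ≤ hi → T S w x (f i) ≤ C → |i| ≤ K := by
  obtain ⟨k, hk⟩ := hw.proper x C
  refine ⟨k, fun S x' y' f lo hi i h h0 h1 h2 h3 h4 h5 => ?_⟩
  by_contra h6
  rcases le_total 0 i with h7 | h7
  · have h8 := h.sub h1 h7 h4
    rw [abs_of_nonneg h7] at h6
    have h9 := hk f i h0 (by omega) (h8.pathFn hw.pos)
    rw [← h8.whole, h0] at h9
    exact h9.not_ge h5
  · have h8 := (h.sub h3 h7 h2).neg
    rw [neg_zero] at h8
    rw [abs_of_nonpos h7] at h6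
    have h9 := hk (fun t => f (-t)) (-i) (h8.start.trans h0) (by omega) (h8.pathFn hw.pos)
    rw [← h8.whole, h0] at h9
    exact h9.not_ge h5

/-! ### Bigeodesics -/

theorem Bi.geoFn_univ (h : Bi w γ) (hle : lo ≤ hi) :
    GeoFn Set.univ w (γ lo) (γ hi) γ lo hi :=
  ⟨hle, rfl, rfl, fun i _ _ => h.1 i, fun _ _ _ => Set.mem_univ _, fun i j _ hij _ => h.2 i j hij⟩

theorem Bi.inj (hw : ∀ e, 0 < w e) (h : Bi w γ) : Function.Injective γ := by
  intro i j e
  exact ((h.geoFn_univ (min_le_max (a := i) (b := j))).pathFn hw).2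
    ⟨min_le_left _ _, le_max_left _ _⟩ ⟨min_le_right _ _, le_max_right _ _⟩ e

theorem Bi.shift (h : Bi w γ) (k : ℤ) : Bi w (fun t => γ (t + k)) := by
  refine ⟨fun i => ?_, fun i j hij => ?_⟩
  · simpa only [add_right_comm] using h.1 (i + k)
  · rw [seg_shift]
    exact h.2 _ _ (by omega)

theorem Bi.neg (h : Bi w γ) : Bi w (fun t => γ (-t)) := by
  refine ⟨fun i => ?_, fun i j hij => ?_⟩
  · have := h.1 (-(i + 1))
    rw [show -(i + 1) + 1 = -i by ring] at this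
    exact this.symm
  · rw [seg_neg, T_comm]
    exact h.2 _ _ (by omega)

theorem Bi.geoFn (hw : NN w) (h : Bi w γ) (hS : Conn S) (hle : lo ≤ hi)
    (hmem : ∀ i, lo ≤ i → i ≤ hi → γ i ∈ S) : GeoFn S w (γ lo) (γ hi) γ lo hi := by
  refine geoFn_of_seg hw hS hle (fun i _ _ => h.1 i) hmem ?_
  rw [h.2 _ _ hle]
  exact T_mono_S hw hS (hmem _ le_rfl hle) (hmem _ hle le_rfl) (Set.subset_univ _)

theorem Bi.lower (hw' : NN w') (hle : ∀ e, w' e ≤ w e) (J : Finset (Sym2 V))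
    (hoff : ∀ e, e ∉ J → w' e = w e) (hJ : ∀ e ∈ J, ∃ i, e = s(γ i, γ (i + 1))) (h : Bi w γ) :
    Bi w' γ := by
  refine ⟨h.1, fun i j hij => ?_⟩
  choose! t ht using hJ
  obtain ⟨N, hN⟩ := (J.image fun e => |t e|).bddAbove
  have h1 : ∀ e ∈ J, min i (-N) ≤ t e ∧ t e < max j (N + 1) := fun e he => by
    have := abs_le.1 (hN (mem_coe.2 (mem_image_of_mem _ he)))
    omega
  have h2 : min i (-N) ≤ max j (N + 1) := by omega
  refine (geoFn_of_seg hw' conn_univ h2 (fun i _ _ => h.1 i) (fun _ _ _ => Set.mem_univ _) ?_).add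
    i j (min_le_left _ _) hij (le_max_left _ _)
  have h3 := T_diff (x := γ (min i (-N))) (y := γ (max j (N + 1))) hw' hle J
    (fun e he => (hoff e he).symm) conn_univ (Set.mem_univ _) (Set.mem_univ _)
  rw [← h.2 _ _ h2] at h3
  have h4 : ∑ e ∈ J, (w e - w' e) ≤
      seg w γ (min i (-N)) (max j (N + 1)) - seg w' γ (min i (-N)) (max j (N + 1)) := by
    rw [seg, seg, ← sum_sub_distrib]
    refine le_trans (sum_le_sum_of_subset_of_nonneg (fun e he => ?_)
      fun e _ _ => sub_nonneg.2 (hle e)) (sum_image_le_of_nonneg (g := fun k => s(γ k, γ (k + 1)))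
        (f := fun e => w e - w' e) fun e _ => sub_nonneg.2 (hle e))
    exact mem_image.2 ⟨t e, mem_Ico.2 (h1 e he), (ht e he).symm⟩
  linarith

theorem Bi.raise (hw : NN w) (hle : ∀ e, w e ≤ wp e)
    (heq : ∀ i, wp s(γ i, γ (i + 1)) = w s(γ i, γ (i + 1))) (h : Bi w γ) : Bi wp γ := by
  refine ⟨h.1, fun i j hij => le_antisymm ?_ (T_le_seg (fun e => (hw e).trans (hle e)) hij
    (fun i _ _ => h.1 i) fun _ _ _ => Set.mem_univ _)⟩
  rw [geod_seg_congr fun k _ _ => heq k, h.2 i j hij]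
  exact T_mono_w hw hle conn_univ (Set.mem_univ _) (Set.mem_univ _)

theorem Bi.update_le {e : Sym2 V} {t t' : ℝ} (hw : NN w) (ht : 0 ≤ t) (htt : t ≤ t')
    (he : ∃ i, e = s(γ i, γ (i + 1))) (h : Bi (Function.update w e t') γ) :
    Bi (Function.update w e t) γ := by
  refine h.lower (fun e' => ?_) (fun e' => ?_) {e} (fun e' he' => ?_)
    fun e' he' => mem_singleton.1 he' ▸ he
  · rw [Function.update_apply]
    split_ifs
    exacts [ht, hw _]
  · rw [Function.update_apply, Function.update_apply]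
    split_ifs
    exacts [htt, le_rfl]
  · rw [Function.update_of_ne (notMem_singleton.1 he'),
      Function.update_of_ne (notMem_singleton.1 he')]

theorem NoBr.fwd (h : NoBr w) (hγ : Bi w γ) (hγ' : Bi w γ') (heq : ∀ i, 0 ≤ i → γ i = γ' i) :
    γ = γ' := by
  have h1 := h _ _ hγ.neg hγ'.neg fun i hi => heq (-i) (by omega)
  funext i
  simpa using congrFun h1 (-i)

theorem Eqv.refl : Eqv γ γ := ⟨0, fun i => by simp⟩

theorem Eqv.symm (h : Eqv γ γ') : Eqv γ' γ := by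
  obtain ⟨d, hd⟩ := h
  exact ⟨-d, fun i => by rw [hd, neg_add_cancel_right]⟩

end Vale.Agent.P158
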