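import Vale.Agent.P158.Kalm
import Vale.Agent.P158.Cpt

/-! No branching: the deterministic count. -/

namespace Vale.Agent.P158

open Finset MeasureTheory Filter
open scoped NNReal ENNReal Classical Topology

variable {w : Wt} {o c : V} {n : ℤ} {δ : ℝ}

/-- Branch points of the geodesic tree of one boundary point. -/
def BrPt (o : V) (n : ℤ) (w : Wt) (a : ℤ) (c : V) : Prop :=
  c ∉ bdry o n ∧ ∃ b b' : ℤ, a ≤ b ∧ b ≤ b' ∧ b' ≤ a + 4 * n ∧
    On (box o n) w (bd o n a) c (bd o n b) ∧ On (box o n) w (bd o n a) c (bd o n b') ∧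
    ∃ d d', d ≠ d' ∧ Child (box o n) w c (bd o n b) d ∧ Child (box o n) w c (bd o n b') d'

theorem brPt_index (hw : Nice w) (hn : 0 < n) {a b b' : ℤ} {d d' : V} (hc : c ∉ bdry o n)
    (h1 : a ≤ b) (h2 : b ≤ b') (h3 : b' ≤ a + 4 * n)
    (hb : On (box o n) w (bd o n a) c (bd o n b)) (hb' : On (box o n) w (bd o n a) c (bd o n b'))
    (hd : d ≠ d') (hcd : Child (box o n) w c (bd o n b) d)
    (hcd' : Child (box o n) w c (bd o n b') d') :
    ∃ j, b ≤ j ∧ j < b' ∧ On (box o n) w (bd o n a) c (bd o n j) ∧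
      On (box o n) w (bd o n a) c (bd o n (j + 1)) ∧
      ∃ e e', e ≠ e' ∧ Child (box o n) w c (bd o n j) e ∧
        Child (box o n) w c (bd o n (j + 1)) e' := by
  have hon : ∀ j, b ≤ j → j ≤ b' → On (box o n) w (bd o n a) c (bd o n j) := fun j j1 j2 =>
    mono_on (a := a) (x := a) (x' := a) (y' := b) (y := j) (b := b') hw hn le_rfl le_rfl h1 j1 j2
      h3 hb' hb
  have hch : ∀ j, ∃ e, Child (box o n) w c (bd o n j) e := fun j =>
    child_exists hw conn_box hb.1 (bd_mem hn) fun h => hc (h ▸ bd_mem_bdry hn)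
  choose ch hch using hch
  by_contra hcon
  have key : ∀ j, b ≤ j → j ≤ b' → ch j = d := by
    intro j hj
    induction j, hj using Int.leInduction with
    | base => exact fun _ => child_unique hw conn_box hb.1 (bd_mem hn) (hch b) hcd
    | succ j hj ih =>
      intro hj'
      rw [← ih (by omega)]
      by_contra hne
      exact hcon ⟨j, hj, by omega, hon j hj (by omega), hon (j + 1) (by omega) hj', ch j,
        ch (j + 1), Ne.symm hne, hch j, hch (j + 1)⟩
  exact hd ((key b' h2 le_rfl).symm.trans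
    (child_unique hw conn_box hb.1 (bd_mem hn) (hch b') hcd'))

/-- `c` separates the boundary indices `j` and `j + 1` as seen from `bd a`. -/
def K1Br (o : V) (n : ℤ) (w : Wt) (a : ℤ) (c : V) (j : ℤ) : Prop :=
  On (box o n) w (bd o n a) c (bd o n j) ∧ On (box o n) w (bd o n a) c (bd o n (j + 1)) ∧
    ∃ e e', e ≠ e' ∧ Child (box o n) w c (bd o n j) e ∧ Child (box o n) w c (bd o n (j + 1)) e'

theorem k1_same (hw : Nice w) (hn : 0 < n) {a j : ℤ} {c' : V} (h : K1Br o n w a c j)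
    (hne : c ≠ c') (hcc : On (box o n) w (bd o n a) c c')
    (h1 : On (box o n) w (bd o n a) c' (bd o n j))
    (h2 : On (box o n) w (bd o n a) c' (bd o n (j + 1))) : False := by
  obtain ⟨-, -, e, e', hee, he, he'⟩ := h
  obtain ⟨d, hd⟩ := child_exists hw conn_box hcc.1 h1.1 hne
  have a1 := (on_trans hw.nn conn_box (bd_mem hn) (bd_mem hn) hcc h1).2
  have a2 := (on_trans hw.nn conn_box (bd_mem hn) (bd_mem hn) hcc h2).2
  have b1 := hd.extend hw.nn conn_box hcc.1 (bd_mem hn) a1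
  have b2 := hd.extend hw.nn conn_box hcc.1 (bd_mem hn) a2
  exact hee ((child_unique hw conn_box hcc.1 (bd_mem hn) he b1).trans
    (child_unique hw conn_box hcc.1 (bd_mem hn) b2 he'))

theorem k1_inj (hw : Nice w) (hn : 0 < n) {a j : ℤ} {c' : V} (h : K1Br o n w a c j)
    (h' : K1Br o n w a c' j) : c = c' := by
  by_contra hne
  rcases on_total hw conn_box (bd_mem hn) (bd_mem hn) h.1 h'.1 with hcc | hcc
  · exact k1_same hw hn h hne hcc h'.1 h'.2.1
  · exact k1_same hw hn h' (Ne.symm hne) hcc h.1 h.2.1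

theorem card_brPt (hw : Nice w) (hn : 0 < n) (a : ℤ) :
    (((boxF o n).filter fun c => BrPt o n w a c).card : ℤ) ≤ 4 * n := by
  have h : ∀ c, BrPt o n w a c → ∃ j, a ≤ j ∧ j < a + 4 * n ∧ K1Br o n w a c j := by
    rintro c ⟨hc, b, b', h1, h2, h3, h4, h5, d, d', hd, h6, h7⟩
    obtain ⟨j, j1, j2, j3⟩ := brPt_index hw hn hc h1 h2 h3 h4 h5 hd h6 h7
    exact ⟨j, by omega, by omega, j3⟩
  choose! j hj using h
  have h1 : ((boxF o n).filter fun c => BrPt o n w a c).card ≤ (Ico a (a + 4 * n)).card := by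
    refine Finset.card_le_card_of_injOn j (fun c hc => ?_) ?_
    · have := hj c (Finset.mem_filter.1 hc).2
      exact Finset.mem_coe.2 (Finset.mem_Ico.2 ⟨this.1, this.2.1⟩)
    · intro c hc c' hc' h
      exact k1_inj hw hn (hj c (Finset.mem_filter.1 hc).2).2.2
        (h ▸ (hj c' (Finset.mem_filter.1 hc').2).2.2)
  rw [Int.card_Ico] at h1
  omega

/-- A branch point with slack, together with the separated index. -/
def K1Wit (o : V) (n : ℤ) (δ : ℝ) (w : Wt) (a : ℤ) (c : V) (j : ℤ) : Prop :=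
  c ∉ bdry o n ∧ K1Br o n w a c j ∧ ∃ b b' : ℤ, a ≤ b ∧ b ≤ j ∧ j < b' ∧ b' < a + 4 * n ∧
    On (box o n) w (bd o n a) c (bd o n b) ∧ On (box o n) w (bd o n a) c (bd o n b') ∧
    (∃ d d', d ≠ d' ∧ Child (box o n) w c (bd o n b) d ∧ Child (box o n) w c (bd o n b') d') ∧
    T (box o n) w (bd o n a) (bd o n b) + δ ≤ T (box o n) (raiseAt c δ w) (bd o n a) (bd o n b) ∧
    T (box o n) w (bd o n a) (bd o n b') + δ ≤ T (box o n) (raiseAt c δ w) (bd o n a) (bd o n b')

theorem k1_wit (hw : Nice w) (hn : 0 < n) (hc : c ∉ bdry o n) (h : BrEv o n δ w c) :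
    ∃ p : ℤ × ℤ, 0 ≤ p.1 ∧ p.1 < 4 * n ∧ K1Wit o n δ w p.1 c p.2 := by
  obtain ⟨a, b, b', h0, h1, h2, h3, h4, h5, h6, ⟨d, d', hd, h7, h8⟩, h9, h10⟩ := h
  obtain ⟨j, j1, j2, j3⟩ := brPt_index hw hn hc h2 h3 h4.le h5 h6 hd h7 h8
  exact ⟨(a, j), h0, h1, hc, j3, b, b', h2, j1, j2, h4, h5, h6, ⟨d, d', hd, h7, h8⟩, h9, h10⟩

theorem k1_raise_le (hδ : 0 < δ) (e : Sym2 V) : w e ≤ raiseAt c δ w e := by
  unfold raiseAt
  split_ifs <;> linarith

theorem k1_raise_eq (hw : Nice w) (hδ : 0 < δ) {x y : V} (hx : x ∈ box o n) (hy : y ∈ box o n)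
    (h : ¬ On (box o n) w x c y) : T (box o n) (raiseAt c δ w) x y = T (box o n) w x y := by
  refine T_eq_of_not_touch (B := {c}) hw (k1_raise_le hδ) (fun e he => ?_) conn_box hx hy ?_
  · unfold raiseAt
    rw [if_neg fun hc => he c hc rfl, add_zero]
  · rintro ⟨c', hc', h'⟩
    rw [Set.mem_singleton_iff] at hc'
    exact h (hc' ▸ h')

/-- The monotone function which separates the bad points. -/
noncomputable def k1ps (o : V) (n : ℤ) (w : Wt) (a t j : ℤ) : ℝ :=
  (T (box o n) w (bd o n a) (bd o n (j + 1)) -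
      T (box o n) w (bd o n (j + 1)) (bd o n (a + 4 * n - t))) -
    (T (box o n) w (bd o n a) (bd o n j) - T (box o n) w (bd o n (a + t)) (bd o n j))

theorem k1_bd_neg {a t : ℤ} : bd o n (a + 4 * n - t) = bd o n (a - t) := by
  rw [← bd_per (i := a - t)]
  congr 1
  ring

theorem k1ps_bound (hw : NN w) (hn : 0 < n) (a t j : ℤ) :
    |k1ps o n w a t j| ≤
      T (box o n) w (bd o n a) (bd o n (a + t)) + T (box o n) w (bd o n a) (bd o n (a - t)) := by
  unfold k1ps
  rw [k1_bd_neg]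
  have tri : ∀ i j k, T (box o n) w (bd o n i) (bd o n k) ≤
      T (box o n) w (bd o n i) (bd o n j) + T (box o n) w (bd o n j) (bd o n k) := fun i j k =>
    T_tri hw conn_box (bd_mem hn) (bd_mem hn) (bd_mem hn)
  have c1 := tri a (a - t) (j + 1)
  have c2 := tri (j + 1) a (a - t)
  have c3 := tri a (a + t) j
  have c4 := tri (a + t) a j
  rw [T_comm (x := bd o n (a - t))] at c1
  rw [T_comm (x := bd o n (j + 1)) (y := bd o n a)] at c2
  rw [T_comm (x := bd o n (a + t)) (y := bd o n a)] at c4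
  rw [abs_le]
  constructor <;> linarith

theorem k1_sep (hw : Nice w) (hn : 0 < n) (hδ : 0 < δ) {a t j j' : ℤ} {c' : V} (ht : 0 ≤ t)
    (h : K1Wit o n δ w a c j) (h' : K1Wit o n δ w a c' j') (hne : c ≠ c')
    (hb : ¬ BrPt o n w (a - t) c) (hb' : ¬ BrPt o n w (a + t) c') (h1 : a + t ≤ j) (h2 : j < j')
    (h3 : j' < a + 4 * n - t) : k1ps o n w a t j + δ ≤ k1ps o n w a t j' := by
  obtain ⟨hc, hbr, b, b2, i1, i2, i3, i4, o1, o2, hd, -, s2⟩ := h
  obtain ⟨hc', hbr', b', b2', i1', i2', i3', i4', o1', o2', hd', s1', -⟩ := h'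
  have hrn : ∀ c : V, NN (raiseAt c δ w) := fun c e => (hw.nn e).trans (k1_raise_le hδ e)
  have hmono : ∀ (c : V) (i j : ℤ), T (box o n) w (bd o n i) (bd o n j) ≤
      T (box o n) (raiseAt c δ w) (bd o n i) (bd o n j) := fun c i j =>
    T_mono_w hw.nn (k1_raise_le hδ) conn_box (bd_mem hn) (bd_mem hn)
  unfold k1ps
  by_cases hcc : On (box o n) w (bd o n a) c c'
  · have hcc' : ¬ On (box o n) w (bd o n a) c' c := by
      intro h
      have p1 := T_pos hw conn_box hcc.1 h.1 hne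
      have p2 := T_nonneg (S := box o n) (x := c') (y := c) hw.nn
      linarith [hcc.2, h.2]
    have n1 : ¬ On (box o n) w (bd o n a) c' (bd o n j) := by
      intro h
      exact k1_same hw hn hbr hne hcc h (mono_on (a := a) (x := a) (x' := a) (y' := j)
        (y := j + 1) (b := j') hw hn le_rfl le_rfl (by omega) (by omega) (by omega) (by omega)
        hbr'.1 h)
    have n2 : j < b' := by
      by_contra hcon
      exact n1 (mono_on (a := a) (x := a) (x' := a) (y' := b') (y := j) (b := j') hw hn le_rfl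
        le_rfl (by omega) (by omega) (by omega) (by omega) hbr'.1 o1')
    have n3 : ¬ On (box o n) w (bd o n (a + t)) c' (bd o n b') := by
      intro h
      exact hb' ⟨hc', b', b2', by omega, by omega, by omega, h,
        mono_on (a := a) (x := a + t) (x' := a + t) (y' := b') (y := b2') (b := b2') hw hn
          (by omega) le_rfl (by omega) (by omega) le_rfl (by omega) o2' h, hd'⟩
    have k1 := kal2 (o := o) (i := a) (j := a + t) (k := j) (l := b') (hrn c') hn (by omega) h1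
      n2.le (by omega)
    rw [k1_raise_eq hw hδ (bd_mem hn) (bd_mem hn) n1,
      k1_raise_eq hw hδ (bd_mem hn) (bd_mem hn) n3] at k1
    have k2 := kal2 (o := o) (i := a) (j := a + t) (k := b') (l := j') hw.nn hn (by omega)
      (by omega) i2' (by omega)
    have k3 := kal1 (o := o) (i := a) (j := j + 1) (k := j' + 1) (l := a + 4 * n - t) hw.nn hn
      (by omega) (by omega) (by omega) (by omega)
    linarith [hmono c' (a + t) j]
  · have n1 : ¬ On (box o n) w (bd o n a) c (bd o n (j' + 1)) := by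
      intro h
      have h4 := mono_on (a := a) (x := a) (x' := a) (y' := j) (y := j') (b := j' + 1) hw hn
        le_rfl le_rfl (by omega) (by omega) (by omega) (by omega) h hbr.1
      rcases on_total hw conn_box (bd_mem hn) (bd_mem hn) h4 hbr'.1 with h5 | h5
      · exact hcc h5
      · exact k1_same hw hn hbr' (Ne.symm hne) h5 h4 h
    have n2 : b2 < j' + 1 := by
      by_contra hcon
      exact n1 (mono_on (a := a) (x := a) (x' := a) (y' := j) (y := j' + 1) (b := b2) hw hn le_rfl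
        le_rfl (by omega) (by omega) (by omega) (by omega) o2 hbr.1)
    have n3 : ¬ On (box o n) w (bd o n b2) c (bd o n (a + 4 * n - t)) := by
      intro h
      rw [on_symm, k1_bd_neg] at h
      exact hb ⟨hc, b, b2, by omega, by omega, by omega,
        mono_on (a := a - t) (x := a - t) (x' := a) (y' := b) (y := b) (b := b2) hw hn
          le_rfl (by omega) (by omega) le_rfl (by omega) (by omega) h o1, h, hd⟩
    have k1 := kal1 (o := o) (i := a) (j := b2) (k := j' + 1) (l := a + 4 * n - t) (hrn c) hn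
      (by omega) n2.le (by omega) (by omega)
    rw [k1_raise_eq hw hδ (bd_mem hn) (bd_mem hn) n1,
      k1_raise_eq hw hδ (bd_mem hn) (bd_mem hn) n3] at k1
    have k2 := kal1 (o := o) (i := a) (j := j + 1) (k := b2) (l := a + 4 * n - t) hw.nn hn
      (by omega) (by omega) (by omega) (by omega)
    have k3 := kal2 (o := o) (i := a) (j := a + t) (k := j) (l := j') hw.nn hn (by omega) h1
      h2.le (by omega)
    linarith [hmono c (j' + 1) (a + 4 * n - t)]

theorem k1_card_sep {α : Type*} (F : Finset α) (f : α → ℝ) {B : ℝ} (hδ : 0 < δ) (hB : 0 ≤ B)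
    (hb : ∀ x ∈ F, |f x| ≤ B)
    (hs : ∀ x ∈ F, ∀ y ∈ F, x ≠ y → f x + δ ≤ f y ∨ f y + δ ≤ f x) :
    (F.card : ℝ) ≤ 1 + 2 * B / δ := by
  have key : ∀ u v : ℝ, -B ≤ u → u + δ ≤ v → ⌊(u + B) / δ⌋₊ < ⌊(v + B) / δ⌋₊ := by
    intro u v hu huv
    have h0 : 0 ≤ (u + B) / δ := div_nonneg (by linarith) hδ.le
    rw [← Nat.succ_le_iff, Nat.succ_eq_add_one, ← Nat.floor_add_one h0]
    refine Nat.floor_le_floor ?_
    rw [div_add_one hδ.ne']
    exact div_le_div_of_nonneg_right (by linarith) hδ.le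
  have h1 : F.card ≤ (Finset.range (⌊2 * B / δ⌋₊ + 1)).card := by
    refine Finset.card_le_card_of_injOn (fun x => ⌊(f x + B) / δ⌋₊) (fun x hx => ?_) ?_
    · rw [Finset.mem_coe, Finset.mem_range, Nat.lt_succ_iff]
      refine Nat.floor_le_floor ?_
      gcongr
      linarith [(abs_le.1 (hb x hx)).2]
    · intro x hx y hy hxy
      by_contra hne
      rcases hs x hx y hy hne with h | h
      · exact (key _ _ (abs_le.1 (hb x hx)).1 h).ne hxy
      · exact (key _ _ (abs_le.1 (hb y hy)).1 h).ne hxy.symm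
  rw [Finset.card_range] at h1
  have h2 : (F.card : ℝ) ≤ (⌊2 * B / δ⌋₊ : ℝ) + 1 := by exact_mod_cast h1
  have h3 := Nat.floor_le (a := 2 * B / δ) (by positivity)
  linarith

theorem k1_bad (hw : Nice w) (hn : 0 < n) (hδ : 0 < δ) {a : ℤ} {t : ℕ} (F : Finset V) (j : V → ℤ)
    (hF : ∀ c ∈ F, K1Wit o n δ w a c (j c) ∧ ¬ BrPt o n w (a + t) c ∧ ¬ BrPt o n w (a - t) c) :
    (F.card : ℝ) ≤ 1 + 2 * t + 2 * (T (box o n) w (bd o n a) (bd o n (a + t)) +
      T (box o n) w (bd o n a) (bd o n (a - t))) / δ := by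
  have hinj : ∀ c ∈ F, ∀ c' ∈ F, j c = j c' → c = c' := fun c hc c' hc' h =>
    k1_inj hw hn (hF c hc).1.2.1 (h ▸ (hF c' hc').1.2.1)
  rw [← Finset.card_filter_add_card_filter_not (fun c => a + t ≤ j c ∧ j c < a + 4 * n - t)]
  have h1 := k1_card_sep (F.filter fun c => a + t ≤ j c ∧ j c < a + 4 * n - t)
    (fun c => k1ps o n w a t (j c)) hδ (add_nonneg (T_nonneg hw.nn) (T_nonneg hw.nn))
    (fun c _ => k1ps_bound hw.nn hn a t (j c)) (by
      intro c hc c' hc' hne
      obtain ⟨m1, m2, m3⟩ := Finset.mem_filter.1 hc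
      obtain ⟨m1', m2', m3'⟩ := Finset.mem_filter.1 hc'
      rcases lt_trichotomy (j c) (j c') with h | h | h
      · exact Or.inl (k1_sep hw hn hδ (by omega) (hF c m1).1 (hF c' m1').1 hne (hF c m1).2.2
          (hF c' m1').2.1 m2 h m3')
      · exact absurd (hinj c m1 c' m1' h) hne
      · exact Or.inr (k1_sep hw hn hδ (by omega) (hF c' m1').1 (hF c m1).1 hne.symm
          (hF c' m1').2.2 (hF c m1).2.1 m2' h m3))
  have h2 : (F.filter fun c => ¬ (a + t ≤ j c ∧ j c < a + 4 * n - t)).card ≤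
      (Ico a (a + t) ∪ Ico (a + 4 * n - t) (a + 4 * n)).card := by
    refine Finset.card_le_card_of_injOn j (fun c hc => ?_) ?_
    · obtain ⟨m1, m2⟩ := Finset.mem_filter.1 hc
      obtain ⟨-, -, b, b', i1, i2, i3, i4, -⟩ := (hF c m1).1
      simp only [Finset.coe_union, Finset.coe_Ico, Set.mem_union, Set.mem_Ico]
      omega
    · intro c hc c' hc' h
      exact hinj c (Finset.mem_filter.1 hc).1 c' (Finset.mem_filter.1 hc').1 h
  have h3 := Finset.card_union_le (Ico a (a + t)) (Ico (a + 4 * n - t) (a + 4 * n))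
  rw [Int.card_Ico, Int.card_Ico] at h3
  have h4 : (F.filter fun c => ¬ (a + t ≤ j c ∧ j c < a + 4 * n - t)).card ≤ 2 * t := by omega
  have h5 : ((F.filter fun c => ¬ (a + t ≤ j c ∧ j c < a + 4 * n - t)).card : ℝ) ≤ 2 * t := by
    exact_mod_cast h4
  push_cast
  linarith

theorem k1_count (hw : Nice w) (hn : 0 < n) (hδ : 0 < δ) (r : ℕ) (hr : (r : ℤ) ≤ n) :
    (r : ℝ) * ((boxF o n).filter fun c => c ∉ bdry o n ∧ BrEv o n δ w c).card ≤
      (4 * n + 2 * r + 1) * (4 * n) + 4 * n * r * (1 + 2 * r) + 4 * r ^ 2 * perim o n w / δ := by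
  set Bs := (boxF o n).filter fun c => c ∉ bdry o n ∧ BrEv o n δ w c with hBs
  have h : ∀ c ∈ Bs, ∃ p : ℤ × ℤ, 0 ≤ p.1 ∧ p.1 < 4 * n ∧ K1Wit o n δ w p.1 c p.2 := fun c hc =>
    k1_wit hw hn (Finset.mem_filter.1 hc).2.1 (Finset.mem_filter.1 hc).2.2
  choose! p hp using h
  set X : Finset ℤ := Icc (-(r : ℤ)) (4 * n + r) with hX
  set bad : V → ℕ → Prop := fun c t => ¬ BrPt o n w ((p c).1 + t) c ∧ ¬ BrPt o n w ((p c).1 - t) c
    with hbad
  have h1 : ∀ c ∈ Bs, r ≤ (X.filter fun x => BrPt o n w x c).card +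
      ((Icc 1 r).filter fun t => bad c t).card := by
    intro c hc
    have e := Finset.card_filter_add_card_filter_not (s := Icc 1 r) (fun t => bad c t)
    rw [Nat.card_Icc] at e
    have : ((Icc 1 r).filter fun t => ¬ bad c t).card ≤ (X.filter fun x => BrPt o n w x c).card := by
      refine Finset.card_le_card_of_injOn
        (fun t : ℕ => if BrPt o n w ((p c).1 + t) c then (p c).1 + t else (p c).1 - t)
        (fun t ht => ?_) ?_
      · obtain ⟨t1, t2⟩ := Finset.mem_filter.1 ht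
        have t3 := Finset.mem_Icc.1 t1
        have := hp c hc
        rw [Finset.mem_coe, Finset.mem_filter, hX, Finset.mem_Icc]
        simp only
        split_ifs with hb
        · exact ⟨by omega, hb⟩
        · refine ⟨by omega, ?_⟩
          by_contra hb'
          exact t2 ⟨hb, hb'⟩
      · intro t ht t' ht' h
        have t3 := Finset.mem_Icc.1 (Finset.mem_filter.1 ht).1
        have t4 := Finset.mem_Icc.1 (Finset.mem_filter.1 ht').1
        simp only at h
        split_ifs at h <;> omega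
    omega
  have h2 : r * Bs.card ≤ ∑ x ∈ X, (Bs.filter fun c => BrPt o n w x c).card +
      ∑ t ∈ Icc 1 r, (Bs.filter fun c => bad c t).card := by
    have := Finset.card_nsmul_le_sum Bs _ r h1
    rw [smul_eq_mul, Finset.sum_add_distrib] at this
    simp only [Finset.card_filter] at this ⊢
    rw [Finset.sum_comm (s := X), Finset.sum_comm (s := Icc 1 r), mul_comm]
    simpa only [Finset.card_filter] using this
  have hn' : (0 : ℝ) < n := by exact_mod_cast hn
  have h3 : ∑ x ∈ X, ((Bs.filter fun c => BrPt o n w x c).card : ℝ) ≤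
      (4 * n + 2 * r + 1) * (4 * n) := by
    have c1 : ∀ x ∈ X, ((Bs.filter fun c => BrPt o n w x c).card : ℝ) ≤ 4 * n := by
      intro x _
      have c2 := card_brPt (o := o) hw hn x
      have c3 : (Bs.filter fun c => BrPt o n w x c).card ≤
          ((boxF o n).filter fun c => BrPt o n w x c).card :=
        Finset.card_le_card (Finset.filter_subset_filter _ (Finset.filter_subset _ _))
      have c4 : ((Bs.filter fun c => BrPt o n w x c).card : ℤ) ≤ 4 * n := by omega
      exact_mod_cast c4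
    refine (Finset.sum_le_card_nsmul _ _ _ c1).trans ?_
    have c5 : (X.card : ℤ) = 4 * n + 2 * r + 1 := by
      rw [hX, Int.card_Icc]
      omega
    have c6 : (X.card : ℝ) = 4 * n + 2 * r + 1 := by exact_mod_cast c5
    rw [nsmul_eq_mul, c6]
  have hper := perim_nonneg (o := o) (n := n) hw.nn
  have h4 : ∀ t ∈ Icc 1 r, ((Bs.filter fun c => bad c t).card : ℝ) ≤
      4 * n * (1 + 2 * r) + 4 * r * perim o n w / δ := by
    intro t ht
    have t1 : (t : ℝ) ≤ r := by exact_mod_cast (Finset.mem_Icc.1 ht).2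
    rw [Finset.card_eq_sum_card_fiberwise (f := fun c => (p c).1) (t := Ico 0 (4 * n)) (by
      intro c hc
      have := hp c (Finset.mem_filter.1 hc).1
      exact Finset.mem_coe.2 (Finset.mem_Ico.2 ⟨this.1, this.2.1⟩))]
    push_cast
    have c1 : ∀ a ∈ Ico 0 (4 * n),
        (((Bs.filter fun c => bad c t).filter fun c => (p c).1 = a).card : ℝ) ≤
          1 + 2 * t + 2 * (T (box o n) w (bd o n a) (bd o n (a + t)) +
            T (box o n) w (bd o n a) (bd o n (a - t))) / δ := by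
      intro a _
      refine k1_bad hw hn hδ _ (fun c => (p c).2) fun c hc => ?_
      obtain ⟨c2, c3⟩ := Finset.mem_filter.1 hc
      obtain ⟨c4, c5⟩ := Finset.mem_filter.1 c2
      subst c3
      exact ⟨(hp c c4).2.2, c5⟩
    refine (Finset.sum_le_sum c1).trans ?_
    obtain ⟨c2, c3⟩ := T_bd_le (o := o) hw.nn hn t
    have c4 : ((Ico 0 (4 * n)).card : ℝ) = 4 * n := by
      have : ((Ico 0 (4 * n)).card : ℤ) = 4 * n := by
        rw [Int.card_Ico]
        omega
      exact_mod_cast this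
    rw [Finset.sum_add_distrib, Finset.sum_const, nsmul_eq_mul, c4, ← Finset.sum_div,
      ← Finset.mul_sum, Finset.sum_add_distrib]
    have c5 : t * perim o n w ≤ r * perim o n w := by gcongr
    refine add_le_add (by gcongr) (div_le_div_of_nonneg_right (by linarith) hδ.le)
  have h5 := Finset.sum_le_card_nsmul _ _ _ h4
  rw [Nat.card_Icc, nsmul_eq_mul, Nat.add_sub_cancel] at h5
  have h6 : (r : ℝ) * Bs.card ≤ ∑ x ∈ X, ((Bs.filter fun c => BrPt o n w x c).card : ℝ) +
      ∑ t ∈ Icc 1 r, ((Bs.filter fun c => bad c t).card : ℝ) := by exact_mod_cast h2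
  have e : (r : ℝ) * (4 * n * (1 + 2 * r) + 4 * r * perim o n w / δ) =
      4 * n * r * (1 + 2 * r) + 4 * r ^ 2 * perim o n w / δ := by ring
  linarith

theorem k1_geo_data (hw : Nice w) (hδ : 0 < δ) {γ : ℤ → V} {lo hi : ℤ} (h : Bi w γ)
    (hp : Bi (upE w s(γ (-1), γ 0) δ) γ) (hlo : lo < 0) (hhi : 0 < hi)
    (hmem : ∀ k, lo ≤ k → k ≤ hi → γ k ∈ box o n) :
    On (box o n) w (γ lo) (γ 0) (γ hi) ∧ Child (box o n) w (γ 0) (γ hi) (γ 1) ∧
      T (box o n) w (γ lo) (γ hi) + δ ≤ T (box o n) (raiseAt (γ 0) δ w) (γ lo) (γ hi) := by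
  have g := h.geoFn hw.nn conn_box (show lo ≤ hi by omega) hmem
  have hn : NN (upE w s(γ (-1), γ 0) δ) := fun e => (hw.nn e).trans (cpt_le_upE hδ.le e)
  have g' := hp.geoFn hn conn_box (show lo ≤ hi by omega) hmem
  refine ⟨(g.on_iff hw conn_box).2 ⟨0, hlo.le, hhi.le, rfl⟩, ⟨by simpa using h.1 0,
    hmem 1 (by omega) (by omega), ?_⟩, ?_⟩
  · rw [← g.add 1 hi (by omega) (by omega) le_rfl, ← g.add 0 hi hlo.le hhi.le le_rfl,
      ← seg_add (i := 0) (j := 1) (k := hi) (by omega) (by omega)]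
    have := seg_succ (w := w) (f := γ) (i := 0)
    rw [zero_add] at this
    rw [this]
  · have c1 := cpt_seg_upE (w := w) hδ.le (f := γ) (i := lo) (j := hi) (k := -1) (by omega)
      (by omega)
    rw [show (-1 : ℤ) + 1 = 0 by norm_num, g.add lo hi le_rfl (by omega) le_rfl,
      g'.add lo hi le_rfl (by omega) le_rfl] at c1
    refine c1.trans (T_mono_w hn (fun e => ?_) conn_box (hmem lo le_rfl (by omega))
      (hmem hi (by omega) le_rfl))
    by_cases he : e = s(γ (-1), γ 0)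
    · subst he
      rw [cpt_upE_self]
      unfold raiseAt
      rw [if_pos (Sym2.mem_mk_right _ _)]
    · rw [cpt_upE_ne he]
      exact k1_raise_le hδ e

theorem brEv_of_slBr (hw : Nice w) (hn : 0 < n) (hδ : 0 < δ) (hc : c ∈ box o n)
    (hc' : c ∉ bdry o n) (h : SlBr δ w c) : BrEv o n δ w c := by
  obtain ⟨γ, γ', h1, h2, h0, hpast, hne, hp1, hp2⟩ := h
  subst h0
  obtain ⟨lo, hi, p1, p2, p3, p4, p5⟩ := exists_pass h1.1 (h1.inj hw.pos) hc
  obtain ⟨lo', hi', q1, q2, q3, -, q5⟩ := exists_pass (o := o) (n := n) h2.1 (h2.inj hw.pos)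
    (hpast 0 le_rfl ▸ hc)
  have l0 : lo < 0 := lt_of_le_of_ne p1 fun h => hc' (h ▸ p4)
  have l1 : 0 < hi := lt_of_le_of_ne p2 fun h => hc' (h ▸ p5)
  have l2 : 0 < hi' := lt_of_le_of_ne q2 fun h => hc' (by rw [hpast 0 le_rfl, h]; exact q5)
  obtain ⟨a, a1, a2, ha⟩ := bd_surj hn p4 0
  obtain ⟨b, b1, b2, hb⟩ := bd_surj hn p5 a
  obtain ⟨b', b1', b2', hb'⟩ := bd_surj hn q5 a
  obtain ⟨d1, d2, d3⟩ := k1_geo_data hw hδ h1 hp1 l0 l1 p3
  rw [hpast (-1) (by omega), hpast 0 le_rfl] at hp2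
  obtain ⟨e1, e2, e3⟩ := k1_geo_data (o := o) (n := n) hw hδ h2 hp2 l0 l2 (fun k k1 k2 => by
    rcases le_total k 0 with h | h
    · rw [← hpast k h]
      exact p3 k k1 (by omega)
    · exact q3 k (by omega) k2)
  rw [← hpast lo p1, ← hpast 0 le_rfl, ← hb'] at e1 e3
  rw [← hpast 0 le_rfl, ← hb'] at e2
  rw [← ha] at e1 e3 d1 d3
  rw [← hb] at d1 d2 d3
  rcases le_total b b' with h | h
  · exact ⟨a, b, b', a1, by omega, b1, h, b2', d1, e1, ⟨_, _, hne, d2, e2⟩, d3, e3⟩
  · exact ⟨a, b', b, a1, by omega, b1', h, b2, e1, d1, ⟨_, _, hne.symm, e2, d2⟩, e3, d3⟩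

theorem noBr_of (hw : NN w)
    (h : ∀ e, ∃ t, 0 ≤ t ∧ t < w e ∧
      ∀ (k : ℕ) (c : V), ¬ SlBr (1 / (k + 1)) (Function.update w e t) c) : NoBr w := by
  intro γ γ' h1 h2 hpast
  by_contra hne
  obtain ⟨i, hi, hmin⟩ := Int.exists_least_of_bdd (P := fun i => γ i ≠ γ' i)
    ⟨0, fun z hz => by
      by_contra hc
      exact hz (hpast z (by omega))⟩ (Function.ne_iff.1 hne)
  have heq : ∀ l, l ≤ 0 → γ (l + (i - 1)) = γ' (l + (i - 1)) := by
    intro l hl
    by_contra hc
    have := hmin _ hc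
    omega
  obtain ⟨t, t0, t1, ht⟩ := h s(γ (-1 + (i - 1)), γ (0 + (i - 1)))
  obtain ⟨k, hk⟩ := exists_nat_one_div_lt (sub_pos.2 t1)
  have key : ∀ t', 0 ≤ t' → t' ≤ w s(γ (-1 + (i - 1)), γ (0 + (i - 1))) →
      Bi (Function.update w s(γ (-1 + (i - 1)), γ (0 + (i - 1))) t') (fun l => γ (l + (i - 1))) ∧
      Bi (Function.update w s(γ (-1 + (i - 1)), γ (0 + (i - 1))) t')
        (fun l => γ' (l + (i - 1))) := by
    intro t' c1 c2
    refine ⟨Bi.update_le hw c1 c2 ⟨-1, by simp⟩ ?_, Bi.update_le hw c1 c2 ⟨-1, ?_⟩ ?_⟩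
    · rw [Function.update_eq_self]
      exact h1.shift _
    · rw [heq (-1) (by omega), heq 0 le_rfl]
      simp
    · rw [Function.update_eq_self]
      exact h2.shift _
  have hk0 : (0 : ℝ) < 1 / (k + 1) := by positivity
  obtain ⟨c1, c2⟩ := key t t0 t1.le
  obtain ⟨c3, c4⟩ := key (t + 1 / (k + 1)) (by linarith) (by linarith)
  refine ht k (γ (0 + (i - 1))) ⟨_, _, c1, c2, rfl, heq, by simpa using hi, ?_, ?_⟩
  · unfold upE
    rw [Function.update_self, Function.update_idem]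
    exact c3
  · unfold upE
    rw [Function.update_self, Function.update_idem]
    exact c4

theorem k1_upE_shift {s a b : V} :
    upE (shiftW s w) s(a, b) δ = shiftW s (upE w s(a + s, b + s) δ) := by
  funext e
  by_cases he : e = s(a, b)
  · subst he
    rw [cpt_upE_self, shiftW_mk, shiftW_mk, cpt_upE_self]
  · rw [cpt_upE_ne he]
    unfold shiftW
    rw [cpt_upE_ne]
    intro h
    exact he (Sym2.map.injective (add_left_injective s) (h.trans (Sym2.map_mk (· + s) a b).symm))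

theorem SlBr_shift {s : V} : SlBr δ (shiftW s w) c ↔ SlBr δ w (c + s) := by
  constructor
  · rintro ⟨γ, γ', h1, h2, h0, hpast, hne, hp1, hp2⟩
    rw [k1_upE_shift, Bi_shiftW] at hp1 hp2
    exact ⟨_, _, Bi_shiftW.1 h1, Bi_shiftW.1 h2, by simp only [h0], fun i hi => by
      simp only [hpast i hi], fun h => hne (add_right_cancel h), hp1, hp2⟩
  · rintro ⟨γ, γ', h1, h2, h0, hpast, hne, hp1, hp2⟩
    refine ⟨fun t => γ t - s, fun t => γ' t - s, ?_, ?_, by simp [h0], fun i hi => by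
      simp only [hpast i hi], fun h => hne (sub_left_injective h), ?_, ?_⟩
    · rw [Bi_shiftW]
      simpa using h1
    · rw [Bi_shiftW]
      simpa using h2
    · rw [k1_upE_shift, Bi_shiftW]
      simpa using hp1
    · rw [k1_upE_shift, Bi_shiftW]
      simpa using hp2

end Vale.Agent.P158
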