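import Vale.Agent.P158.Cpt

/-! Compatible bigeodesics coincide (deterministic part). -/

namespace Vale.Agent.P158

open Finset MeasureTheory Filter
open scoped NNReal ENNReal Classical Topology

variable {w : Wt} {γ₁ γ₂ : ℤ → V}

theorem kdet_tri (hw : NN w) (x y z : V) :
    T Set.univ w x z ≤ T Set.univ w x y + T Set.univ w y z :=
  T_tri hw conn_univ trivial trivial trivial

theorem kdet_geo (hw : NN w) {γ : ℤ → V} (h : Bi w γ) {i j : ℤ} (hij : i ≤ j) :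
    GeoFn Set.univ w (γ i) (γ j) γ i j :=
  h.geoFn hw conn_univ hij fun _ _ _ => trivial

theorem kdet_path (hw : ∀ e, 0 < w e) {γ : ℤ → V} (h : Bi w γ) (i j : ℤ) : PathFn γ i j :=
  ⟨fun k _ _ => h.1 k, (h.inj hw).injOn⟩

/-- many edges of class `A` after index `j` -/
theorem kdet_many {q2 M : ℝ} (hw : Nice w) (hpe : ∀ x, ∃ k, Pe q2 M w x k) (h1 : Bi w γ₁)
    (j : ℤ) (N : ℕ) : ∃ (n : ℤ) (I : Finset ℤ), 0 ≤ n ∧ I ⊆ Ico j (j + n) ∧ N ≤ I.card ∧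
      ∀ i ∈ I, w s(γ₁ i, γ₁ (i + 1)) ∈ Set.Ioc q2 M := by
  obtain ⟨k, hk⟩ := hpe (γ₁ j)
  have h := hk (fun t => γ₁ (t + j)) (max k (2 * N)) (by simp) (le_max_left _ _)
    (kdet_path hw.pos (h1.shift j) _ _)
  refine ⟨max k (2 * N), (((Ico 0 (max k (2 * N))).filter fun i =>
    w s(γ₁ (i + j), γ₁ (i + 1 + j)) ∈ Set.Ioc q2 M)).image (· + j), by omega, ?_, ?_, ?_⟩
  · intro i hi
    obtain ⟨l, hl, rfl⟩ := Finset.mem_image.1 hi
    have := Finset.mem_Ico.1 (Finset.mem_filter.1 hl).1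
    rw [Finset.mem_Ico]
    omega
  · rw [Finset.card_image_of_injective _ (add_left_injective j)]
    unfold cntA at h
    beta_reduce at h
    have := le_max_right k (2 * (N : ℤ))
    omega
  · intro i hi
    obtain ⟨l, hl, rfl⟩ := Finset.mem_image.1 hi
    have := (Finset.mem_filter.1 hl).2
    rwa [show l + 1 + j = l + j + 1 by ring] at this

/-- after lowering, geodesics between the two ends visit the lowered stretch -/
theorem kdet_visit {w' : Wt} {C κ : ℝ} (hw' : Nice w') (hle : ∀ e, w' e ≤ w e)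
    (h1 : Bi w γ₁) {j n t : ℤ} (I : Finset ℤ) (hI : I ⊆ Ico j (j + n))
    (hoff : ∀ e, e ∉ I.image (fun i => s(γ₁ i, γ₁ (i + 1))) → w' e = w e)
    (hκ : ∀ i ∈ I, w' s(γ₁ i, γ₁ (i + 1)) + κ ≤ w s(γ₁ i, γ₁ (i + 1))) (x : V)
    (ht : j + n ≤ t) (hn : 0 ≤ n)
    (hC : T Set.univ w x (γ₁ j) + T Set.univ w (γ₁ j) (γ₁ t) ≤ T Set.univ w x (γ₁ t) + C)
    (hlt : C < I.card * κ) : ∃ i ∈ Icc j (j + n), On Set.univ w' x (γ₁ i) (γ₁ t) := by
  by_contra hcon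
  push Not at hcon
  have a1 := T_diff_on (S := Set.univ) (x := x) (y := γ₁ t) hw' hle
    (I.image fun i => s(γ₁ i, γ₁ (i + 1))) (fun e he => (hoff e he).symm) conn_univ trivial trivial
  rw [Finset.filter_eq_empty_iff.2, Finset.sum_empty, add_zero] at a1
  · have a2 := kdet_tri hw'.nn x (γ₁ j) (γ₁ t)
    have a3 := T_mono_w (S := Set.univ) (x := x) (y := γ₁ j) hw'.nn hle conn_univ trivial trivial
    have a4 := T_le_seg (S := Set.univ) (f := γ₁) (lo := j) (hi := t) hw'.nn (by omega)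
      (fun i _ _ => h1.1 i) (fun _ _ _ => trivial)
    have a5 := h1.2 j t (by omega)
    have a6 : I.card * κ ≤ seg w γ₁ j t - seg w' γ₁ j t := by
      unfold seg
      rw [← Finset.sum_sub_distrib, ← nsmul_eq_mul]
      refine le_trans (Finset.card_nsmul_le_sum I
        (fun i => w s(γ₁ i, γ₁ (i + 1)) - w' s(γ₁ i, γ₁ (i + 1))) κ
        fun i hi => by linarith [hκ i hi]) ?_
      refine Finset.sum_le_sum_of_subset_of_nonneg (hI.trans (Finset.Ico_subset_Ico_right ht))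
        fun i _ _ => by linarith [hle s(γ₁ i, γ₁ (i + 1))]
    linarith
  · intro e he ⟨a, b, hab, hd⟩
    obtain ⟨i, hi, rfl⟩ := Finset.mem_image.1 he
    have hi' := Finset.mem_Ico.1 (hI hi)
    have ha := hd.on_fst hw'.nn conn_univ trivial trivial
    rcases Sym2.eq_iff.1 hab with h | h
    · exact hcon i (Finset.mem_Icc.2 ⟨by omega, by omega⟩) (h.1 ▸ ha)
    · exact hcon (i + 1) (Finset.mem_Icc.2 ⟨by omega, by omega⟩) (h.2 ▸ ha)

theorem Compat.neg (h : Compat w γ₂ γ₁) : Compat w (fun t => γ₁ (-t)) (fun t => γ₂ (-t)) := by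
  obtain ⟨C, hC⟩ := h
  refine ⟨C, fun i j hi hj => ?_⟩
  have := hC (-j) (-i) (by omega) (by omega)
  simp only [neg_zero]
  rw [T_comm (x := γ₁ (-i)), T_comm (x := γ₂ 0), T_comm (x := γ₁ (-i))]
  linarith

/-- Lowering many edges of `γ₁` after index `j` attracts the geodesics from the far past of
`γ₂`; without merging the limit is `γ₁`. -/
theorem r1_det {q1 q2 M : ℝ} (hw : Nice w) (h12 : q1 < q2)
    (hpe : ∀ x, ∃ k, Pe q2 M w x k)
    (hmod : ∀ S : Finset (Sym2 V), (∀ e ∈ S, w e ∈ Set.Ioc q2 M) →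
      ∃ w', Nice w' ∧ NoBr w' ∧ (∀ e, e ∉ S → w' e = w e) ∧ ∀ e ∈ S, w' e ≤ q1) : R1 w := by
  intro γ₂ γ₁ h2 h1 ⟨C, hC⟩ j k m₀ hk
  obtain ⟨N, hN⟩ := exists_nat_gt ((C + T Set.univ w (γ₂ 0) (γ₁ j) + T Set.univ w (γ₁ j) (γ₁ 0)) /
    (q2 - q1))
  rw [div_lt_iff₀ (by linarith)] at hN
  obtain ⟨n, I, hn, hI, hNI, hIA⟩ := kdet_many hw hpe h1 j N
  set J := I.image (fun i => s(γ₁ i, γ₁ (i + 1))) with hJ
  obtain ⟨w', hw', hb', hoff, hlow⟩ := hmod J (by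
    intro e he
    obtain ⟨i, hi, rfl⟩ := Finset.mem_image.1 he
    exact hIA i hi)
  have hκ : ∀ i ∈ I, w' s(γ₁ i, γ₁ (i + 1)) + (q2 - q1) ≤ w s(γ₁ i, γ₁ (i + 1)) := by
    intro i hi
    have := hlow _ (Finset.mem_image_of_mem (fun i => s(γ₁ i, γ₁ (i + 1))) hi)
    linarith [(hIA i hi).1]
  have hle : ∀ e, w' e ≤ w e := by
    intro e
    by_cases he : e ∈ J
    · obtain ⟨i, hi, rfl⟩ := Finset.mem_image.1 he
      linarith [hκ i hi]
    · exact (hoff e he).le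
  have h1' : Bi w' γ₁ := h1.lower hw'.nn hle J hoff (by
    intro e he
    obtain ⟨i, -, rfl⟩ := Finset.mem_image.1 he
    exact ⟨i, rfl⟩)
  have hvis : ∀ᶠ t : ℕ in (hyperfilter ℕ : Filter ℕ), ∃ i ∈ (Icc j (j + n) : Set ℤ),
      On Set.univ w' (γ₂ (-t)) (γ₁ i) (γ₁ t) := by
    filter_upwards [cpt_ev_ge (j + n)] with t ht
    refine kdet_visit (C := C + T Set.univ w (γ₂ 0) (γ₁ j) + T Set.univ w (γ₁ j) (γ₁ 0)) hw'
      hle h1 I hI hoff hκ _ ht hn ?_ ?_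
    · have c1 := hC (-t) t (by omega) (by omega)
      have c2 := kdet_tri hw.nn (γ₂ (-t)) (γ₂ 0) (γ₁ j)
      have c3 := kdet_tri hw.nn (γ₁ j) (γ₁ 0) (γ₁ t)
      linarith
    · refine lt_of_lt_of_le hN (mul_le_mul_of_nonneg_right ?_ (by linarith))
      exact_mod_cast hNI
  obtain ⟨i0, hi0, hon⟩ := (Ultrafilter.eventually_exists_mem_iff (f := hyperfilter ℕ)
    (P := fun i (t : ℕ) => On Set.univ w' (γ₂ (-t)) (γ₁ i) (γ₁ t))
    (Icc j (j + n)).finite_toSet).1 hvis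
  have hi0' := Finset.mem_Icc.1 hi0
  have hex : ∀ t : ℕ, ∃ f lo hi, GeoFn Set.univ w' (γ₂ (-t)) (γ₁ t) f lo hi ∧ lo ≤ 0 ∧ 0 ≤ hi ∧
      (On Set.univ w' (γ₂ (-t)) (γ₁ i0) (γ₁ t) → f 0 = γ₁ i0) := by
    intro t
    by_cases h : On Set.univ w' (γ₂ (-t)) (γ₁ i0) (γ₁ t)
    · obtain ⟨f, lo, hi, h1, h2, h3, h4⟩ := exists_geoFn hw' conn_univ trivial trivial h
      exact ⟨f, lo, hi, h1, h3, h4, fun _ => h2⟩
    · obtain ⟨f, lo, hi, h1, h2, h3, h4⟩ := exists_geoFn hw' conn_univ trivial trivial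
        (on_left (y := γ₁ t) hw'.nn (Set.mem_univ (γ₂ (-t))))
      exact ⟨f, lo, hi, h1, h3, h4, fun h' => absurd h' h⟩
  choose f lo hi hg hlo0 hhi0 hf0 using hex
  have hf0' : ∀ᶠ t : ℕ in (hyperfilter ℕ : Filter ℕ), f t 0 = γ₁ i0 := hon.mono hf0
  have hlo : ∀ l, ∀ᶠ t : ℕ in (hyperfilter ℕ : Filter ℕ), lo t ≤ l := by
    intro l
    obtain ⟨K, hK⟩ := escape (h2.inj hw.pos) (finite_ball (a := γ₁ i0) (r := |l|))
    filter_upwards [hf0', cpt_ev_ge K] with t ht1 ht2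
    by_contra hc
    refine hK (-t) (by rw [abs_neg]; exact ht2.trans (le_abs_self _)) ?_
    have b1 := mem_ball_of_adj (i := 0) (j := lo t) (hg t).adj (hlo0 t) (hhi0 t) le_rfl (hg t).le
    rw [(hg t).start, ht1, sub_zero, abs_of_nonpos (hlo0 t)] at b1
    refine cpt_ball_mono ?_ b1
    have := neg_abs_le l
    omega
  have hfw : ∀ᶠ t : ℕ in (hyperfilter ℕ : Filter ℕ), hi t = t - i0 ∧
      ∀ l, 0 ≤ l → l ≤ hi t → f t l = γ₁ (l + i0) := by
    filter_upwards [hf0', cpt_ev_ge i0] with t ht1 ht2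
    have g1 := (hg t).sub (hlo0 t) (hhi0 t) le_rfl
    rw [ht1, (hg t).stop] at g1
    obtain ⟨u1, u2⟩ := g1.unique hw' (kdet_geo hw'.nn h1' ht2)
    refine ⟨by omega, fun l hl hl' => ?_⟩
    have := u2 l hl (by omega)
    rwa [zero_add, add_comm] at this
  have hhi : ∀ l, ∀ᶠ t : ℕ in (hyperfilter ℕ : Filter ℕ), l ≤ hi t := by
    intro l
    filter_upwards [hfw, cpt_ev_ge (l + i0)] with t ht1 ht2
    omega
  obtain ⟨γ₃, h3, -, hlim⟩ := lim_bi (a := 0) hw' (hyperfilter ℕ) (fun _ => Set.univ)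
    (fun _ => conn_univ) (fun _ => Filter.Eventually.of_forall fun _ => Set.subset_univ _)
    _ _ f lo hi hg hlo hhi {γ₁ i0} (Set.finite_singleton _) hf0'
  have heq : γ₃ = fun t => γ₁ (t + i0) := by
    refine hb'.fwd h3 (h1'.shift i0) fun l hl => ?_
    obtain ⟨t, c1, c2, c3⟩ := (hfw.and ((hhi l).and (hlim l))).exists
    rw [← c3, c1.2 l hl c2]
  have hall : ∀ᶠ t : ℕ in (hyperfilter ℕ : Filter ℕ), ∀ l ∈ Icc (j - k) (j + n),
      f t (l - i0) = γ₁ l := by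
    refine (Filter.eventually_all_finset _).2 fun l _ => ?_
    filter_upwards [hlim (l - i0)] with t ht
    rw [ht, heq]
    simp
  obtain ⟨t, c1, c2, c3, c4⟩ := (hall.and ((hlo (j - k - i0)).and ((hhi (j + n - i0)).and
    (cpt_ev_ge (-m₀))))).exists
  refine ⟨-t, by omega, ?_⟩
  have hp := (hg t).pathFn hw'.pos
  have e1 : seg w (f t) (lo t) (j - i0) = seg w' (f t) (lo t) (j - i0) := by
    refine cpt_seg_congr fun l hl hl' => (hoff _ fun he => ?_).symm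
    obtain ⟨i, hi', he⟩ := Finset.mem_image.1 he
    have hi'' := Finset.mem_Ico.1 (hI hi')
    rw [← c1 i (Finset.mem_Icc.2 ⟨by omega, by omega⟩),
      ← c1 (i + 1) (Finset.mem_Icc.2 ⟨by omega, by omega⟩),
      show i + 1 - i0 = i - i0 + 1 by ring] at he
    have := hp.edge_inj (by omega) (by omega) hl (by omega) he
    omega
  have e2 := (hg t).add (lo t) (j - i0) le_rfl (by omega) (by omega)
  have e3 := T_mono_w (S := Set.univ) (x := f t (lo t)) (y := f t (j - i0)) hw'.nn hle conn_univ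
    trivial trivial
  have g2 := geoFn_of_seg (S := Set.univ) (f := f t) (lo := lo t) (hi := j - i0) hw.nn conn_univ
    (by omega) (fun i c5 c6 => (hg t).adj i c5 (by omega)) (fun _ _ _ => trivial) (by linarith)
  rw [(hg t).start, c1 j (Finset.mem_Icc.2 ⟨by omega, by omega⟩)] at g2
  exact (g2.on_iff hw conn_univ).2 ⟨j - k - i0, c2, by omega,
    c1 (j - k) (Finset.mem_Icc.2 ⟨le_rfl, by omega⟩)⟩

theorem k2 (hw : Nice w) (hb : NoBr w) (hr : R1 w) (h2 : Bi w γ₂) (h1 : Bi w γ₁)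
    (hc : Compat w γ₂ γ₁) {i j : ℤ} (hij : γ₁ i = γ₂ j) : Eqv γ₂ γ₁ := by
  have hpast : ∀ k, 0 ≤ k → γ₁ (i - k) = γ₂ (j - k) := by
    intro k hk
    obtain ⟨m, hm, hon⟩ := hr γ₂ γ₁ h2 h1 hc i k j hk
    rw [hij] at hon
    obtain ⟨l, hl1, hl2, hl3⟩ := ((kdet_geo hw.nn h2 hm).on_iff hw conn_univ).1 hon
    have g1 := kdet_geo hw.nn h1 (show i - k ≤ i by omega)
    have g2 := kdet_geo hw.nn h2 hl2
    rw [hl3, ← hij] at g2
    have := (g1.unique hw g2).1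
    rw [← hl3]
    congr 1
    omega
  have heq := hb _ _ (h1.shift i) (h2.shift j) fun l hl => by
    have := hpast (-l) (by omega)
    simpa [add_comm] using this
  refine ⟨j - i, fun l => ?_⟩
  have := congrFun heq (l - i)
  simp only [sub_add_cancel] at this
  rw [this]
  congr 1
  ring

theorem kp_point (hw : Nice w) (hb : NoBr w) (hr : R1 w) (a : V) : KP w (ball a 0) := by
  intro γ₂ γ₁ h2 h1 c2 c1 hc
  rw [cpt_mem_ball_zero] at c1 c2
  exact k2 hw hb hr h2 h1 hc (c1.trans c2.symm)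

theorem kdet_far (hw : Nice w) {γ : ℤ → V} (h : Bi w γ) (m : ℤ) (C : ℝ) :
    ∃ k, 0 ≤ k ∧ C < T Set.univ w (γ m) (γ (m + k)) := by
  obtain ⟨k, hk⟩ := hw.proper (γ m) C
  refine ⟨max k 0, le_max_right _ _, ?_⟩
  have h2 := hk (fun t => γ (t + m)) (max k 0) (by simp) (le_max_left _ _)
    (kdet_path hw.pos (h.shift m) _ _)
  rw [seg_shift, h.2 _ _ (by omega), zero_add, add_comm] at h2
  exact h2

theorem k3_aux {δ : ℝ} (hw : Nice w) (hr : R1 w) (hδ : 0 < δ)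
    (hwp : Nice (upE w s(γ₁ 0, γ₁ 1) δ)) (hrp : R1 (upE w s(γ₁ 0, γ₁ 1) δ))
    (h2 : Bi w γ₂) (h1 : Bi w γ₁) (h1p : Bi (upE w s(γ₁ 0, γ₁ 1) δ) γ₁)
    (hdis : ∀ i j, γ₁ i ≠ γ₂ j) (hc : Compat w γ₂ γ₁) : False := by
  set e := s(γ₁ 0, γ₁ 1) with he
  set wp := upE w e δ with hwpd
  have hle : ∀ e', w e' ≤ wp e' := cpt_le_upE hδ.le
  have hne : ∀ i, wp s(γ₂ i, γ₂ (i + 1)) = w s(γ₂ i, γ₂ (i + 1)) := by
    intro i
    refine cpt_upE_ne fun h => ?_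
    rcases Sym2.eq_iff.1 h with h | h
    · exact hdis _ _ h.1.symm
    · exact hdis _ _ h.1.symm
  have h2p : Bi wp γ₂ := h2.raise hw.nn hle hne
  have hup : ∀ x y, T Set.univ wp x y ≤ T Set.univ w x y + δ := by
    intro x y
    have := T_diff (S := Set.univ) (x := x) (y := y) hw.nn hle {e}
      (fun e' he' => cpt_upE_ne (by simpa using he')) conn_univ trivial trivial
    rw [Finset.sum_singleton, hwpd, cpt_upE_self] at this
    linarith
  have hlow : ∀ x y, T Set.univ w x y ≤ T Set.univ wp x y := fun x y =>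
    T_mono_w hw.nn hle conn_univ trivial trivial
  obtain ⟨C, hC⟩ := id hc
  have hcp : Compat wp γ₂ γ₁ := ⟨C + 2 * δ, fun i j hi hj => by
    linarith [hC i j hi hj, hup (γ₂ i) (γ₂ 0), hup (γ₁ 0) (γ₁ j), hlow (γ₂ i) (γ₁ j)]⟩
  have step : ∀ m j : ℤ, m ≤ 0 → 1 ≤ j → ∃ m' j' : ℤ, m' ≤ 0 ∧ 1 ≤ j' ∧
      T Set.univ w (γ₂ m') (γ₁ j') - seg w γ₁ 0 j' - seg w γ₂ m' 0 + δ ≤
        T Set.univ w (γ₂ m) (γ₁ j) - seg w γ₁ 0 j - seg w γ₂ m 0 := by
    intro m j hm hj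
    obtain ⟨k, hk0, hk⟩ := kdet_far hw h2 m (T Set.univ w (γ₂ m) (γ₁ 0))
    obtain ⟨j', hj', hon⟩ := hr _ _ h1.neg h2.neg hc.neg (-m) k (-j) hk0
    simp only [neg_neg, neg_sub, sub_neg_eq_add] at hon
    rw [on_symm, add_comm k m] at hon
    have b1 : T Set.univ wp (γ₂ m) (γ₁ (-j')) = T Set.univ w (γ₂ m) (γ₁ (-j')) := by
      refine T_eq_of_not_touch (B := {γ₁ 0}) hw hle (fun e' he' => cpt_upE_ne ?_) conn_univ
        trivial trivial ?_
      · rintro rfl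
        exact he' (γ₁ 0) (Sym2.mem_mk_left _ _) rfl
      · rintro ⟨c, hc, hon'⟩
        rw [Set.mem_singleton_iff] at hc
        subst hc
        rcases on_total hw conn_univ trivial trivial hon hon' with h | h
        · have := T_nonneg (S := Set.univ) (x := γ₂ (m + k)) (y := γ₁ 0) hw.nn
          linarith [h.2]
        · obtain ⟨l, -, -, hl⟩ := ((kdet_geo hw.nn h2 (show m ≤ m + k by omega)).on_iff hw
            conn_univ).1 h
          exact hdis _ _ hl.symm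
    obtain ⟨m', hm', hon2⟩ := hrp γ₂ γ₁ h2p h1p hcp (-j') (-j') m (by omega)
    rw [sub_self] at hon2
    refine ⟨m', -j', by omega, by omega, ?_⟩
    have b2 := hon2.2
    have b3 := h1p.2 0 (-j') (by omega)
    have b4 := cpt_seg_upE (w := w) hδ.le (f := γ₁) (i := 0) (j := -j') (k := 0) le_rfl (by omega)
    rw [zero_add] at b4
    have b5 := hlow (γ₂ m') (γ₁ 0)
    have b6 := kdet_tri hw.nn (γ₂ m') (γ₁ 0) (γ₁ (-j'))
    have b7 := h1.2 0 (-j') (by omega)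
    have b8 := kdet_tri hwp.nn (γ₂ m') (γ₂ m) (γ₁ (-j'))
    have b9 := h2p.2 m' m hm'
    have b10 : seg wp γ₂ m' m = seg w γ₂ m' m := cpt_seg_congr fun l _ _ => hne l
    have b11 := kdet_tri hw.nn (γ₂ m) (γ₁ j) (γ₁ (-j'))
    have b12 := h1.2 j (-j') (by omega)
    have b13 := seg_add (w := w) (f := γ₁) (i := 0) (j := j) (k := -j') (by omega) (by omega)
    have b14 := seg_add (w := w) (f := γ₂) (i := m') (j := m) (k := 0) hm' hm
    linarith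
  have iter : ∀ N : ℕ, ∃ m j : ℤ, m ≤ 0 ∧ 1 ≤ j ∧
      T Set.univ w (γ₂ m) (γ₁ j) - seg w γ₁ 0 j - seg w γ₂ m 0 + N * δ ≤
        T Set.univ w (γ₂ 0) (γ₁ 1) - seg w γ₁ 0 1 - seg w γ₂ 0 0 := by
    intro N
    induction N with
    | zero => exact ⟨0, 1, le_rfl, le_rfl, by simp⟩
    | succ N ih =>
      obtain ⟨m, j, hm, hj, h⟩ := ih
      obtain ⟨m', j', hm', hj', h'⟩ := step m j hm hj
      refine ⟨m', j', hm', hj', ?_⟩
      push_cast
      linarith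
  obtain ⟨N, hN⟩ := exists_nat_gt
    ((T Set.univ w (γ₂ 0) (γ₁ 1) - seg w γ₁ 0 1 - seg w γ₂ 0 0 + C) / δ)
  rw [div_lt_iff₀ hδ] at hN
  obtain ⟨m, j, hm, hj, h⟩ := iter N
  have c1 := hC m j hm (by omega)
  have c2 := h1.2 0 j (by omega)
  have c3 := h2.2 m 0 hm
  linarith

theorem k3 (hw : Nice w) (hb : NoBr w) (hr : R1 w)
    (hps : ∀ γ, Bi w γ → ∃ δ, 0 < δ ∧ Bi (upE w s(γ 0, γ 1) δ) γ)
    (hup : ∀ e ε, 0 < ε → ∃ δ, 0 < δ ∧ δ < ε ∧ Nice (upE w e δ) ∧ R1 (upE w e δ))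
    (B : Set V) : KP w B := by
  intro γ₂ γ₁ h2 h1 _ _ hc
  by_cases hx : ∃ i j, γ₁ i = γ₂ j
  · obtain ⟨i, j, hij⟩ := hx
    exact k2 hw hb hr h2 h1 hc hij
  · push Not at hx
    obtain ⟨δ0, hδ0, hp⟩ := hps γ₁ h1
    obtain ⟨δ, hδ, hlt, hn, hr'⟩ := hup s(γ₁ 0, γ₁ 1) δ0 hδ0
    refine (k3_aux hw hr hδ hn hr' h2 h1 ?_ hx hc).elim
    exact Bi.update_le hw.nn (by linarith [hw.pos s(γ₁ 0, γ₁ 1)]) (by linarith) ⟨0, by simp⟩ hp

end Vale.Agent.P158
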