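import Vale.Agent.P158.Geod
import Vale.Agent.P158.Cross

/-! Kalmanson inequalities, monotonicity of touching, the triangle lemma, the chord mass. -/

namespace Vale.Agent.P158

open Finset MeasureTheory Filter
open scoped NNReal ENNReal Classical Topology

variable {o s : V} {n i j k l a b x x' y y' : ℤ} {w wp : Wt} {B : Set V}

theorem kalm_split {S : Set V} {u v z : V} (hw : NN w) (p : grid.Walk u z) (hp : In S p)
    (hv : v ∈ p.support) : T S w u v + T S w v z ≤ wt w p := by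
  rw [← p.take_spec hv, wt_append]
  exact add_le_add (T_le_wt hw fun c hc => hp c (p.support_takeUntil_subset_support hv hc))
    (T_le_wt hw fun c hc => hp c (p.support_dropUntil_subset_support hv hc))

theorem kalm_key (hw : NN w) (hn : 0 < n) (hij : i ≤ j) (hjk : j ≤ k) (hkl : k ≤ l)
    (hli : l ≤ i + 4 * n) {C : ℝ} (hC : ∀ v ∈ box o n, C ≤
      T (box o n) w (bd o n i) v + T (box o n) w v (bd o n k) +
        (T (box o n) w (bd o n j) v + T (box o n) w v (bd o n l))) :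
    C ≤ T (box o n) w (bd o n i) (bd o n k) + T (box o n) w (bd o n j) (bd o n l) := by
  refine sub_le_iff_le_add.1 (le_T hw conn_box (bd_mem hn) (bd_mem hn) fun p hp _ => ?_)
  refine sub_le_comm.1 (le_T hw conn_box (bd_mem hn) (bd_mem hn) fun q hq _ => ?_)
  obtain ⟨v, h1, h2⟩ := xlemma hn hij hjk hkl hli p q hp hq
  linarith [hC v (hp v h1), kalm_split hw p hp h1, kalm_split hw q hq h2]

theorem kalm_tel (G : ℤ → ℝ) (h : a ≤ b) : ∑ i ∈ Ico a b, (G i - G (i + 1)) = G a - G b := by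
  induction b, h using Int.leInduction with
  | base => simp
  | succ b hb ih =>
    have h1 : Ico a (b + 1) = insert b (Ico a b) := by
      ext t
      simp only [mem_Ico, mem_insert]
      omega
    rw [h1, sum_insert (by simp), ih]
    ring

theorem kalm_tel' (G : ℤ → ℝ) (h : a + 1 ≤ b) :
    ∑ j ∈ Icc (a + 2) b, (G j - G (j - 1)) = G b - G (a + 1) := by
  induction b, h using Int.leInduction with
  | base => rw [Icc_eq_empty (by omega), sum_empty, sub_self]
  | succ b hb ih =>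
    have h1 : Icc (a + 2) (b + 1) = insert (b + 1) (Icc (a + 2) b) := by
      ext t
      simp only [mem_Icc, mem_insert]
      omega
    rw [h1, sum_insert (by simp), ih, add_sub_cancel_right]
    ring

theorem kal1 (hw : NN w) (hn : 0 < n) (hij : i ≤ j) (hjk : j ≤ k) (hkl : k ≤ l)
    (hli : l ≤ i + 4 * n) :
    T (box o n) w (bd o n i) (bd o n j) + T (box o n) w (bd o n k) (bd o n l) ≤
      T (box o n) w (bd o n i) (bd o n k) + T (box o n) w (bd o n j) (bd o n l) := by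
  refine kalm_key hw hn hij hjk hkl hli fun v hv => ?_
  rw [T_comm (x := v) (y := bd o n k), T_comm (x := bd o n j) (y := v)]
  linarith [T_tri hw conn_box (bd_mem (i := i) hn) hv (bd_mem (i := j) hn),
    T_tri hw conn_box (bd_mem (i := k) hn) hv (bd_mem (i := l) hn)]

theorem kal2 (hw : NN w) (hn : 0 < n) (hij : i ≤ j) (hjk : j ≤ k) (hkl : k ≤ l)
    (hli : l ≤ i + 4 * n) :
    T (box o n) w (bd o n i) (bd o n l) + T (box o n) w (bd o n j) (bd o n k) ≤
      T (box o n) w (bd o n i) (bd o n k) + T (box o n) w (bd o n j) (bd o n l) := by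
  refine kalm_key hw hn hij hjk hkl hli fun v hv => ?_
  linarith [T_tri hw conn_box (bd_mem (i := i) hn) hv (bd_mem (i := l) hn),
    T_tri hw conn_box (bd_mem (i := j) hn) hv (bd_mem (i := k) hn)]

theorem gcell_nonneg (hw : NN w) (hn : 0 < n) (h1 : i + 2 ≤ j) (h2 : j ≤ i + 4 * n) :
    0 ≤ gcell o n w i j := by
  have := kal2 (o := o) (i := i) (j := i + 1) (k := j - 1) (l := j) hw hn (by omega) (by omega)
    (by omega) h2
  unfold gcell
  linarith

theorem kalm_mid {S : Set V} {A A' X Y p : V} (hw : Nice w) (hS : Conn S) (hA : A ∈ S)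
    (hA' : A' ∈ S) (hX : X ∈ S) (hY : Y ∈ S) (h : On S w A p A')
    (h1 : ∃ u, On S w X u Y ∧ On S w A u p) (h2 : ∃ u, On S w X u Y ∧ On S w p u A') :
    On S w X p Y := by
  obtain ⟨u, h3, h4⟩ := h1
  obtain ⟨v, h5, h6⟩ := h2
  exact on_between hw hS hX hY h5 h3 (on_trans hw.nn hS hA' h3.1 (on_symm.1 h6)
    (on_symm.1 (on_trans hw.nn hS hA hA' h4 h).2)).2

theorem kalm_three {S : Set V} {A A' p p' : V} (hw : Nice w) (hS : Conn S) (hB : Conn B)
    (hBs : B ⊆ S) (hA : A ∈ S) (hA' : A' ∈ S) (hp : p ∈ B) (hp' : p' ∈ B) :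
    ∃ q : grid.Walk A A', In S q ∧ ∀ v ∈ q.support, On S w A v p ∨ v ∈ B ∨ On S w p' v A' := by
  obtain ⟨q1, -, h1⟩ := exists_geo_support hw hS hA (hBs hp)
  obtain ⟨q2, h2⟩ := hB p hp p' hp'
  obtain ⟨q3, -, h3⟩ := exists_geo_support hw hS (hBs hp') hA'
  have key : ∀ v ∈ (q1.append (q2.append q3)).support,
      On S w A v p ∨ v ∈ B ∨ On S w p' v A' := fun v hv => by
    simp only [SimpleGraph.Walk.mem_support_append_iff] at hv
    exact hv.imp (h1 v).1 (Or.imp (h2 v) (h3 v).1)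
  exact ⟨_, fun v hv => (key v hv).elim (·.1) fun h => h.elim (@hBs v) (·.1), key⟩

theorem mono_touch (hw : Nice w) (hn : 0 < n) (hB : Conn B) (hBs : B ⊆ box o n) (h1 : a ≤ x)
    (h2 : x ≤ x') (h3 : x' ≤ y') (h4 : y' ≤ y) (h5 : y ≤ b) (h6 : b ≤ a + 4 * n)
    (hab : Touch (box o n) w B (bd o n a) (bd o n b))
    (hxy : Touch (box o n) w B (bd o n x') (bd o n y')) :
    Touch (box o n) w B (bd o n x) (bd o n y) := by
  by_contra hc
  obtain ⟨p, hp, h7⟩ := hab
  obtain ⟨p', hp', h8⟩ := hxy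
  obtain ⟨g, hg, hg'⟩ := exists_geo_support hw conn_box (bd_mem (o := o) (i := x) hn)
    (bd_mem (i := y) hn)
  have L : ∀ {k : ℤ} {c c' : V}, c ∈ B → c' ∈ B → x ≤ k → k ≤ y →
      (∃ u, On (box o n) w (bd o n x) u (bd o n y) ∧ On (box o n) w (bd o n a) u c) ∨
      ∃ u, On (box o n) w (bd o n x) u (bd o n y) ∧ On (box o n) w c' u (bd o n k) := by
    intro k c c' h9 h10 h11 h12
    obtain ⟨q, hq, hq'⟩ := kalm_three hw conn_box hB hBs (bd_mem (i := a) hn) (bd_mem (i := k) hn)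
      h9 h10
    obtain ⟨v, v1, v2⟩ := xlemma hn h1 h11 h12 (h5.trans h6) q g hq hg
    rcases hq' v v1 with h | h | h
    exacts [Or.inl ⟨v, (hg' v).1 v2, h⟩, absurd ⟨v, h, (hg' v).1 v2⟩ hc,
      Or.inr ⟨v, (hg' v).1 v2, h⟩]
  have R : ∀ {k : ℤ} {c c' : V}, c ∈ B → c' ∈ B → x ≤ k → k ≤ y →
      (∃ u, On (box o n) w (bd o n x) u (bd o n y) ∧ On (box o n) w c u (bd o n k)) ∨
      ∃ u, On (box o n) w (bd o n x) u (bd o n y) ∧ On (box o n) w c' u (bd o n b) := by
    intro k c c' h9 h10 h11 h12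
    obtain ⟨q, hq, hq'⟩ := kalm_three hw conn_box hB hBs (bd_mem (i := k) hn) (bd_mem (i := b) hn)
      h9 h10
    obtain ⟨v, v1, v2⟩ := xlemma hn h11 h12 h5 (by omega) g q hg hq
    rcases hq' v v2 with h | h | h
    exacts [Or.inl ⟨v, (hg' v).1 v1, on_symm.1 h⟩, absurd ⟨v, h, (hg' v).1 v1⟩ hc,
      Or.inr ⟨v, (hg' v).1 v1, h⟩]
  have k1 := fun A A' => hc ⟨p, hp, kalm_mid hw conn_box (bd_mem hn) (bd_mem hn) (bd_mem hn)
    (bd_mem hn) h7 A A'⟩
  have k2 : (∃ u, On (box o n) w (bd o n x) u (bd o n y) ∧ On (box o n) w p' u (bd o n x')) →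
      _ → False := fun A A' => hc ⟨p', hp', kalm_mid hw conn_box (bd_mem hn) (bd_mem hn)
    (bd_mem hn) (bd_mem hn) h8 (A.imp fun _ h => ⟨h.1, on_symm.1 h.2⟩) A'⟩
  have c1 := L hp hp' (h2.trans h3) h4
  have c2 := R hp' hp h2 (h3.trans h4)
  have c3 := L hp hp' h2 (h3.trans h4)
  have c4 := R hp' hp (h2.trans h3) h4
  rcases c1 with c1 | c1
  · exact c2.elim (fun c2 => c4.elim (k2 c2) (k1 c1)) (k1 c1)
  · exact c3.elim (fun c3 => c2.elim (k2 · c1) (k1 c3)) (k2 · c1)

theorem mono_on (hw : Nice w) (hn : 0 < n) {c : V} (h1 : a ≤ x)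
    (h2 : x ≤ x') (h3 : x' ≤ y') (h4 : y' ≤ y) (h5 : y ≤ b) (h6 : b ≤ a + 4 * n)
    (hab : On (box o n) w (bd o n a) c (bd o n b))
    (hxy : On (box o n) w (bd o n x') c (bd o n y')) :
    On (box o n) w (bd o n x) c (bd o n y) := by
  have hB : Conn {c} := by
    rintro _ rfl _ rfl
    exact ⟨SimpleGraph.Walk.nil, fun v hv => by simpa using hv⟩
  obtain ⟨_, rfl, h⟩ := mono_touch hw hn hB (Set.singleton_subset_iff.2 hab.1) h1 h2 h3 h4 h5 h6
    ⟨c, rfl, hab⟩ ⟨c, rfl, hxy⟩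
  exact h

theorem kalm_ind_nonneg (p : Prop) : 0 ≤ ind p := by
  unfold ind
  split_ifs <;> norm_num

theorem tri (hw : Nice w) (hn : 0 < n) (hB : Conn B) (hBs : B ⊆ box o n)
    (hle : ∀ e, w e ≤ wp e) (hoff : ∀ e, (∀ v ∈ e, v ∉ B) → wp e = w e)
    (hadj : ∀ i, ¬ Touch (box o n) w B (bd o n i) (bd o n (i + 1)))
    (hab : a ≤ b) (hb : b ≤ a + 4 * n) :
    T (box o n) wp (bd o n a) (bd o n b) - T (box o n) w (bd o n a) (bd o n b) ≤
      ∑ i ∈ Ico a b, ∑ j ∈ Icc (i + 2) b,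
        gcell o n w i j * ind (Touch (box o n) w B (bd o n i) (bd o n j)) := by
  have hp : NN wp := fun e => (hw.nn e).trans (hle e)
  let F : ℤ → ℤ → ℝ := fun i j =>
    T (box o n) wp (bd o n i) (bd o n j) - T (box o n) w (bd o n i) (bd o n j)
  have hF : ∀ i j, ¬ Touch (box o n) w B (bd o n i) (bd o n j) → F i j = 0 := fun i j h =>
    sub_eq_zero.2 (T_eq_of_not_touch hw hle hoff conn_box (bd_mem hn) (bd_mem hn) h)
  have hF0 : ∀ i, F i i = 0 := fun i => by
    simp only [F, T_self hp (bd_mem hn), T_self hw.nn (bd_mem hn), sub_zero]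
  change F a b ≤ _
  by_cases h0 : Touch (box o n) w B (bd o n a) (bd o n b)
  swap
  · rw [hF a b h0]
    refine sum_nonneg fun i hi => sum_nonneg fun j hj => mul_nonneg (gcell_nonneg hw.nn hn ?_ ?_)
      (kalm_ind_nonneg _)
    · exact (mem_Icc.1 hj).1
    · linarith [(mem_Icc.1 hj).2, (mem_Ico.1 hi).1]
  rw [← sub_zero (F a b), ← hF0 b, ← kalm_tel (fun i => F i b) hab]
  refine sum_le_sum fun i hi => ?_
  obtain ⟨i1, i2⟩ := mem_Ico.1 hi
  have h1 := kalm_tel' (fun j => F i j - F (i + 1) j) (show i + 1 ≤ b from i2)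
  rw [hF0, hF i _ (hadj i), sub_zero, sub_zero] at h1
  rw [← h1]
  refine sum_le_sum fun j hj => ?_
  obtain ⟨j1, j2⟩ := mem_Icc.1 hj
  by_cases h2 : Touch (box o n) w B (bd o n i) (bd o n j)
  · have h3 := gcell_nonneg (o := o) hp hn j1 (by omega)
    rw [ind, if_pos h2, mul_one]
    simp only [F, gcell] at h3 ⊢
    linarith
  · have h3 : ∀ x' y', i ≤ x' → x' ≤ y' → y' ≤ j → F x' y' = 0 := fun x' y' h4 h5 h6 =>
      hF _ _ fun h7 => h2 (mono_touch hw hn hB hBs i1 h4 h5 h6 j2 hb h0 h7)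
    rw [ind, if_neg h2, mul_zero, h3 i j le_rfl (by omega) le_rfl,
      h3 (i + 1) j (by omega) (by omega) le_rfl, h3 i (j - 1) le_rfl (by omega) (by omega),
      h3 (i + 1) (j - 1) (by omega) (by omega) (by omega)]
    norm_num

theorem mass_mono (hw : NN w) (hn : 0 < n) {φ ψ : V → V → ℝ}
    (h : ∀ i j, φ (bd o n i) (bd o n j) ≤ ψ (bd o n i) (bd o n j)) :
    mass o n w φ ≤ mass o n w ψ := by
  exact sum_le_sum fun i _ => sum_le_sum fun j hj => mul_le_mul_of_nonneg_left (h i j)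
    (gcell_nonneg hw hn (mem_Icc.1 hj).1 (mem_Icc.1 hj).2)

theorem mass_nonneg (hw : NN w) (hn : 0 < n) {φ : V → V → ℝ} (h : ∀ x y, 0 ≤ φ x y) :
    0 ≤ mass o n w φ := by
  exact sum_nonneg fun i _ => sum_nonneg fun j hj =>
    mul_nonneg (gcell_nonneg hw hn (mem_Icc.1 hj).1 (mem_Icc.1 hj).2) (h _ _)

theorem kalm_seg (hn : 0 < n) (t : ℤ) : seg w (bd o n) t (4 * n + t) = perim o n w := by
  have key : ∀ t, seg w (bd o n) (t + 1) (4 * n + (t + 1)) = seg w (bd o n) t (4 * n + t) := by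
    intro t
    have h1 := seg_add (w := w) (f := bd o n) (i := t) (j := t + 1) (k := 4 * n + t + 1)
      (by omega) (by omega)
    have h2 := seg_add (w := w) (f := bd o n) (i := t) (j := 4 * n + t) (k := 4 * n + t + 1)
      (by omega) (by omega)
    rw [seg_succ] at h1 h2
    rw [add_comm (4 * n) t, add_right_comm, bd_per, bd_per, add_right_comm, add_comm t] at h2
    rw [← add_assoc]
    linarith
  induction t using Int.induction_on with
  | zero => rw [add_zero]; rfl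
  | succ t ih => rw [key, ih]
  | pred t ih => rw [← key, sub_add_cancel, ih]

theorem kalm_perim (hn : 0 < n) (t : ℤ) :
    ∑ a ∈ Ico 0 (4 * n), w s(bd o n (a + t), bd o n (a + t + 1)) = perim o n w := by
  have h1 := seg_shift (w := w) (f := bd o n) (i := 0) (j := 4 * n) (k := t)
  rw [zero_add, kalm_seg hn] at h1
  rw [← h1]
  exact sum_congr rfl fun a _ => by rw [add_right_comm]

theorem mass_le (hw : NN w) (hn : 0 < n) {φ : V → V → ℝ} {β : ℝ} (hβ : 0 ≤ β)
    (h : ∀ i j, φ (bd o n i) (bd o n j) ≤ β) : mass o n w φ ≤ 4 * β * perim o n w := by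
  refine (mass_mono (ψ := fun _ _ => β) hw hn h).trans ?_
  have h1 : ∑ i ∈ Ico 0 (8 * n), w s(bd o n i, bd o n (i + 1)) = 2 * perim o n w := by
    have h2 := seg_add (w := w) (f := bd o n) (i := 0) (j := 4 * n + 0) (k := 4 * n + (4 * n + 0))
      (by omega) (by omega)
    rw [kalm_seg hn, kalm_seg hn, show 4 * n + (4 * n + 0) = 8 * n by ring] at h2
    rw [two_mul, h2]
    rfl
  rw [show 4 * β * perim o n w = 2 * β * (2 * perim o n w) by ring, ← h1, mul_sum]
  refine sum_le_sum fun i _ => ?_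
  have h2 := kalm_tel' (fun j => T (box o n) w (bd o n (i + 1)) (bd o n j) -
    T (box o n) w (bd o n i) (bd o n j)) (show i + 1 ≤ i + 4 * n by omega)
  rw [bd_per, T_self hw (bd_mem hn), T_self hw (bd_mem hn), T_comm] at h2
  have h3 : ∑ j ∈ Icc (i + 2) (i + 4 * n), gcell o n w i j =
      2 * T (box o n) w (bd o n i) (bd o n (i + 1)) := by
    refine Eq.trans (sum_congr rfl fun j _ => ?_) (h2.trans (by ring))
    unfold gcell
    ring
  rw [← sum_mul, h3]
  nlinarith [T_adj hw (bd_adj (o := o) (i := i) hn) (bd_mem hn) (bd_mem hn)]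

theorem mass_sum {ι : Type*} (I : Finset ι) (c : ι → ℝ) (φ : ι → V → V → ℝ) :
    ∑ t ∈ I, c t * mass o n w (φ t) = mass o n w (fun x y => ∑ t ∈ I, c t * φ t x y) := by
  simp only [mass, mul_sum]
  rw [sum_comm]
  refine sum_congr rfl fun i _ => ?_
  rw [sum_comm]
  exact sum_congr rfl fun j _ => sum_congr rfl fun t _ => by ring

theorem mass_shift {φ : V → V → ℝ} :
    mass (o + s) n w φ = mass o n (shiftW s w) (fun x y => φ (x + s) (y + s)) := by
  simp only [mass, gcell, T_shift (s := s) (S := box o n) (S' := box (o + s) n) fun _ => box_shift,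
    bd_shift]

theorem perim_nonneg (hw : NN w) : 0 ≤ perim o n w := by
  exact sum_nonneg fun _ _ => hw _

theorem T_bd_le (hw : NN w) (hn : 0 < n) (t : ℕ) :
    ∑ a ∈ Ico 0 (4 * n), T (box o n) w (bd o n a) (bd o n (a + t)) ≤ t * perim o n w ∧
    ∑ a ∈ Ico 0 (4 * n), T (box o n) w (bd o n a) (bd o n (a - t)) ≤ t * perim o n w := by
  induction t with
  | zero => simp [T_self hw (bd_mem hn)]
  | succ t ih =>
    push_cast
    rw [add_mul, one_mul]
    constructor
    · refine le_trans ?_ (add_le_add ih.1 (kalm_perim hn t).le)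
      rw [← sum_add_distrib]
      refine sum_le_sum fun a _ => (T_tri hw conn_box (bd_mem hn) (bd_mem (i := a + t) hn)
        (bd_mem hn)).trans (add_le_add le_rfl ?_)
      rw [← add_assoc]
      exact T_adj hw (bd_adj hn) (bd_mem hn) (bd_mem hn)
    · refine le_trans ?_ (add_le_add ih.2 (kalm_perim hn (-(t + 1))).le)
      rw [← sum_add_distrib]
      refine sum_le_sum fun a _ => (T_tri hw conn_box (bd_mem hn) (bd_mem (i := a - t) hn)
        (bd_mem hn)).trans (add_le_add le_rfl ?_)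
      rw [T_comm, ← sub_eq_add_neg, show a - t = a - (t + 1) + 1 by ring]
      exact T_adj hw (bd_adj hn) (bd_mem hn) (bd_mem hn)

theorem GEv_shift {C : ℝ} : GEv C o n (shiftW s w) ↔ GEv C (o + s) n w := by
  have h1 : ∀ v, v ∈ box o n ↔ v + s ∈ box (o + s) n := fun _ => box_shift
  refine and_congr (forall₂_congr fun i j => ?_) (forall_congr' fun i => ?_)
  · have h2 : cntOn (box o n) (shiftW s w) (bd o n i) (bd o n j) (boxF o n) =
        cntOn (box (o + s) n) w (bd (o + s) n i) (bd (o + s) n j) (boxF (o + s) n) := by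
      refine card_bijective (· + s) (Equiv.addRight s).bijective fun v => ?_
      rw [mem_filter, mem_filter, mem_boxF, mem_boxF, On_shift h1, h1, bd_shift, bd_shift]
    rw [h2]
  · rw [(Equiv.addRight s).surjective.forall (p := fun v => On (box (o + s) n) w _ v _ → _)]
    refine forall_congr' fun v => ?_
    rw [On_shift h1, ball_shift (s := s), bd_shift, bd_shift]
    rfl

theorem GEv.not_touch {C : ℝ} {c : V} {R : ℤ} (h : GEv C o n w) (hn : 0 < n)
    (hc : ball c (n / 4) ⊆ box o n) (hR : R + n / 8 + 1 ≤ n / 4) (i : ℤ) :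
    ¬ Touch (box o n) w (ball c R) (bd o n i) (bd o n (i + 1)) := by
  rintro ⟨v, h1, h2⟩
  have h3 := h.2 i v h2
  refine not_mem_ball_of_bdry hc (by omega) (bd_mem_bdry (o := o) (i := i) hn) ?_
  rw [mem_ball] at h1 h3 ⊢
  omega

end Vale.Agent.P158
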