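import Vale.Agent.P158.Typ

/-! Bigeodesics are straight at one of many scales. -/

namespace Vale.Agent.P158

open Finset MeasureTheory Filter
open scoped NNReal ENNReal Classical Topology

variable {G : Measure ℝ≥0} [IsProbabilityMeasure G] [NullSingletonClass G] {q1 q2 M : ℝ≥0}

theorem str_ind_nonneg (p : Prop) : 0 ≤ ind p := by
  unfold ind; split_ifs <;> norm_num

theorem str_ev_pow (L : ℤ) : ∀ᶠ j : ℕ in atTop, L ≤ (16 : ℤ) ^ j := by
  filter_upwards [eventually_ge_atTop L.toNat] with j hj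
  have h1 : (j : ℤ) < 16 ^ j := by exact_mod_cast Nat.lt_pow_self (by norm_num : 1 < 16)
  omega

theorem str_slack (hP : Par G q1 q2 M) (h : PP G {ω | ∃ γ, Bi (W M ω) γ ∧ γ 0 = 0} ≠ 0) :
    ∃ δ : ℝ, 0 < δ ∧ PP G {ω | SlEv δ (W M ω) 0} ≠ 0 := by
  by_contra hne
  push Not at hne
  apply h
  have h1 : ∀ k : ℕ, ∀ᵐ ω ∂PP G, ¬ SlEv (1 / (k + 1)) (W M ω) 0 := fun k => by
    rw [ae_iff]; simpa using hne (1 / (k + 1)) (by positivity)
  have h2 : ∀ᵐ ω ∂PP G, ¬ ∃ γ, Bi (W M ω) γ ∧ γ 0 = 0 := by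
    filter_upwards [ae_all_iff.2 h1, ae_ps hP] with ω h1 h2
    rintro ⟨γ, hγ, h0⟩
    obtain ⟨δ, hδ, hb⟩ := h2 γ hγ
    obtain ⟨k, hk⟩ := exists_nat_one_div_lt hδ
    refine h1 k ⟨γ, hγ, h0, ?_⟩
    refine Bi.update_le (W_nn ω) ?_ ?_ ⟨0, by simp⟩ hb
    · have := W_nn (M := M) ω s(γ 0, γ 1)
      positivity
    · linarith
  rw [ae_iff] at h2
  simpa using h2

theorem straight (hP : Par G q1 q2 M)
    (h : PP G {ω | ∃ γ, Bi (W M ω) γ ∧ γ 0 = 0} ≠ 0) :
    ∃ p : ℝ, 0 < p ∧ ∀ m l₀ : ℕ, 0 < m → 0 < l₀ → ∃ k : ℕ,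
      ENNReal.ofReal p ≤
        ∑ θ ∈ Th m, PP G {ω | StEv m (l₀ * m ^ (k + 1)) θ (W M ω) 0} := by
  obtain ⟨δ, hδ, hsl⟩ := str_slack hP h
  set p₁ : ℝ := (PP G {ω | SlEv δ (W M ω) 0}).toReal with hp₁
  have hp₁0 : 0 < p₁ := ENNReal.toReal_pos hsl (measure_ne_top _ _)
  refine ⟨p₁ / 2, by positivity, fun m l₀ hm hl => ?_⟩
  obtain ⟨C, Cg, hC, Gd, hGm, hGd, hG0, havg⟩ := avg_mass hP
  obtain ⟨K, hK⟩ := exists_nat_gt (2 * C * m ^ 2 / (δ * p₁))
  have hKpos : 0 < K := by
    have : (0 : ℝ) < K := lt_of_le_of_lt (by positivity) hK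
    exact_mod_cast this
  -- boxes
  have hbox : ∀ j : ℕ, ∃ v : V, 1 ≤ j → v ∈ cen j ∧
      ∫⁻ ω, (shiftO (0 - v) ⁻¹' Gd j).indicator (fun ω => ENNReal.ofReal (mass (0 - v) (16 ^ j)
        (W M ω) (fun x y => ∑ k ∈ range K,
          ind (NSOn (box (0 - v) (16 ^ j)) (W M ω) x y m (l₀ * m ^ (k + 1)) 0)))) ω ∂PP G ≤
        ENNReal.ofReal (C * m ^ 2) := by
    intro j
    by_cases hj : 1 ≤ j
    swap
    · exact ⟨0, fun h => absurd h hj⟩
    obtain ⟨v, hv, hv2⟩ := havg j hj (fun o a ω x y => ∑ k ∈ range K,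
        ind (NSOn (box o (16 ^ j)) (W M ω) x y m (l₀ * m ^ (k + 1)) a)) ((m : ℝ) ^ 2)
      (by positivity)
      (fun o a x y => Finset.measurable_sum _ fun k _ =>
        measurable_ind (measurable_W (measurableSet_NSOn _ _)))
      (fun o a ω x y => Finset.sum_nonneg fun k _ => str_ind_nonneg _)
      (fun o a s ω x y => Finset.sum_congr rfl fun k _ => by
        rw [W_shift, NSOn_shift (fun v => box_shift)])
      (fun ω hω x hx y hy => by
        rw [Finset.sum_comm]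
        exact nson_count hω hx hy m l₀ hm hl K (cen j)) 0
    exact ⟨v, fun _ => ⟨hv, hv2⟩⟩
  choose v hv using hbox
  set B : ℕ → Set Om := fun j => shiftO (0 - v j) ⁻¹' Gd j with hB
  have hBm : ∀ j, MeasurableSet (B j) := fun j => measurable_shiftO _ (hGm j)
  set mk : ℕ → ℕ → Om → ℝ := fun k j ω => mass (0 - v j) (16 ^ j) (W M ω) (fun x y =>
    ind (NSOn (box (0 - v j) (16 ^ j)) (W M ω) x y m (l₀ * m ^ (k + 1)) 0)) with hmk
  have hmkm : ∀ k j, Measurable (mk k j) := fun k j =>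
    measurable_mass measurable_W fun x y => measurable_ind (measurable_W (measurableSet_NSOn _ _))
  set X : ℕ → Om → ℝ≥0∞ := fun j ω => ENNReal.ofReal (∑ k ∈ range K, mk k j ω) with hX
  have hXm : ∀ j, Measurable (X j) := fun j =>
    (Finset.measurable_sum _ fun k _ => hmkm k j).ennreal_ofReal
  have hfat := fatou_bound (PP G) X hXm B hBm (by
      refine hG0.congr fun j => ?_
      rw [hB, ← measure_shift (0 - v j)]; rfl)
    (ENNReal.ofReal (C * m ^ 2)) (ENNReal.ofReal (δ * K)) ENNReal.ofReal_ne_top (by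
      filter_upwards [eventually_ge_atTop 1] with j hj
      refine le_of_eq_of_le ?_ (hv j hj).2
      congr 1
      funext ω
      congr 1
      funext ω
      have := mass_sum (o := 0 - v j) (n := 16 ^ j) (w := W M ω) (range K) (fun _ => 1)
        (fun k x y => ind (NSOn (box (0 - v j) (16 ^ j)) (W M ω) x y m (l₀ * m ^ (k + 1)) 0))
      simp only [one_mul] at this
      simp only [hX, hmk, this])
  set A : ℕ → Set Om := fun k => {ω | ∀ᶠ j in atTop, ω ∈ B j → δ ≤ mk k j ω} with hA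
  have hAm : ∀ k, MeasurableSet (A k) := fun k => by
    have : A k = ⋃ N : ℕ, ⋂ j : ℕ, ⋂ _ : N ≤ j, ((B j)ᶜ ∪ {ω | δ ≤ mk k j ω}) := by
      ext ω
      simp only [hA, eventually_atTop, Set.mem_setOf_eq, Set.mem_iUnion, Set.mem_iInter,
        Set.mem_union, Set.mem_compl_iff, ge_iff_le, imp_iff_not_or]
    rw [this]
    exact MeasurableSet.iUnion fun N => MeasurableSet.iInter fun j => MeasurableSet.iInter fun _ =>
      (hBm j).compl.union (measurableSet_le measurable_const (hmkm k j))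
  have hsum : ∑ k ∈ range K, ENNReal.ofReal δ * PP G (A k) ≤ ENNReal.ofReal (C * m ^ 2) := by
    refine le_trans ?_ hfat
    have e : ∑ k ∈ range K, ENNReal.ofReal δ * PP G (A k) =
        ∫⁻ ω, ∑ k ∈ range K, (A k).indicator (fun _ => ENNReal.ofReal δ) ω ∂PP G := by
      rw [lintegral_finsetSum _ fun k _ => measurable_const.indicator (hAm k)]
      exact Finset.sum_congr rfl fun k _ => by rw [lintegral_indicator_const (hAm k)]
    rw [e]
    refine lintegral_mono fun ω => le_liminf_of_le (by isBoundedDefault) ?_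
    have hev : ∀ᶠ j in atTop, ∀ k ∈ range K, ω ∈ A k → ω ∈ B j → δ ≤ mk k j ω := by
      rw [eventually_all_finset]
      intro k _
      by_cases hk : ω ∈ A k
      · filter_upwards [hk] with j hj _ using hj
      · exact Eventually.of_forall fun j h => absurd h hk
    filter_upwards [hev] with j hj
    split_ifs with hb
    · simp only [hX]
      have hnn : ∀ k, 0 ≤ mk k j ω := fun k =>
        mass_nonneg (W_nn ω) (by positivity) fun x y => str_ind_nonneg _
      rw [ENNReal.ofReal_sum_of_nonneg fun k _ => hnn k]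
      refine Finset.sum_le_sum fun k hk => ?_
      by_cases hk2 : ω ∈ A k
      · rw [Set.indicator_of_mem hk2]
        exact ENNReal.ofReal_le_ofReal (hj k hk hk2 hb)
      · rw [Set.indicator_of_notMem hk2]; exact bot_le
    · calc ∑ k ∈ range K, (A k).indicator (fun _ => ENNReal.ofReal δ) ω
          ≤ ∑ k ∈ range K, ENNReal.ofReal δ :=
            Finset.sum_le_sum fun k _ => Set.indicator_le_self _ _ ω
        _ = ENNReal.ofReal (δ * K) := by
            rw [Finset.sum_const, Finset.card_range, nsmul_eq_mul, mul_comm,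
              ENNReal.ofReal_mul hδ.le, ENNReal.ofReal_natCast]
  have hex : ∃ k ∈ range K, PP G (A k) ≤ ENNReal.ofReal (p₁ / 2) := by
    by_contra hcon
    push Not at hcon
    have h1 : ∑ k ∈ range K, ENNReal.ofReal δ * ENNReal.ofReal (p₁ / 2) ≤
        ENNReal.ofReal (C * m ^ 2) :=
      (Finset.sum_le_sum fun k hk => mul_le_mul_right (hcon k hk).le _).trans hsum
    rw [Finset.sum_const, Finset.card_range, nsmul_eq_mul, ← ENNReal.ofReal_mul hδ.le,
      ← ENNReal.ofReal_natCast, ← ENNReal.ofReal_mul (by positivity),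
      ENNReal.ofReal_le_ofReal_iff (by positivity)] at h1
    rw [div_lt_iff₀ (by positivity)] at hK
    nlinarith
  obtain ⟨k, -, hk⟩ := hex
  refine ⟨k, ?_⟩
  have hsub : PP G {ω | SlEv δ (W M ω) 0} ≤
      PP G (A k ∪ ⋃ θ ∈ Th m, {ω | StEv m (l₀ * m ^ (k + 1)) θ (W M ω) 0}) := by
    refine measure_mono_ae ?_
    filter_upwards [ae_nice hP, ae_kp hP] with ω hn hkp hω
    obtain ⟨γ, hγ, h0, hup⟩ := hω
    by_cases hns : NS m (l₀ * m ^ (k + 1)) γ 0
    · left
      obtain ⟨L, hL⟩ := app_ns (C := Cg) hn hδ (by positivity) (hkp _) hγ h0 hup hns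
      filter_upwards [str_ev_pow L, eventually_ge_atTop 1] with j hj hj1 hb
      refine hL _ _ hj (cen_ball hj1 (hv j hj1).1 0) ?_
      have := (hGd j _ hb).2
      rwa [W_shift, GEv_shift, zero_add] at this
    · right
      simp only [NS, not_forall, not_not] at hns
      obtain ⟨θ, hθ, hs⟩ := hns
      exact Set.mem_iUnion₂.2 ⟨θ, hθ, γ, hγ, h0, hs⟩
  have h2 : ENNReal.ofReal p₁ ≤ ENNReal.ofReal (p₁ / 2) +
      ∑ θ ∈ Th m, PP G {ω | StEv m (l₀ * m ^ (k + 1)) θ (W M ω) 0} := by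
    rw [hp₁, ENNReal.ofReal_toReal (measure_ne_top _ _)]
    refine hsub.trans ((measure_union_le _ _).trans (add_le_add hk ?_))
    exact measure_biUnion_finset_le _ _
  have h3 : ENNReal.ofReal p₁ = ENNReal.ofReal (p₁ / 2) + ENNReal.ofReal (p₁ / 2) := by
    rw [← ENNReal.ofReal_add (by positivity) (by positivity)]; ring_nf
  rw [h3] at h2
  exact (ENNReal.add_le_add_iff_left ENNReal.ofReal_ne_top).1 h2

end Vale.Agent.P158
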