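import Vale.Agent.P158.KeyB
import Vale.Agent.P158.Straight

/-! The strip perturbation inequality. -/

namespace Vale.Agent.P158

open Finset MeasureTheory Filter
open scoped NNReal ENNReal Classical Topology

variable {G : Measure ℝ≥0} [IsProbabilityMeasure G] [NullSingletonClass G] {q1 q2 M : ℝ≥0}

/-- The inequality with all parameters free. -/
theorem key_gen (hP : Par G q1 q2 M) :
    ∃ C : ℝ, 0 < C ∧ ∀ {m l N ρ Cg : ℕ}, 0 < N → 0 < ρ → m * l = N * ρ → 40 * N ≤ m → 0 < Cg →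
      ∀ {σ j₀ k₀ η : ℝ} (k : ℕ), 0 < σ → σ ≤ 1 / 2 → 0 < j₀ → 1 ≤ j₀ * (q2 - q1) / M →
      2 * ((2 * Cg / q2 + 2) * ρ) ≤ k₀ → 0 < η →
      (2 : ℝ) ^ j₀ * Real.exp (-(σ * (G (Set.Iic q1)).toReal * (m * l) / 4)) ≤ 1 / 2 →
      PP G {ω | ¬ Good Cg q2 M (W M ω) 0 ρ (m * l)} ≤ ENNReal.ofReal η →
      ∀ y : ℝ, y = j₀ * (q2 - q1) / ((2 * Cg / q2 + 2) * (24 * (m * l))) * (m * l * l) →
      ENNReal.ofReal (y / 2) * ∑ θ ∈ Th m, PP G {ω | StEv m (m * l) θ (W M ω) 0} ≤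
        ENNReal.ofReal (Real.exp 1 * (C * (105 * (m * l * l) *
          ((2 * Cg / q2 + 2) * (24 * (m * l)) * (2 * (80 * N + 1)) * 2 / k₀ ^ 2 +
            2 * σ * Real.exp (σ * k₀) / 2 ^ (j₀ * (q2 - q1) / M) * (2 * (2 * m + 1)))) +
            (Th m).card * y * (η + η)) +
          (Th m).card * y * Real.exp (2 * (k + 1) ^ 2 * σ ^ 2 * (420 * (m * l * l)) - k) +
          y / 2 * ((Th m).card * η)) := by
  obtain ⟨C, Cge, hC, Gd, hGm, hGd, hG0, havg⟩ := avg_mass hP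
  refine ⟨C, hC, ?_⟩
  intro m l N ρ Cg hN hρ hml hm40 hCg σ j₀ k₀ η k h0 h1 hj₀ hj' hk₀ hη htail hgood y hy
  have hq := hP.q2_pos
  have h12 : (q1 : ℝ) < q2 := by exact_mod_cast hP.h12
  have hκ : (0 : ℝ) < q2 - q1 := by linarith
  have hm : 0 < m := by omega
  have hl : 0 < l := by
    rcases Nat.eq_zero_or_pos l with rfl | h
    · have := Nat.mul_pos hN hρ; omega
    · exact h
  have hρl : ρ ≤ m * l := by rw [hml]; exact Nat.le_mul_of_pos_left _ hN
  set j' : ℝ := j₀ * (q2 - q1) / M with hj'def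
  set β : ℝ := 2 * σ * Real.exp (σ * k₀) / 2 ^ j' with hβ
  have hβ0 : 0 ≤ β := by positivity
  set cc : ℝ := j₀ * (q2 - q1) / ((2 * Cg / q2 + 2) * (24 * (m * l))) with hcc
  have hcc0 : 0 ≤ cc := by positivity
  have hy0 : 0 ≤ y := by rw [hy]; positivity
  set βs : ℝ := 105 * (m * l * l) *
    ((2 * Cg / q2 + 2) * (24 * (m * l)) * (2 * (80 * N + 1)) * 2 / k₀ ^ 2 +
      β * (2 * (2 * m + 1))) with hβs
  have hβs0 : 0 ≤ βs := by positivity
  set Gg : Set Om := (toMeasurable (PP G) {ω | ¬ Good Cg q2 M (W M ω) 0 ρ (m * l)})ᶜ with hGg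
  have hGgm : MeasurableSet Gg := (measurableSet_toMeasurable _ _).compl
  have hGgG : ∀ ω ∈ Gg, Good Cg q2 M (W M ω) 0 ρ (m * l) := fun ω hω => by
    by_contra h
    exact hω (subset_toMeasurable _ _ h)
  have hGgc : PP G Ggᶜ ≤ ENNReal.ofReal η := by
    rw [hGg, compl_compl, measure_toMeasurable]; exact hgood
  have hphi0 : ∀ t, 0 ≤ phi k₀ β t := fun t =>
    add_nonneg (key_ind_nonneg _) (mul_nonneg hβ0 (Nat.cast_nonneg _))
  have hbox : ∀ j : ℕ, ∃ v : V,
      (1 ≤ j ∧ 24 * ((m : ℤ) * l) + Cg * (24 * (m * l)) ≤ 16 ^ j / 4) → v ∈ cen j ∧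
      ∫⁻ ω, (shiftO (0 - v) ⁻¹' Gd j).indicator (fun ω => ENNReal.ofReal (mass (0 - v) (16 ^ j)
        (W M ω) (fun a b => ∑ θ ∈ Th m, ind (ω ∈ Gg) *
          phi k₀ β (cntE (box (0 - v) (16 ^ j)) (W M ω) a b (ED θ m l))))) ω ∂PP G ≤
        ENNReal.ofReal (C * βs) := by
    intro j
    by_cases hj : 1 ≤ j ∧ 24 * ((m : ℤ) * l) + Cg * (24 * (m * l)) ≤ 16 ^ j / 4
    swap
    · exact ⟨0, fun h => absurd h hj⟩
    obtain ⟨v, hv, hv2⟩ := havg j hj.1 (fun o a ω x y => ∑ θ ∈ Th m, ind (shiftO a ω ∈ Gg) *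
        phi k₀ β (cntE (box o (16 ^ j)) (W M ω) x y ((ED θ m l).image fun e => e.map (· + a))))
      βs hβs0
      (fun o a x y => Finset.measurable_sum _ fun θ _ =>
        (measurable_ind (measurable_shiftO a hGgm)).mul
          ((measurable_from_top (f := phi k₀ β)).comp ((measurable_cntE _).comp measurable_W)))
      (fun o a ω x y => Finset.sum_nonneg fun θ _ => mul_nonneg (key_ind_nonneg _) (hphi0 _))
      (fun o a s ω x y => Finset.sum_congr rfl fun θ _ => by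
        rw [W_shift, cntE_shift (fun v => box_shift), shiftO_add, Finset.image_image]
        congr 4
        funext e
        simp only [Function.comp, Sym2.map_map]
        congr 1
        funext t
        simp [add_assoc])
      (fun ω hω x hx y hy => by
        have := pair_sum hω hx hy hN hρ hml hm40 hCg (M := M) hq hβ0 hk₀ (cen j)
          (fun s hs => by
            have h1 := cen_ball hj.1 hs s
            rw [sub_self] at h1
            refine fun t ht => h1 ?_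
            have h2 := hj.2
            rw [mem_ball] at ht ⊢
            omega)
        refine le_trans (Finset.sum_le_sum fun s _ => Finset.sum_le_sum fun θ _ =>
          mul_le_mul_of_nonneg_right ?_ (hphi0 _)) (this.trans (le_of_eq ?_))
        · by_cases hs : shiftO s ω ∈ Gg
          · have := hGgG _ hs
            rw [W_shift, Good_shift, zero_add] at this
            simp [ind, hs, this]
          · simp only [ind, hs, if_false]
            split_ifs <;> norm_num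
        · rw [hβs]; ring) 0
    refine ⟨v, fun _ => ⟨hv, le_of_eq_of_le ?_ hv2⟩⟩
    have e1 : ∀ ω : Om, shiftO 0 ω = ω := fun ω => by
      funext e; simp [shiftO]
    have e2 : ∀ θ, ((ED θ m l).image fun e => e.map (· + (0 : V))) = ED θ m l := fun θ => by
      simp
    simp only [e1, e2]
  choose v hv using hbox
  set B : ℕ → Set Om := fun j => shiftO (0 - v j) ⁻¹' Gd j with hB
  have hBm : ∀ j, MeasurableSet (B j) := fun j => measurable_shiftO _ (hGm j)
  set Y : ℝ≥0∞ := ENNReal.ofReal y with hY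
  set Fj : ℕ → Om × Om → ℝ≥0∞ := fun j p => ∑ θ ∈ Th m,
    ∑ J ∈ (DD q1 q2 M θ m l p.1 p.2).powerset,
      ENNReal.ofReal (wf σ (DD q1 q2 M θ m l p.1 p.2) J) *
        min (Zf M (0 - v j) (16 ^ j) j' (B j ∩ Gg) Y (mix J p.2 p.1) J) Y with hFj
  have hFjm : ∀ j, Measurable (Fj j) := fun j => Finset.measurable_sum _ fun θ _ =>
    measurable_sum_DA _ measurableSet_Ioc measurableSet_Iic σ
      (fun p J => min (Zf M (0 - v j) (16 ^ j) j' (B j ∩ Gg) Y (mix J p.2 p.1) J) Y)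
      fun J => ((measurable_Zf _ _ _ ((hBm j).inter hGgm) Y J).comp (measurable_mix _)).min
        measurable_const
  have hevj : ∀ᶠ j : ℕ in atTop,
      1 ≤ j ∧ 24 * ((m : ℤ) * l) + Cg * (24 * (m * l)) ≤ 16 ^ j / 4 := by
    filter_upwards [eventually_ge_atTop 1,
      str_ev_pow (4 * (24 * ((m : ℤ) * l) + Cg * (24 * (m * l))))] with j h1 h2
    exact ⟨h1, by omega⟩
  have hlow := key_lower hP hm hl hρl h0 h1 hcc0 htail Gg hGgm hGgG
    (fun p => liminf (fun j => Fj j p) atTop) (Measurable.liminf hFjm) (by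
      filter_upwards [res2 ((ae_nice hP).and (ae_kp hP))] with p hp hpG
      refine le_liminf_of_le (by isBoundedDefault) ?_
      have hev : ∀ᶠ j in atTop, ∀ θ ∈ Th m, ∀ J ∈ (DD q1 q2 M θ m l p.1 p.2).powerset,
          ENNReal.ofReal (cc * nHit (W M p.1) (D1 θ m (m * l) l) J (m * l) j₀) ≤
            min (Zf M (0 - v j) (16 ^ j) j' (B j ∩ Gg) Y (mix J p.2 p.1) J) Y := by
        rw [eventually_all_finset]
        intro θ hθ
        rw [eventually_all_finset]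
        intro J hJ
        have hle : ENNReal.ofReal (cc * nHit (W M p.1) (D1 θ m (m * l) l) J (m * l) j₀) ≤ Y := by
          refine ENNReal.ofReal_le_ofReal ?_
          rw [hy]
          refine mul_le_mul_of_nonneg_left ?_ hcc0
          have := (Finset.card_filter_le (D1 θ m (m * l) l)
            fun v => ∃ γ, Bi (W M p.1) γ ∧ γ 0 = v ∧ j₀ ≤ cntJ J γ (m * l)).trans_eq
              (card_D1 θ m l)
          unfold nHit
          exact_mod_cast this
        obtain ⟨L, hL⟩ := key_ae (C := Cge) hP hm hl hCg hθ hj₀ (Finset.mem_powerset.1 hJ) hp.1.1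
          hp.1.2 (hp.2 J).1 (hp.2 J).2 (hGgG _ hpG)
        filter_upwards [str_ev_pow L, hevj] with j hj1 hj2
        refine le_min ?_ hle
        unfold Zf
        split_ifs with hb
        · refine ENNReal.ofReal_le_ofReal (hL _ _ hj1 (cen_ball hj2.1 (hv j hj2).1 0) ?_)
          have := (hGd j _ hb.1).2
          rwa [W_shift, GEv_shift, zero_add] at this
        · exact hle
      filter_upwards [hev] with j hj
      refine Finset.sum_le_sum fun θ hθ => Finset.sum_le_sum fun J hJ => ?_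
      rw [ENNReal.ofReal_mul (wf_nonneg h0.le (by linarith) _ _)]
      exact mul_le_mul_right (hj θ hθ J hJ) _)
  have hup : ∫⁻ p, liminf (fun j => Fj j p) atTop ∂(PP G).prod (PP G) ≤
      ENNReal.ofReal (Real.exp 1) * (ENNReal.ofReal (C * βs) +
          (Th m).card * Y * (ENNReal.ofReal η + ENNReal.ofReal η)) +
        (Th m).card * Y *
          ENNReal.ofReal (Real.exp (2 * (k + 1) ^ 2 * σ ^ 2 * (420 * (m * l * l)) - k)) := by
    refine (lintegral_liminf_le hFjm).trans (liminf_le_of_frequently_le' ?_)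
    refine Eventually.frequently ?_
    filter_upwards [hevj, hG0.eventually (ge_mem_nhds (ENNReal.ofReal_pos.2 hη))] with j hj1 hj2
    refine (key_upper (k₀ := k₀) hP.h12 hm hl (by positivity) h0 h1 hj' k (hBm j) hGgm Y).trans ?_
    have : PP G (B j)ᶜ ≤ ENNReal.ofReal η := by
      refine le_of_eq_of_le ?_ hj2
      rw [← measure_shift (0 - v j) (Gd j)ᶜ]; rfl
    gcongr
    exact (hv j hj1).2
  have e : cc / 2 * (m * l * l) = y / 2 := by rw [hy]; ring
  rw [e] at hlow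
  refine hlow.trans ((add_le_add hup (mul_le_mul_right (mul_le_mul_right hGgc _) _)).trans
    (le_of_eq ?_))
  rw [hY, ← ENNReal.ofReal_natCast (Th m).card]
  simp (disch := positivity) only [← ENNReal.ofReal_mul, ← ENNReal.ofReal_add]

theorem key_num1 {x : ℝ} (hx : 1 ≤ x) : (2 : ℝ) ^ x * Real.exp (-(2 * x)) ≤ 1 / 2 := by
  have h1 : (2 : ℝ) ^ x ≤ Real.exp x := by
    rw [Real.rpow_def_of_pos two_pos]
    refine Real.exp_le_exp.2 ?_
    have := Real.log_two_lt_d9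
    nlinarith
  have h2 : Real.exp x * Real.exp (-(2 * x)) = Real.exp (-x) := by
    rw [← Real.exp_add]; congr 1; ring
  have h3 : Real.exp (-x) ≤ Real.exp (-1) := Real.exp_le_exp.2 (by linarith)
  have h4 : Real.exp (-1) ≤ 1 / 2 := by
    rw [Real.exp_neg, one_div]
    exact inv_anti₀ two_pos (by linarith [Real.add_one_le_exp (1 : ℝ)])
  calc (2 : ℝ) ^ x * Real.exp (-(2 * x)) ≤ Real.exp x * Real.exp (-(2 * x)) := by gcongr
    _ ≤ 1 / 2 := by rw [h2]; linarith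

theorem key_num2 {x : ℝ} (hx : 0 ≤ x) : Real.exp x / 2 ^ (4 * x) ≤ Real.exp (-x) := by
  rw [div_le_iff₀ (by positivity), Real.rpow_def_of_pos two_pos, ← Real.exp_add]
  refine Real.exp_le_exp.2 ?_
  have := Real.log_two_gt_d9
  nlinarith

theorem key_num3 {lam m l N C c4 c' a0 c η η' t : ℝ} (hlam2 : 2 ≤ lam) (hmr : m = lam ^ 4)
    (hl1 : 1 ≤ l) (hC : 0 < C) (hc'0 : 0 < c') (ha00 : 0 < a0)
    (hcc : c ≤ c') (hc1 : c ≤ 1) (hη'0 : 0 < η')
    (hb3 : 6 * m * (a0 * lam) * (1 + 4 * Real.exp 1) * η' = η) (hT0 : 0 ≤ t) (hT : t ≤ 6 * m) :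
    Real.exp 1 * (C * (105 * (m * l * l) *
          (c4 * (24 * (m * l)) * (2 * (80 * N + 1)) * 2 / (c' * (m * l)) ^ 2 +
            2 * (lam / (m * l)) * Real.exp (c' * lam) / 2 ^ (4 * (c' * lam)) * (2 * (2 * m + 1)))) +
            t * (2 * (a0 * lam) * l) * (η' + η')) +
          t * (2 * (a0 * lam) * l) *
            Real.exp (2 * (lam + 1) ^ 2 * (lam / (m * l)) ^ 2 * (420 * (m * l * l)) - lam) +
          2 * (a0 * lam) * l / 2 * (t * η') ≤
      l * (Real.exp 1 * C * (105 * c4 * 24 * (2 * (80 * N + 1)) * 2 / c' ^ 2) +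
        (Real.exp 1 * C * 1260 + 12 * a0 * Real.exp 3360) * lam ^ 5 * Real.exp (-(c * lam)) + η) := by
  have hlam0 : 0 < lam := by linarith
  have hm1 : 1 ≤ m := by rw [hmr]; exact one_le_pow₀ (by linarith)
  have hm0 : 0 < m := by linarith
  have hl0 : 0 < l := by linarith
  obtain ⟨A1, hA1⟩ : ∃ A1, A1 = 105 * c4 * 24 * (2 * (80 * N + 1)) * 2 / c' ^ 2 := ⟨_, rfl⟩
  rw [← hA1]
  have hE : Real.exp (-(c' * lam)) ≤ Real.exp (-(c * lam)) :=
    Real.exp_le_exp.2 (by nlinarith)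
  have hb1 : 105 * (m * l * l) * (c4 * (24 * (m * l)) * (2 * (80 * N + 1)) * 2 /
      (c' * (m * l)) ^ 2 + 2 * (lam / (m * l)) * Real.exp (c' * lam) / 2 ^ (4 * (c' * lam)) *
        (2 * (2 * m + 1))) ≤ l * (A1 + 1260 * lam ^ 5 * Real.exp (-(c * lam))) := by
    have h1 := (key_num2 (x := c' * lam) (by positivity)).trans hE
    have e2 : 105 * (m * l * l) * (c4 * (24 * (m * l)) * (2 * (80 * N + 1)) * 2 /
        (c' * (m * l)) ^ 2 + 2 * (lam / (m * l)) * Real.exp (c' * lam) / 2 ^ (4 * (c' * lam)) *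
          (2 * (2 * m + 1))) = l * (A1 + 210 * lam * (2 * (2 * m + 1)) *
            (Real.exp (c' * lam) / 2 ^ (4 * (c' * lam)))) := by
      rw [hA1]; field_simp; ring
    rw [e2]
    refine mul_le_mul_of_nonneg_left (add_le_add le_rfl ?_) (by positivity)
    refine mul_le_mul ?_ h1 (by positivity) (by positivity)
    have : lam ^ 5 = lam * m := by rw [hmr]; ring
    rw [this]
    nlinarith
  have hb2 : Real.exp (2 * (lam + 1) ^ 2 * (lam / (m * l)) ^ 2 * (420 * (m * l * l)) - lam) ≤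
      Real.exp 3360 * Real.exp (-(c * lam)) := by
    rw [← Real.exp_add]
    refine Real.exp_le_exp.2 ?_
    have e2 : 2 * (lam + 1) ^ 2 * (lam / (m * l)) ^ 2 * (420 * (m * l * l)) =
        840 * (lam + 1) ^ 2 / lam ^ 2 := by
      rw [hmr]; field_simp; ring
    rw [e2]
    have h1 : 840 * (lam + 1) ^ 2 / lam ^ 2 ≤ 3360 := by
      rw [div_le_iff₀ (by positivity)]; nlinarith
    nlinarith
  have t1 := mul_le_mul_of_nonneg_left hb1 (show 0 ≤ Real.exp 1 * C by positivity)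
  have t2 : t * (2 * (a0 * lam) * l) * Real.exp
      (2 * (lam + 1) ^ 2 * (lam / (m * l)) ^ 2 * (420 * (m * l * l)) - lam) ≤
      (6 * m) * (2 * (a0 * lam) * l) * (Real.exp 3360 * Real.exp (-(c * lam))) := by gcongr
  have t3 : t * ((a0 * lam) * l * η' * (1 + 4 * Real.exp 1)) ≤
      (6 * m) * ((a0 * lam) * l * η' * (1 + 4 * Real.exp 1)) := by gcongr
  have t4 : (6 * m) * ((a0 * lam) * l * η' * (1 + 4 * Real.exp 1)) = l * η := by
    rw [← hb3]; ring
  have t5 : (6 * m) * (2 * (a0 * lam) * l) * (Real.exp 3360 * Real.exp (-(c * lam))) =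
      l * (12 * a0 * Real.exp 3360 * lam ^ 5 * Real.exp (-(c * lam))) := by
    rw [hmr]; ring
  linarith

theorem key_num4 {lam m l : ℝ} (hlam2 : 2 ≤ lam) (hmr : m = lam ^ 4) (hl1 : 1 ≤ l) :
    lam / (m * l) ≤ 1 / 2 := by
  have hm1 : 1 ≤ m := by rw [hmr]; exact one_le_pow₀ (by linarith)
  rw [div_le_iff₀ (by positivity)]
  have h3 : (8 : ℝ) ≤ lam ^ 3 := by
    have := pow_le_pow_left₀ (by norm_num) hlam2 3
    linarith
  have h4 : m ≤ m * l := le_mul_of_one_le_right (by positivity) hl1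
  have h5 : lam ^ 4 = lam ^ 3 * lam := by ring
  nlinarith

/-- The whole perturbation inequality, summed over the directions. -/
theorem key (hP : Par G q1 q2 M) :
    ∃ (C₁ C₂ c : ℝ) (N : ℕ), 0 < C₁ ∧ 0 < C₂ ∧ 0 < c ∧ 0 < N ∧ ∃ L₀ : ℕ, ∀ lam : ℕ, L₀ ≤ lam →
      ∀ η : ℝ, 0 < η → ∃ ρ₀ : ℕ, ∀ l : ℕ, N ∣ l → ρ₀ ≤ l →
        ENNReal.ofReal (c * lam) *
            ∑ θ ∈ Th (lam ^ 4 : ℕ), PP G {ω | StEv (lam ^ 4 : ℕ) ((lam ^ 4 : ℕ) * l) θ (W M ω) 0} ≤
          ENNReal.ofReal (C₁ + C₂ * lam ^ 5 * Real.exp (-(c * lam)) + η) := by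
  obtain ⟨C, hC, hgen⟩ := key_gen hP
  obtain ⟨Cg, hCg, hgood⟩ := good_prob hP
  have hq := hP.q2_pos
  have h12 : (q1 : ℝ) < q2 := by exact_mod_cast hP.h12
  have h2M : (q2 : ℝ) < M := by exact_mod_cast hP.h2M
  have hM : (0 : ℝ) < M := by linarith
  obtain ⟨κ, hκdef⟩ : ∃ κ : ℝ, κ = q2 - q1 := ⟨_, rfl⟩
  have hκ : 0 < κ := by linarith
  obtain ⟨u, hu⟩ : ∃ u : ℝ, u = (G (Set.Iic q1)).toReal := ⟨_, rfl⟩
  have hu0 : 0 < u := hu ▸ ENNReal.toReal_pos hP.hU (measure_ne_top _ _)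
  obtain ⟨c4, hc4⟩ : ∃ c4 : ℝ, c4 = 2 * Cg / q2 + 2 := ⟨_, rfl⟩
  have hc40 : 0 < c4 := by rw [hc4]; positivity
  obtain ⟨c', hc'⟩ : ∃ c' : ℝ, c' = u * κ / (32 * M) := ⟨_, rfl⟩
  have hc'0 : 0 < c' := by rw [hc']; positivity
  obtain ⟨a0, ha0⟩ : ∃ a0 : ℝ, a0 = u * κ / (384 * c4) := ⟨_, rfl⟩
  have ha00 : 0 < a0 := by rw [ha0]; positivity
  obtain ⟨N, hN⟩ := exists_nat_gt (2 * c4 / c')
  have hN0 : 0 < N := by
    have : (0 : ℝ) < N := lt_trans (by positivity) hN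
    exact_mod_cast this
  obtain ⟨c, hc0, hca, hcc, hc1⟩ : ∃ c : ℝ, 0 < c ∧ c ≤ a0 ∧ c ≤ c' ∧ c ≤ 1 :=
    ⟨min a0 (min c' 1), lt_min ha00 (lt_min hc'0 one_pos), min_le_left _ _,
      (min_le_right _ _).trans (min_le_left _ _), (min_le_right _ _).trans (min_le_right _ _)⟩
  obtain ⟨L₁, hL₁⟩ := exists_nat_gt (8 / u + 1 / (4 * c'))
  refine ⟨Real.exp 1 * C * (105 * c4 * 24 * (2 * (80 * N + 1)) * 2 / c' ^ 2),
    Real.exp 1 * C * 1260 + 12 * a0 * Real.exp 3360, c, N,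
    by positivity, by positivity, hc0, hN0, L₁ + 40 * N + 2, fun lam hlam η hη => ?_⟩
  have hlam2 : (2 : ℝ) ≤ lam := by exact_mod_cast (by omega : 2 ≤ lam)
  have hlamL : (L₁ : ℝ) ≤ lam := by exact_mod_cast (by omega : L₁ ≤ lam)
  have hm40 : 40 * N ≤ lam ^ 4 := le_trans (by omega) (Nat.le_self_pow (by norm_num) lam)
  have hmr : ((lam ^ 4 : ℕ) : ℝ) = lam ^ 4 := by push_cast; ring
  generalize lam ^ 4 = m at hm40 hmr ⊢
  have hm1 : (1 : ℝ) ≤ m := by exact_mod_cast (by omega : 1 ≤ m)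
  obtain ⟨η', hη'⟩ : ∃ η' : ℝ, η' = η / (6 * m * (a0 * lam) * (1 + 4 * Real.exp 1)) := ⟨_, rfl⟩
  have hη'0 : 0 < η' := by rw [hη']; positivity
  obtain ⟨ρ₀, hρ₀⟩ := hgood N (ENNReal.ofReal η') hN0 (ENNReal.ofReal_pos.2 hη'0).ne'
  refine ⟨N * (ρ₀ + 1), fun l hdvd hl => ?_⟩
  obtain ⟨l', hldef⟩ := hdvd
  have hl' : ρ₀ + 1 ≤ l' := Nat.le_of_mul_le_mul_left (hldef ▸ hl) hN0
  have hρ : ρ₀ + 1 ≤ m * l' := hl'.trans (Nat.le_mul_of_pos_left _ (by omega))
  have hml : m * l = N * (m * l') := by rw [hldef]; ring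
  have hl1 : (1 : ℝ) ≤ l := by
    have : 0 < N * (ρ₀ + 1) := Nat.mul_pos hN0 (by omega)
    exact_mod_cast (by omega : 1 ≤ l)
  have hg := hρ₀ (m * l') (by omega)
  have e0 : ((N : ℤ) * ((m * l' : ℕ) : ℤ)) = (m : ℤ) * l := by exact_mod_cast hml.symm
  rw [e0] at hg
  have hlu : 1 ≤ u * lam / 8 := by
    have h1 : 8 / u ≤ lam := by
      have : 0 < 1 / (4 * c') := by positivity
      linarith
    rw [div_le_iff₀ hu0] at h1
    linarith
  have hj' : u * lam / 8 * κ / M = 4 * (c' * lam) := by rw [hc']; field_simp; ring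
  have hcl : 1 ≤ 4 * (c' * lam) := by
    have h1 : 1 / (4 * c') ≤ lam := by
      have : 0 < 8 / u := by positivity
      linarith
    rw [div_le_iff₀ (by positivity)] at h1
    linarith
  have hmain := hgen hN0 (by omega : 0 < m * l') hml hm40 hCg (σ := lam / (m * l))
    (j₀ := u * lam / 8) (k₀ := c' * (m * l)) (η := η') lam (by positivity)
    (key_num4 hlam2 hmr hl1) (by positivity)
    (by rw [← hκdef, hj']; exact hcl)
    (by
      have e : (m : ℝ) * l = N * ((m * l' : ℕ) : ℝ) := by exact_mod_cast hml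
      rw [div_lt_iff₀ hc'0] at hN
      rw [e, ← hc4]
      have := mul_le_mul_of_nonneg_right hN.le (Nat.cast_nonneg (α := ℝ) (m * l'))
      linarith) hη'0
    (by
      have e : (lam : ℝ) / (m * l) * u * (m * l) / 4 = 2 * (u * lam / 8) := by field_simp; ring
      rw [← hu, e]
      exact key_num1 hlu) hg (2 * (a0 * lam) * l)
    (by rw [← hκdef, ← hc4, ha0]; field_simp; ring)
  have hT : ((Th m).card : ℝ) ≤ 6 * m := by
    rw [card_Th]; push_cast; linarith
  have e1 : (lam : ℝ) / (m * l) * (c' * (m * l)) = c' * lam := by field_simp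
  rw [← hκdef, ← hc4, hj', e1] at hmain
  have hb3 : (6 * m : ℝ) * (a0 * lam) * (1 + 4 * Real.exp 1) * η' = η := by
    rw [hη']; field_simp
  have hnum := key_num3 (N := N) (c4 := c4) hlam2 hmr hl1 hC hc'0 ha00 hcc hc1 hη'0 hb3
    (Nat.cast_nonneg _) hT
  refine (ENNReal.mul_le_mul_iff_right (a := ENNReal.ofReal l)
    (ENNReal.ofReal_pos.2 (by linarith)).ne' ENNReal.ofReal_ne_top).1 ?_
  rw [← mul_assoc, ← ENNReal.ofReal_mul (by positivity), ← ENNReal.ofReal_mul (by positivity)]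
  refine le_trans (mul_le_mul_left (ENNReal.ofReal_le_ofReal ?_) _)
    (hmain.trans (ENNReal.ofReal_le_ofReal hnum))
  have := mul_le_mul_of_nonneg_left hca (show (0 : ℝ) ≤ l * lam by positivity)
  linarith

end Vale.Agent.P158
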