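import Vale.Agent.P158.Geo

/-! A geodesic spends a long time in few strips. -/

namespace Vale.Agent.P158

open Finset MeasureTheory Filter
open scoped NNReal ENNReal Classical Topology

lemma Pair_far (Q : Finset V) (r : V → V → Prop) {c k₀ : ℝ} (hk : 0 < k₀) (hc : 2 * c ≤ k₀)
    (hQ : k₀ ≤ Q.card) (h : ∀ a ∈ Q, ((Q.filter fun b => r a b).card : ℝ) ≤ c) :
    k₀ ^ 2 / 2 ≤ ((Q ×ˢ Q).filter fun e => ¬ r e.1 e.2).card := by
  have h1 : (Q.card : ℝ) * (Q.card - c) ≤ ((Q ×ˢ Q).filter fun e => ¬ r e.1 e.2).card := by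
    rw [card_filter, sum_product, Nat.cast_sum, ← nsmul_eq_mul]
    refine card_nsmul_le_sum _ _ _ fun a ha => ?_
    have h2 : ((Q.filter fun b => r a b).card : ℝ) + (Q.filter fun b => ¬ r a b).card = Q.card := by
      exact_mod_cast card_filter_add_card_filter_not _
    rw [← card_filter]
    linarith [h a ha]
  have h2 := mul_le_mul hQ (show k₀ / 2 ≤ Q.card - c by linarith) (by linarith) (by linarith)
  linarith

lemma Pair_diff {θ : Bool × ℤ} {m ℓ : ℤ} {a b s : V} (ha : a - s ∈ strip θ m (2 * ℓ) (10 * ℓ))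
    (hb : b - s ∈ strip θ m (2 * ℓ) (10 * ℓ)) : b - a ∈ strip θ m (4 * ℓ) (20 * ℓ) := by
  obtain ⟨a1, a2⟩ := ha
  obtain ⟨b1, b2⟩ := hb
  rw [← sub_sub_sub_cancel_right b a s]
  generalize a - s = u at *
  generalize b - s = v at *
  unfold strip
  rw [Set.mem_ofPred_eq, Geo_sw_sub, Prod.fst_sub, Prod.snd_sub]
  rw [abs_le] at *
  rw [abs_le]
  refine ⟨⟨?_, ?_⟩, ?_, ?_⟩ <;> linarith [a1.1, a1.2, a2.1, a2.2, b1.1, b1.2, b2.1, b2.2]

lemma Pair_slopes {m l N ρ : ℕ} (hN : 0 < N) (hρ : 0 < ρ) (hml : m * l = N * ρ)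
    (hm : 40 * N ≤ m) {x : V} (hx : x ∉ ball 0 ρ) :
    ((Th m).filter fun θ => x ∈ strip θ m (4 * (m * l)) (20 * (m * l))).card ≤
      2 * (80 * N + 1) := by
  have hN' : (0 : ℤ) < N := by exact_mod_cast hN
  have hm0 : (0 : ℤ) < m := by exact_mod_cast (show 0 < m by omega)
  have hml' : (m : ℤ) * l = N * ρ := by exact_mod_cast hml
  have hl : 40 * (l : ℤ) ≤ ρ := by
    have h1 : 40 * (N : ℤ) ≤ m := by exact_mod_cast hm
    have h2 := mul_le_mul_of_nonneg_right h1 (show (0 : ℤ) ≤ l by positivity)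
    exact le_of_mul_le_mul_left (by linarith) hN'
  have hbig : ∀ θ ∈ (Th m).filter fun θ => x ∈ strip θ m (4 * (m * l)) (20 * (m * l)),
      ρ < 2 * |(sw θ.1 x).1| := by
    intro θ hθ
    obtain ⟨h1, -, h2⟩ := mem_filter.1 hθ
    by_contra hc
    refine hx ((Geo_sw_ball (b := θ.1)).2 ⟨by omega, ?_⟩)
    have h3 : |θ.2 * (sw θ.1 x).1| ≤ m * |(sw θ.1 x).1| := by
      rw [abs_mul]
      exact mul_le_mul_of_nonneg_right (Geo_mem_Th.1 h1) (abs_nonneg _)
    have h4 : |m * (sw θ.1 x).2| ≤ m * (|(sw θ.1 x).1| + 20 * l) := by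
      rw [abs_le] at h2 h3 ⊢
      constructor <;> linarith [h2.1, h2.2, h3.1, h3.2]
    rw [abs_mul, abs_of_pos hm0] at h4
    have h5 := le_of_mul_le_mul_left h4 hm0
    omega
  refine (card_le_mul_card_image_of_maps_to (f := Prod.fst) (t := (univ : Finset Bool))
    (fun _ _ => mem_univ _) (80 * N + 1) fun b _ => ?_).trans (by simp [mul_comm])
  have h1 := Geo_card ((((Th m).filter fun θ =>
      x ∈ strip θ m (4 * (m * l)) (20 * (m * l))).filter fun θ => θ.1 = b).image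
      fun θ => ((θ.2, 0) : V)) (fun i => (i, 0)) (fun _ => True) (B := 80 * N + 1)
    (by positivity) (fun v hv => ?_) fun i j _ _ hij hi hj => ?_
  · rw [card_image_of_injOn fun θ hθ θ' hθ' h =>
      Prod.ext ((mem_filter.1 hθ).2.trans (mem_filter.1 hθ').2.symm) (congrArg Prod.fst h)] at h1
    exact_mod_cast h1
  · obtain ⟨θ, -, rfl⟩ := mem_image.1 hv
    exact ⟨θ.2, trivial, rfl⟩
  · obtain ⟨θ, h2, h3⟩ := mem_image.1 hi
    obtain ⟨θ', h4, h5⟩ := mem_image.1 hj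
    obtain ⟨a1, a2⟩ := mem_filter.1 h2
    obtain ⟨b1, b2⟩ := mem_filter.1 h4
    have c1 := hbig θ a1
    have c2 := (mem_filter.1 a1).2.2
    have c3 := (mem_filter.1 b1).2.2
    rw [a2] at c1 c2
    rw [b2] at c3
    rw [show θ.2 = i from congrArg Prod.fst h3] at c2
    rw [show θ'.2 = j from congrArg Prod.fst h5] at c3
    have c4 : |(j - i) * (sw b x).1| ≤ 40 * (N * ρ) := by
      rw [abs_le] at c2 c3 ⊢
      constructor <;> linarith [c2.1, c2.2, c3.1, c3.2]
    rw [abs_mul, abs_of_nonneg (sub_nonneg.2 hij)] at c4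
    have c5 := mul_le_mul_of_nonneg_left c1.le (sub_nonneg.2 hij)
    have c6 : j - i ≤ 80 * N :=
      le_of_mul_le_mul_right (by linarith) (show (0 : ℤ) < ρ by exact_mod_cast hρ)
    exact_mod_cast (show j - i + 1 ≤ 80 * N + 1 by linarith)

/-- Abstract pair count. `P` is the vertex set of a path. -/
theorem pair (P : Finset V) (gd : V → Prop) {m l N ρ : ℕ} (hN : 0 < N) (hρ : 0 < ρ)
    (hml : m * l = N * ρ) (hm : 40 * N ≤ m) {c₁ c₂ k₀ : ℝ} (hk : 0 < k₀) (hc : 2 * c₁ ≤ k₀)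
    (hc₂ : 0 ≤ c₂)
    (h1 : ∀ a ∈ P, gd a → ((P.filter fun v => v ∈ ball a ρ).card : ℝ) ≤ c₁)
    (h2 : ∀ a ∈ P, gd a → ((P.filter fun v => v ∈ ball a (24 * (m * l))).card : ℝ) ≤ c₂)
    (C : Finset V) :
    (((Th m ×ˢ C).filter fun p => (∀ v ∈ P, v - p.2 ∈ D2 p.1 m (m * l) → gd v) ∧
        k₀ ≤ (P.filter fun v => v - p.2 ∈ D2 p.1 m (m * l)).card).card : ℝ) * (k₀ ^ 2 / 2) ≤
      P.card * c₂ * (2 * (80 * N + 1)) * (105 * (m * l * l)) := by
  have hm0 : 0 < m := by omega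
  have hl0 : 0 < l := Nat.pos_of_mul_pos_left (hml ▸ Nat.mul_pos hN hρ)
  set A := (Th m ×ˢ C).filter fun p => (∀ v ∈ P, v - p.2 ∈ D2 p.1 m (m * l) → gd v) ∧
    k₀ ≤ (P.filter fun v => v - p.2 ∈ D2 p.1 m (m * l)).card with hA
  set B := (P ×ˢ P).filter fun e => gd e.1 ∧ e.2 ∈ ball e.1 (24 * (m * l)) ∧ e.2 ∉ ball e.1 ρ
    with hB
  have hd := sum_card_bipartiteAbove_eq_sum_card_bipartiteBelow (s := A) (t := B)
    (fun p e => e.1 - p.2 ∈ D2 p.1 m (m * l) ∧ e.2 - p.2 ∈ D2 p.1 m (m * l))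
  have h3 : ∀ p ∈ A, k₀ ^ 2 / 2 ≤ ((B.bipartiteAbove
      (fun p e => e.1 - p.2 ∈ D2 p.1 m (m * l) ∧ e.2 - p.2 ∈ D2 p.1 m (m * l)) p).card : ℝ) := by
    intro p hp
    obtain ⟨-, hp1, hp2⟩ := mem_filter.1 hp
    refine (Pair_far (P.filter fun v => v - p.2 ∈ D2 p.1 m (m * l)) (fun a b => b ∈ ball a ρ) hk
      hc hp2 fun a ha => ?_).trans (Nat.cast_le.2 (card_le_card fun e he => ?_))
    · obtain ⟨a1, a2⟩ := mem_filter.1 ha
      exact le_trans (Nat.cast_le.2 (card_le_card (filter_subset_filter _ (filter_subset _ _))))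
        (h1 a a1 (hp1 a a1 a2))
    · obtain ⟨e1, e2⟩ := mem_filter.1 he
      obtain ⟨e3, e4⟩ := mem_product.1 e1
      obtain ⟨a1, a2⟩ := mem_filter.1 e3
      obtain ⟨b1, b2⟩ := mem_filter.1 e4
      refine mem_filter.2 ⟨mem_filter.2 ⟨mem_product.2 ⟨a1, b1⟩, hp1 _ a1 a2, ?_, e2⟩, a2, b2⟩
      have c1 := mem_ball.1 (mem_ballF.1 (mem_filter.1 a2).1)
      have c2 := mem_ball.1 (mem_ballF.1 (mem_filter.1 b2).1)
      simp only [Prod.fst_sub, Prod.snd_sub, Prod.fst_zero, Prod.snd_zero] at c1 c2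
      rw [mem_ball]
      omega
  have h4 : ∀ e ∈ B, (A.bipartiteBelow
      (fun p e => e.1 - p.2 ∈ D2 p.1 m (m * l) ∧ e.2 - p.2 ∈ D2 p.1 m (m * l)) e).card ≤
      2 * (80 * N + 1) * (105 * (m * l * l)) := by
    intro e he
    have e1 := (mem_filter.1 he).2.2.2
    refine (card_le_mul_card_image_of_maps_to (f := Prod.fst)
      (t := (Th m).filter fun θ => e.2 - e.1 ∈ strip θ m (4 * (m * l)) (20 * (m * l)))
      (fun p hp => ?_) (105 * (m * l * l)) fun θ _ => ?_).trans ?_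
    · obtain ⟨p1, p2, p3⟩ := mem_filter.1 hp
      refine mem_filter.2 ⟨(mem_product.1 (mem_filter.1 p1).1).1, ?_⟩
      exact Pair_diff (mem_filter.1 p2).2 (mem_filter.1 p3).2
    · refine le_trans (card_le_card_of_injOn (fun p => e.1 - p.2) (fun p hp => ?_)
        fun p hp p' hp' h => ?_) (card_D2 θ hm0 hl0)
      · obtain ⟨p1, rfl⟩ := mem_filter.1 hp
        exact (mem_filter.1 p1).2.1
      · exact Prod.ext ((mem_filter.1 hp).2.trans (mem_filter.1 hp').2.symm)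
          (sub_right_injective h)
    · rw [mul_comm]
      refine Nat.mul_le_mul_right _ (Pair_slopes hN hρ hml hm fun h => e1 ?_)
      exact ball_shift (s := -e.1) |>.2 (by rwa [add_neg_cancel, ← sub_eq_add_neg])
  have h5 : (B.card : ℝ) ≤ P.card * c₂ := by
    rw [card_eq_sum_card_fiberwise (f := Prod.fst) (t := P)
      fun e he => (mem_product.1 (mem_filter.1 he).1).1, Nat.cast_sum]
    refine (sum_le_card_nsmul P _ c₂ fun a ha => ?_).trans (nsmul_eq_mul _ _).le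
    by_cases hg : gd a
    · refine le_trans (Nat.cast_le.2 (card_le_card_of_injOn Prod.snd (fun e he => ?_)
        fun e he e' he' h => ?_)) (h2 a ha hg)
      · obtain ⟨e1, rfl⟩ := mem_filter.1 he
        obtain ⟨e2, -, e3, -⟩ := mem_filter.1 e1
        exact mem_filter.2 ⟨(mem_product.1 e2).2, e3⟩
      · exact Prod.ext ((mem_filter.1 he).2.trans (mem_filter.1 he').2.symm) h
    · rw [filter_eq_empty_iff.2, card_empty, Nat.cast_zero]
      · exact hc₂
      · rintro e he rfl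
        exact hg (mem_filter.1 he).2.1
  have h6 := card_nsmul_le_sum _ _ _ h3
  have h7 := sum_le_card_nsmul _ _ _ h4
  rw [← hd, smul_eq_mul] at h7
  rw [← Nat.cast_sum, nsmul_eq_mul] at h6
  have h8 := h6.trans (Nat.cast_le.2 h7)
  push_cast at h8
  refine h8.trans ?_
  rw [mul_assoc (P.card * c₂)]
  exact mul_le_mul_of_nonneg_right h5 (by positivity)

/-- Edges of a geodesic in a translated strip are at most its vertices there. -/
theorem cntE_le {S : Set V} {w : Wt} (hw : Nice w) (hS : Conn S) {x y : V} (hx : x ∈ S)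
    (hy : y ∈ S) (F D : Finset V) (hF : ∀ v ∈ S, v ∈ F) (s : V) :
    cntE S w x y ((edgesF D).image fun e => e.map (· + s)) ≤
      ((F.filter fun v => On S w x v y).filter fun v => v - s ∈ D).card := by
  obtain ⟨f, lo, hi, h, -, -, -⟩ := exists_geoFn hw hS hx hy (on_left hw.nn hx)
  have key : ∀ e ∈ ((edgesF D).image fun e => e.map (· + s)).filter fun e => EdgeOn S w x y e,
      ∃ i, lo ≤ i ∧ i < hi ∧ e = s(f i, f (i + 1)) ∧ f i - s ∈ D := by
    intro e he
    obtain ⟨h1, h2⟩ := mem_filter.1 he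
    obtain ⟨i, i1, i2, i3⟩ := (h.edge_iff hw hS).1 h2
    obtain ⟨e', e1, e2⟩ := mem_image.1 h1
    obtain ⟨a, b, rfl, -, ha, hb⟩ := mem_edgesF.1 e1
    refine ⟨i, i1, i2, i3, ?_⟩
    rw [i3, Sym2.map_mk, Sym2.eq_iff] at e2
    rcases e2 with e2 | e2
    · rwa [← e2.1, add_sub_cancel_right]
    · rwa [← e2.2, add_sub_cancel_right]
  choose! ix k1 k2 k3 k4 using key
  refine card_le_card_of_injOn (fun e => f (ix e)) (fun e he => ?_) fun e he e' he' hh => ?_
  · exact mem_filter.2 ⟨mem_filter.2 ⟨hF _ (h.mem _ (k1 e he) (k2 e he).le),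
      (h.on_iff hw hS).2 ⟨_, k1 e he, (k2 e he).le, rfl⟩⟩, k4 e he⟩
  · have h1 := (h.pathFn hw.pos).2 ⟨k1 e he, (k2 e he).le⟩ ⟨k1 e' he', (k2 e' he').le⟩ hh
    rw [k3 e he, k3 e' he', h1]

theorem sum_card_strip (P D C : Finset V) :
    ∑ s ∈ C, (P.filter fun v => v - s ∈ D).card ≤ P.card * D.card := by
  have h1 := sum_card_bipartiteAbove_eq_sum_card_bipartiteBelow (s := C) (t := P)
    (fun s v => v - s ∈ D)
  refine h1.le.trans (sum_le_card_nsmul _ _ _ fun v _ => ?_)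
  exact card_le_card_of_injOn (fun s => v - s) (fun s hs => (mem_filter.1 hs).2)
    fun s _ s' _ h => sub_right_injective h

theorem cntE_shift {S S' : Set V} {s x y : V} {w : Wt} (h : ∀ v, v ∈ S ↔ v + s ∈ S')
    (J : Finset (Sym2 V)) :
    cntE S (shiftW s w) x y J = cntE S' w (x + s) (y + s) (J.image fun e => e.map (· + s)) := by
  have hi : Function.Injective fun e : Sym2 V => e.map (· + s) :=
    Sym2.map.injective (add_left_injective s)
  unfold cntE
  rw [filter_image, card_image_of_injective _ hi]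
  congr 1
  refine filter_congr fun e _ => ⟨?_, ?_⟩
  · rintro ⟨a, b, rfl, h1⟩
    exact ⟨a + s, b + s, rfl, (DartOn_shift h).1 h1⟩
  · rintro ⟨a, b, h0, h1⟩
    refine ⟨a - s, b - s, hi ?_, (DartOn_shift h).2 (by rwa [sub_add_cancel, sub_add_cancel])⟩
    simp only [h0, Sym2.map_mk, sub_add_cancel]

/-- The cell weight used in the upper bound. -/
noncomputable def phi (k₀ β : ℝ) (k : ℕ) : ℝ := ind (k₀ ≤ k) + β * k

lemma Pair_ind {p q : Prop} (h : p → q) : ind p ≤ ind q := by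
  unfold ind
  split_ifs <;> simp_all

lemma Pair_sum_ind {α : Type*} (s : Finset α) (p : α → Prop) [DecidablePred p] :
    ∑ x ∈ s, ind (p x) = (s.filter p).card := by
  rw [← sum_boole]
  exact sum_congr rfl fun x _ => by unfold ind; congr

lemma Pair_ind0 (p : Prop) : 0 ≤ ind p := by
  unfold ind
  split_ifs <;> simp

/-- Sum over all strips and all central translates of the cell weights. -/
theorem pair_sum {w : Wt} (hw : Nice w) {o x y : V} {n : ℤ} (hx : x ∈ box o n)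
    (hy : y ∈ box o n) {m l N ρ Cg : ℕ} (hN : 0 < N) (hρ : 0 < ρ) (hml : m * l = N * ρ)
    (hm : 40 * N ≤ m) (hC : 0 < Cg) {q M k₀ β : ℝ} (hq : 0 < q) (hβ : 0 ≤ β)
    (hk : 2 * ((2 * Cg / q + 2) * ρ) ≤ k₀) (C : Finset V)
    (hCs : ∀ s ∈ C, ball s (24 * (m * l) + Cg * (24 * (m * l))) ⊆ box o n) :
    ∑ s ∈ C, ∑ θ ∈ Th m, ind (Good Cg q M w s ρ (m * l)) *
        phi k₀ β (cntE (box o n) w x y ((edgesF (D2 θ m (m * l))).image fun e => e.map (· + s))) ≤
      cntOn (box o n) w x y (boxF o n) * (105 * (m * l * l)) *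
        ((2 * Cg / q + 2) * (24 * (m * l)) * (2 * (80 * N + 1)) * 2 / k₀ ^ 2 +
          β * (2 * (2 * m + 1))) := by
  have hm0 : 0 < m := by omega
  have hl0 : 0 < l := Nat.pos_of_mul_pos_left (hml ▸ Nat.mul_pos hN hρ)
  have hρ' : (0 : ℝ) < ρ := by exact_mod_cast hρ
  have hk0 : 0 < k₀ := lt_of_lt_of_le (by positivity) hk
  have hL : (0 : ℤ) < m * l := by positivity
  have hρL : (ρ : ℤ) ≤ m * l := by
    exact_mod_cast hml ▸ Nat.le_mul_of_pos_left ρ hN
  set P := (boxF o n).filter fun v => On (box o n) w x v y with hP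
  have hvis : ∀ (a : V) (r : ℤ), 0 < r → GoodPt Cg q M w a r → ball a (Cg * r) ⊆ box o n →
      ((P.filter fun v => v ∈ ball a r).card : ℝ) ≤ (2 * Cg / q + 2) * r := by
    intro a r hr hg hs
    refine le_trans (Nat.cast_le.2 (card_le_card fun v hv => ?_))
      (vis hw conn_box hq hr hC hg hs hx hy)
    exact mem_filter.2 ⟨mem_ballF.2 (mem_filter.1 hv).2, (mem_filter.1 (mem_filter.1 hv).1).2⟩
  have h1 := pair P (fun v => ((P.filter fun u => u ∈ ball v ρ).card : ℝ) ≤ (2 * Cg / q + 2) * ρ ∧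
      ((P.filter fun u => u ∈ ball v (24 * (m * l))).card : ℝ) ≤ (2 * Cg / q + 2) * (24 * (m * l)))
    hN hρ hml hm hk0 hk (by positivity) (fun _ _ h => h.1) (fun _ _ h => h.2) C
  have h2 : ∀ s ∈ C, ∀ θ ∈ Th m, ind (Good Cg q M w s ρ (m * l)) *
      phi k₀ β (cntE (box o n) w x y ((edgesF (D2 θ m (m * l))).image fun e => e.map (· + s))) ≤
      ind ((∀ v ∈ P, v - s ∈ D2 θ m (m * l) →
        ((P.filter fun u => u ∈ ball v ρ).card : ℝ) ≤ (2 * Cg / q + 2) * ρ ∧
        ((P.filter fun u => u ∈ ball v (24 * (m * l))).card : ℝ) ≤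
          (2 * Cg / q + 2) * (24 * (m * l))) ∧
        k₀ ≤ (P.filter fun v => v - s ∈ D2 θ m (m * l)).card) +
      β * (P.filter fun v => v - s ∈ D2 θ m (m * l)).card := by
    intro s hs θ _
    have h3 : (cntE (box o n) w x y ((edgesF (D2 θ m (m * l))).image fun e => e.map (· + s)) : ℝ) ≤
        (P.filter fun v => v - s ∈ D2 θ m (m * l)).card :=
      Nat.cast_le.2 (cntE_le hw conn_box hx hy _ _ (fun v hv => mem_boxF.2 hv) s)
    have h4 := mul_le_mul_of_nonneg_left h3 hβ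
    have h5 : 0 ≤ β * (P.filter fun v => v - s ∈ D2 θ m (m * l)).card := by positivity
    unfold phi
    by_cases hg : Good Cg q M w s ρ (m * l)
    · rw [ind, if_pos hg, one_mul]
      refine add_le_add (Pair_ind fun hk' => ⟨fun v _ hv => ?_, hk'.trans h3⟩) h4
      have c1 := mem_ball.1 (mem_ballF.1 (mem_filter.1 hv).1)
      simp only [Prod.fst_sub, Prod.snd_sub, Prod.fst_zero, Prod.snd_zero] at c1
      have c2 := hg v (by rw [mem_ball]; omega)
      have c3 : ∀ r : ℤ, r ≤ 24 * (m * l) → ball v (Cg * r) ⊆ box o n := by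
        intro r hr u hu
        have c4 := mul_le_mul_of_nonneg_left hr (show (0 : ℤ) ≤ Cg by positivity)
        refine hCs s hs ?_
        rw [mem_ball] at hu ⊢
        omega
      have c5 := hvis v ρ (by exact_mod_cast hρ) c2.1 (c3 _ (by omega))
      have c6 := hvis v (24 * (m * l)) (by omega) c2.2 (c3 _ le_rfl)
      push_cast at c5 c6
      exact ⟨c5, c6⟩
    · rw [ind, if_neg hg, zero_mul]
      exact add_nonneg (Pair_ind0 _) h5
  refine (sum_le_sum fun s hs => sum_le_sum fun θ hθ => h2 s hs θ hθ).trans ?_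
  simp only [sum_add_distrib]
  rw [sum_comm, ← sum_product', sum_comm (s := C), mul_add]
  refine add_le_add ?_ ?_
  · rw [← Pair_sum_ind (Th m ×ˢ C)] at h1
    rw [← mul_div_assoc, le_div_iff₀ (by positivity)]
    have h3 : cntOn (box o n) w x y (boxF o n) = P.card := rfl
    rw [h3]
    linarith
  · have h3 : ∀ θ ∈ Th m, ∑ s ∈ C, β * ((P.filter fun v => v - s ∈ D2 θ m (m * l)).card : ℝ) ≤
        β * (P.card * (105 * (m * l * l))) := by
      intro θ _
      rw [← mul_sum]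
      refine mul_le_mul_of_nonneg_left ?_ hβ
      exact_mod_cast (sum_card_strip P _ C).trans (Nat.mul_le_mul_left _ (card_D2 θ hm0 hl0))
    refine (sum_le_card_nsmul _ _ _ h3).trans (le_of_eq ?_)
    rw [card_Th, nsmul_eq_mul]
    unfold cntOn
    push_cast
    ring

end Vale.Agent.P158
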