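import Vale.Agent.P158.Mix

/-! The perturbation: change of measure and the two binomial tails. -/

namespace Vale.Agent.P158

open Finset MeasureTheory Filter
open scoped NNReal ENNReal Classical Topology

variable {G : Measure ℝ≥0} [IsProbabilityMeasure G]

theorem wf_nonneg {σ : ℝ} (h0 : 0 ≤ σ) (h1 : σ ≤ 1) (A J : Finset (Sym2 V)) : 0 ≤ wf σ A J :=
  mul_nonneg (pow_nonneg h0 _) (pow_nonneg (sub_nonneg.2 h1) _)

theorem Pert_gen (σ c : ℝ) (A S : Finset (Sym2 V)) :
    ∑ J ∈ A.powerset, wf σ A J * c ^ (J ∩ S).card = (1 + σ * (c - 1)) ^ (A ∩ S).card := by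
  have h := prod_add (fun i => σ * if i ∈ S then c else 1) (fun _ => 1 - σ) A
  have e : ∀ i, (σ * if i ∈ S then c else 1) + (1 - σ) = if i ∈ S then 1 + σ * (c - 1) else 1 := by
    intro i
    split_ifs <;> ring
  simp only [e, prod_mul_distrib, prod_ite_mem, prod_const] at h
  rw [h]
  exact sum_congr rfl fun J _ => by rw [wf, mul_right_comm]

theorem sum_wf (σ : ℝ) (A : Finset (Sym2 V)) : ∑ J ∈ A.powerset, wf σ A J = 1 := by
  simpa using Pert_gen σ 1 A ∅

theorem Pert_meas {α : Type*} [MeasurableSpace α] {D : α → Finset (Sym2 V)}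
    (hD : ∀ T, MeasurableSet {a | D a = T}) {F : α → Finset (Sym2 V) → ℝ≥0∞}
    (hF : ∀ T, Measurable fun a => F a T) : Measurable fun a => F a (D a) := fun s hs => by
  convert MeasurableSet.iUnion fun T => (hD T).inter (hF T hs)
  ext a
  simp

theorem Pert_DA (E : Finset (Sym2 V)) {A U : Set ℝ≥0} (hA : MeasurableSet A)
    (hU : MeasurableSet U) (T : Finset (Sym2 V)) :
    MeasurableSet {p : Om × Om | DA E A U p.1 p.2 = T} := by
  simp only [DA, Finset.ext_iff, mem_filter]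
  exact measurableSet_setOfPred.2 (Measurable.forall fun e => (measurable_const.and
    ((hA.mem.comp ((measurable_pi_apply e).comp measurable_fst)).and
      (hU.mem.comp ((measurable_pi_apply e).comp measurable_snd)))).iff measurable_const)

theorem measurable_sum_DA (E : Finset (Sym2 V)) {A U : Set ℝ≥0} (hA : MeasurableSet A)
    (hU : MeasurableSet U) (σ : ℝ) (Z : Om × Om → Finset (Sym2 V) → ℝ≥0∞)
    (hZ : ∀ J, Measurable fun p => Z p J) :
    Measurable fun p : Om × Om => ∑ J ∈ (DA E A U p.1 p.2).powerset,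
      ENNReal.ofReal (wf σ (DA E A U p.1 p.2) J) * Z p J :=
  Pert_meas (Pert_DA E hA hU) (F := fun p D => ∑ J ∈ D.powerset,
    ENNReal.ofReal (wf σ D J) * Z p J) fun _ =>
      Finset.measurable_sum _ fun J _ => (hZ J).const_mul _

theorem Pert_swap (E : Finset (Sym2 V)) {A U : Set ℝ≥0} (hA : MeasurableSet A)
    (hU : MeasurableSet U) (hAU : Disjoint A U) (σ : ℝ)
    (Z : Om → Finset (Sym2 V) → ℝ≥0∞) (hZ : ∀ J, Measurable fun x => Z x J) (Y : ℝ≥0∞) :
    ∫⁻ p, ∑ J ∈ (DA E A U p.1 p.2).powerset,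
        ENNReal.ofReal (wf σ (DA E A U p.1 p.2) J) * min (Z (mix J p.2 p.1) J) Y
        ∂(PP G).prod (PP G) =
      ∫⁻ p, ∑ J ∈ (DA E U A p.1 p.2).powerset,
        ENNReal.ofReal (σ ^ J.card * (1 - σ) ^ (DA E A U p.1 p.2).card) * min (Z p.1 J) Y
        ∂(PP G).prod (PP G) := by
  let Φ : Finset (Sym2 V) → Om × Om → ℝ≥0∞ := fun J p => if J ⊆ DA E U A p.1 p.2 then
    ENNReal.ofReal (σ ^ J.card * (1 - σ) ^ (DA E A U p.1 p.2).card) * min (Z p.1 J) Y else 0
  have hΦ : ∀ J, Measurable (Φ J) := fun J =>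
    Pert_meas (Pert_DA E hU hA) (F := fun p D => if J ⊆ D then
      ENNReal.ofReal (σ ^ J.card * (1 - σ) ^ (DA E A U p.1 p.2).card) * min (Z p.1 J) Y else 0)
      fun D => by
        split_ifs
        · exact (Pert_meas (Pert_DA E hA hU) (F := fun _ D =>
            ENNReal.ofReal (σ ^ J.card * (1 - σ) ^ D.card)) fun _ => measurable_const).mul
            (((hZ J).comp measurable_fst).min measurable_const)
        · exact measurable_const
  have hs : ∀ (A U : Set ℝ≥0) (x y : Om) (f : Finset (Sym2 V) → ℝ≥0∞),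
      ∑ J ∈ (DA E A U x y).powerset, f J =
        ∑ J ∈ E.powerset, if J ⊆ DA E A U x y then f J else 0 := fun A U x y f => by
    rw [← sum_filter]
    refine sum_congr (Finset.ext fun J => ?_) fun _ _ => rfl
    rw [mem_filter, mem_powerset, mem_powerset, iff_and_self]
    exact fun h => h.trans (filter_subset _ _)
  simp only [hs]
  have k1 : ∀ J : Finset (Sym2 V), Measurable fun p : Om × Om =>
      Φ J (mix J p.2 p.1, mix J p.1 p.2) := fun J =>
    (hΦ J).comp (swap_mp (G := G) (J : Set (Sym2 V))).measurable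
  refine Eq.trans ?_ ((lintegral_finsetSum _ fun J _ => k1 J).trans ((sum_congr rfl
    fun (J : Finset (Sym2 V)) _ => (swap_mp (J : Set (Sym2 V))).lintegral_comp (hΦ J)).trans
      (lintegral_finsetSum _ fun J _ => hΦ J).symm))
  refine lintegral_congr fun p => sum_congr rfl fun J _ => ?_
  have e1 : J ⊆ DA E U A (mix J p.2 p.1) (mix J p.1 p.2) ↔ J ⊆ DA E A U p.1 p.2 :=
    forall₂_congr fun e he => by simp [DA, mix, he, and_comm]
  refine ite_congr (propext e1.symm) (fun h => ?_) fun _ => rfl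
  have e2 : DA E A U (mix J p.2 p.1) (mix J p.1 p.2) = DA E A U p.1 p.2 \ J := by
    ext e
    by_cases he : e ∈ J
    · have := mem_filter.1 (e1.1 h he)
      simp [DA, mix, he, Set.disjoint_right.1 hAU this.2.2]
    · simp [DA, mix, he]
  rw [e2, wf]

theorem Pert_point (D : Finset (Sym2 V)) (d : ℕ) {σ τ : ℝ} (h0 : 0 ≤ σ) (h1 : σ ≤ τ)
    (h2 : 1 - σ = Real.exp (-τ)) (k : ℕ) (Z : Finset (Sym2 V) → ℝ≥0∞) (Y : ℝ≥0∞) :
    ∑ J ∈ D.powerset, ENNReal.ofReal (σ ^ J.card * (1 - σ) ^ d) * min (Z J) Y ≤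
      ENNReal.ofReal (Real.exp 1) * ∑ J ∈ D.powerset, ENNReal.ofReal (wf σ D J) * Z J +
        Y * ENNReal.ofReal (Real.exp (-k)) *
          ENNReal.ofReal (Real.exp ((k + 1) * τ * (D.card - d))) := by
  have hp : 0 < 1 - σ := h2 ▸ Real.exp_pos _
  rcases le_total (τ * (D.card - d)) 1 with h | h
  · refine le_trans ?_ le_self_add
    rw [mul_sum]
    refine sum_le_sum fun J _ => ?_
    rw [← mul_assoc, ← ENNReal.ofReal_mul (Real.exp_pos _).le]
    refine mul_le_mul' (ENNReal.ofReal_le_ofReal ?_) (min_le_left _ _)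
    rw [wf, mul_left_comm]
    refine mul_le_mul_of_nonneg_left (le_trans ?_ (mul_le_mul_of_nonneg_left
      (pow_le_pow_of_le_one hp.le (by linarith) (card_le_card sdiff_subset))
      (Real.exp_pos _).le)) (pow_nonneg h0 _)
    rw [h2, ← Real.exp_nat_mul, ← Real.exp_nat_mul, ← Real.exp_add]
    exact Real.exp_le_exp.2 (by linarith)
  · refine le_trans ?_ le_add_self
    refine (sum_le_sum fun J _ => mul_le_mul_right (min_le_right _ _) _).trans ?_
    rw [← sum_mul, ← ENNReal.ofReal_sum_of_nonneg fun J _ => by positivity, mul_comm, mul_assoc,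
      ← ENNReal.ofReal_mul (Real.exp_pos _).le, ← sum_mul, ← Real.exp_add]
    refine mul_le_mul_right (ENNReal.ofReal_le_ofReal ?_) _
    have e : ∑ J ∈ D.powerset, σ ^ J.card = (σ + 1) ^ D.card := by
      simpa using sum_pow_mul_eq_add_pow σ 1 D
    rw [e, h2]
    refine (mul_le_mul_of_nonneg_right (pow_le_pow_left₀ (by linarith)
      ((Real.add_one_le_exp σ).trans (Real.exp_le_exp.2 h1)) _) (by positivity)).trans ?_
    rw [← Real.exp_nat_mul, ← Real.exp_nat_mul, ← Real.exp_add]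
    refine Real.exp_le_exp.2 ?_
    nlinarith [mul_le_mul_of_nonneg_left h (Nat.cast_nonneg k : (0 : ℝ) ≤ k)]

theorem Pert_mgf_meas (E : Finset (Sym2 V)) {A U : Set ℝ≥0} (hA : MeasurableSet A)
    (hU : MeasurableSet U) (θ : ℝ) : Measurable fun p : Om × Om => ENNReal.ofReal
      (Real.exp (θ * ((DA E U A p.1 p.2).card - (DA E A U p.1 p.2).card))) :=
  Pert_meas (Pert_DA E hU hA) (F := fun p D => ENNReal.ofReal
    (Real.exp (θ * (D.card - (DA E A U p.1 p.2).card)))) fun D =>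
      Pert_meas (Pert_DA E hA hU) (F := fun _ D' => ENNReal.ofReal
        (Real.exp (θ * (D.card - D'.card)))) fun _ => measurable_const

theorem Pert_mgf (E : Finset (Sym2 V)) {A U : Set ℝ≥0} (hA : MeasurableSet A)
    (hU : MeasurableSet U) (θ : ℝ) :
    ∫⁻ p, ENNReal.ofReal (Real.exp (θ * ((DA E U A p.1 p.2).card - (DA E A U p.1 p.2).card)))
      ∂(PP G).prod (PP G) ≤ ENNReal.ofReal (Real.exp (θ ^ 2 / 2 * E.card)) := by
  let a : ℝ≥0 × ℝ≥0 → ℝ := fun z => if z.1 ∈ U ∧ z.2 ∈ A then 1 else 0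
  have ha : Measurable a := Measurable.ite ((measurable_fst hU).inter (measurable_snd hA))
    measurable_const measurable_const
  let g : ℝ≥0 × ℝ≥0 → ℝ≥0∞ := fun z => ENNReal.ofReal (Real.exp (θ * (a z - a z.swap)))
  have hg : Measurable g :=
    ((ha.sub (ha.comp measurable_swap)).const_mul θ).exp.ennreal_ofReal
  have e : ∀ p : Om × Om, ENNReal.ofReal (Real.exp (θ * ((DA E U A p.1 p.2).card -
      (DA E A U p.1 p.2).card))) = ∏ e ∈ E, g (p.1 e, p.2 e) := fun p => by
    rw [← ENNReal.ofReal_prod_of_nonneg fun _ _ => (Real.exp_pos _).le, ← Real.exp_sum,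
      ← mul_sum, sum_sub_distrib]
    simp [a, DA, and_comm]
  have h1 : ∫⁻ z, g z ∂G.prod G ≤ ENNReal.ofReal (Real.exp (θ ^ 2 / 2)) := by
    rw [← ENNReal.mul_le_mul_iff_right (a := 2) (by norm_num) (by norm_num), two_mul]
    nth_rw 2 [← lintegral_prod_swap]
    rw [← lintegral_add_left hg]
    refine (lintegral_mono (g := fun _ => 2 * ENNReal.ofReal (Real.exp (θ ^ 2 / 2)))
      fun z => ?_).trans (by simp)
    have k1 : (a z - a z.swap) ^ 2 ≤ 1 := by
      simp only [a]
      split_ifs <;> norm_num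
    have k2 := Real.cosh_le_exp_half_sq (θ * (a z - a z.swap))
    have k3 : Real.exp ((θ * (a z - a z.swap)) ^ 2 / 2) ≤ Real.exp (θ ^ 2 / 2) :=
      Real.exp_le_exp.2 (by nlinarith [sq_nonneg θ])
    rw [Real.cosh_eq, ← mul_neg, neg_sub] at k2
    simp only [g, Prod.swap_swap]
    rw [← ENNReal.ofReal_add (Real.exp_pos _).le (Real.exp_pos _).le, ← ENNReal.ofReal_ofNat,
      ← ENNReal.ofReal_mul zero_le_two]
    exact ENNReal.ofReal_le_ofReal (by linarith)
  simp only [e]
  rw [lintegral_prod (fun p : Om × Om => ∏ e ∈ E, g (p.1 e, p.2 e))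
    (Finset.measurable_prod _ fun e _ => hg.comp
      (((measurable_pi_apply e).comp measurable_fst).prodMk
        ((measurable_pi_apply e).comp measurable_snd))).aemeasurable]
  simp only [fun x : Om => lintegral_prod_coord (G := G) E (fun e t => g (x e, t))
    fun e => hg.comp measurable_prodMk_left]
  rw [lintegral_prod_coord E (fun _ s => ∫⁻ t, g (s, t) ∂G) fun _ => hg.lintegral_prod_right',
    ← lintegral_prod _ hg.aemeasurable, prod_const, mul_comm, Real.exp_nat_mul,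
    ENNReal.ofReal_pow (Real.exp_pos _).le]
  exact pow_le_pow_left₀ zero_le h1 _

theorem pert (E : Finset (Sym2 V)) {A U : Set ℝ≥0} (hA : MeasurableSet A) (hU : MeasurableSet U)
    (hAU : Disjoint A U) {σ : ℝ} (h0 : 0 < σ) (h1 : σ ≤ 1 / 2) (k : ℕ)
    (Z : Om → Finset (Sym2 V) → ℝ≥0∞) (hZ : ∀ J, Measurable fun x => Z x J) (Y : ℝ≥0∞) :
    ∫⁻ p, ∑ J ∈ (DA E A U p.1 p.2).powerset,
        ENNReal.ofReal (wf σ (DA E A U p.1 p.2) J) * min (Z (mix J p.2 p.1) J) Y
        ∂(PP G).prod (PP G) ≤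
      ENNReal.ofReal (Real.exp 1) * ∫⁻ p, ∑ J ∈ (DA E U A p.1 p.2).powerset,
        ENNReal.ofReal (wf σ (DA E U A p.1 p.2) J) * Z p.1 J ∂(PP G).prod (PP G) +
      Y * ENNReal.ofReal (Real.exp (2 * (k + 1) ^ 2 * σ ^ 2 * E.card - k)) := by
  obtain ⟨τ, hτ0, hτ1, hτ2⟩ : ∃ τ : ℝ, σ ≤ τ ∧ τ ≤ 2 * σ ∧ 1 - σ = Real.exp (-τ) := by
    have hp : 0 < 1 - σ := by linarith
    refine ⟨-Real.log (1 - σ), by linarith [Real.log_le_sub_one_of_pos hp], ?_,
      by rw [neg_neg, Real.exp_log hp]⟩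
    have k1 := Real.one_sub_inv_le_log_of_pos hp
    have k2 : (1 - σ)⁻¹ ≤ 1 + 2 * σ := by
      rw [inv_le_iff_one_le_mul₀ hp]
      nlinarith
    linarith
  have hm := measurable_sum_DA E hU hA σ (fun p J => Z p.1 J) fun J => (hZ J).comp measurable_fst
  have k0 : Y * ENNReal.ofReal (Real.exp (-k)) *
      ENNReal.ofReal (Real.exp (((k + 1) * τ) ^ 2 / 2 * E.card)) ≤
      Y * ENNReal.ofReal (Real.exp (2 * (k + 1) ^ 2 * σ ^ 2 * E.card - k)) := by
    rw [mul_assoc, ← ENNReal.ofReal_mul (Real.exp_pos _).le, ← Real.exp_add]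
    refine mul_le_mul_right (ENNReal.ofReal_le_ofReal (Real.exp_le_exp.2 ?_)) _
    have k1 : τ ^ 2 ≤ (2 * σ) ^ 2 := pow_le_pow_left₀ (by linarith) hτ1 2
    have k2 := mul_le_mul_of_nonneg_left k1 (by positivity : (0 : ℝ) ≤ (k + 1) ^ 2 * E.card / 2)
    linarith
  have k1 := lintegral_mono (μ := (PP G).prod (PP G)) fun p =>
    Pert_point (DA E U A p.1 p.2) (DA E A U p.1 p.2).card h0.le hτ0 hτ2 k (Z p.1) Y
  rw [lintegral_add_left (hm.const_mul _), lintegral_const_mul _ hm,
    lintegral_const_mul _ (Pert_mgf_meas E hA hU _), ← Pert_swap E hA hU hAU σ Z hZ Y] at k1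
  exact k1.trans (add_le_add le_rfl ((mul_le_mul_right (Pert_mgf E hA hU _) _).trans k0))

/-- Lower tail of the number of hits on a set of lowerable edges. -/
theorem low_tail (E S : Finset (Sym2 V)) {A U : Set ℝ≥0} (hU : MeasurableSet U) {σ : ℝ}
    (h0 : 0 < σ) (h1 : σ ≤ 1 / 2) (x : Om) (hS : S ⊆ E) (hx : ∀ e ∈ S, x e ∈ A) (j : ℝ)
    (h : (2 : ℝ) ^ j * Real.exp (-(σ * (G U).toReal * S.card / 2)) ≤ 1 / 2) :
    2⁻¹ ≤ ∫⁻ y, ∑ J ∈ (DA E A U x y).powerset,
      ENNReal.ofReal (wf σ (DA E A U x y) J * ind (j ≤ (J ∩ S).card)) ∂PP G := by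
  let φ : ℝ≥0 → ℝ := fun t => 1 - U.indicator (fun _ => σ / 2) t
  have hφ : Measurable φ := measurable_const.sub (measurable_const.indicator hU)
  have hφ0 : ∀ t, 0 ≤ φ t := fun t => by
    by_cases ht : t ∈ U <;> simp [φ, ht]
    linarith
  have k1 : ∫⁻ t, ENNReal.ofReal (φ t) ∂G ≤
      ENNReal.ofReal (Real.exp (-(σ * (G U).toReal / 2))) := by
    have hi : Integrable (U.indicator fun _ => σ / 2) G := (integrable_const _).indicator hU
    rw [← ofReal_integral_eq_lintegral_ofReal (f := φ) ((integrable_const _).sub hi)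
      (Eventually.of_forall hφ0), integral_sub (integrable_const _) hi,
      integral_indicator_const _ hU]
    refine ENNReal.ofReal_le_ofReal (le_trans (le_of_eq ?_) (Real.add_one_le_exp _))
    simp [Measure.real]
    ring
  have k2 : ∀ y : Om, 1 ≤ (∑ J ∈ (DA E A U x y).powerset,
      ENNReal.ofReal (wf σ (DA E A U x y) J * ind (j ≤ (J ∩ S).card))) +
        ENNReal.ofReal (2 ^ j) * ∏ e ∈ S, ENNReal.ofReal (φ (y e)) := fun y => by
    have hw := wf_nonneg h0.le (by linarith) (DA E A U x y)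
    have hi : ∀ p, 0 ≤ ind p := fun p => by
      unfold ind
      split_ifs <;> norm_num
    have e : ∏ e ∈ S, φ (y e) = (1 + σ * (2⁻¹ - 1)) ^ (DA E A U x y ∩ S).card := by
      have e1 : DA E A U x y ∩ S = S.filter fun e => y e ∈ U := by
        ext e
        simp only [DA, mem_inter, mem_filter]
        exact ⟨fun h => ⟨h.2, h.1.2.2⟩, fun h => ⟨⟨hS h.1, hx e h.1, h.2⟩, h.1⟩⟩
      rw [e1, ← prod_const, prod_filter]
      refine prod_congr rfl fun e _ => ?_
      by_cases ht : y e ∈ U <;> simp [φ, ht]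
      ring
    rw [← ENNReal.ofReal_sum_of_nonneg fun J _ => mul_nonneg (hw J) (hi _),
      ← ENNReal.ofReal_prod_of_nonneg fun _ _ => hφ0 _, ← ENNReal.ofReal_mul (by positivity),
      ← ENNReal.ofReal_add (sum_nonneg fun J _ => mul_nonneg (hw J) (hi _))
        (mul_nonneg (by positivity) (prod_nonneg fun _ _ => hφ0 _)),
      ENNReal.one_le_ofReal, e, ← Pert_gen, mul_sum, ← sum_add_distrib,
      ← sum_wf σ (DA E A U x y)]
    refine sum_le_sum fun J _ => ?_
    rw [mul_left_comm, ← mul_add]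
    refine le_mul_of_one_le_right (hw J) ?_
    unfold ind
    split_ifs with hj
    · exact le_add_of_nonneg_right (by positivity)
    · rw [zero_add, inv_pow, ← div_eq_mul_inv, one_le_div (by positivity), ← Real.rpow_natCast]
      exact Real.rpow_le_rpow_of_exponent_le one_le_two (not_le.1 hj).le
  have hm : Measurable fun y : Om => ∏ e ∈ S, ENNReal.ofReal (φ (y e)) :=
    Finset.measurable_prod _ fun e _ => hφ.ennreal_ofReal.comp (measurable_pi_apply e)
  have k3 := lintegral_mono (μ := PP G) k2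
  rw [lintegral_add_right _ (hm.const_mul _), lintegral_const_mul _ hm, lintegral_const,
    measure_univ, mul_one, lintegral_prod_coord S (fun _ t => ENNReal.ofReal (φ t))
      fun _ => hφ.ennreal_ofReal, prod_const] at k3
  rw [← ENNReal.one_sub_inv_two, tsub_le_iff_right]
  refine k3.trans (add_le_add le_rfl
    ((mul_le_mul_right (pow_le_pow_left₀ zero_le k1 _) _).trans ?_))
  rw [← ENNReal.ofReal_pow (Real.exp_pos _).le, ← ENNReal.ofReal_mul (by positivity),
    ← Real.exp_nat_mul, ← ENNReal.ofReal_ofNat, ← ENNReal.ofReal_inv_of_pos two_pos]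
  refine ENNReal.ofReal_le_ofReal (le_trans (le_of_eq ?_) (h.trans_eq (one_div _)))
  congr 2
  ring

/-- Upper tail of the number of hits. -/
theorem up_tail (A S : Finset (Sym2 V)) {σ : ℝ} (h0 : 0 < σ) (h1 : σ ≤ 1) {j k₀ : ℝ}
    (hj : 1 ≤ j) :
    ∑ J ∈ A.powerset, wf σ A J * ind (j ≤ (J ∩ S).card) ≤
      ind (k₀ ≤ S.card) + 2 * σ * Real.exp (σ * k₀) / 2 ^ j * S.card := by
  have hw := wf_nonneg h0.le h1 A
  by_cases hk : k₀ ≤ S.card
  · rw [ind, if_pos hk]
    refine le_trans ?_ (le_add_of_nonneg_right (by positivity))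
    rw [← sum_wf σ A]
    refine sum_le_sum fun J _ => mul_le_of_le_one_right (hw J) ?_
    unfold ind
    split_ifs <;> norm_num
  rw [ind, if_neg hk, zero_add]
  have k1 : ∀ n : ℕ, ind (j ≤ n) ≤ 2 / 2 ^ j * (2 ^ n - 1) := fun n => by
    have k2 : (1 : ℝ) ≤ 2 ^ n := one_le_pow₀ one_le_two
    unfold ind
    split_ifs with hn
    · have k3 := Real.rpow_le_rpow_of_exponent_le one_le_two hn
      have k4 := Real.rpow_le_rpow_of_exponent_le one_le_two hj
      rw [Real.rpow_natCast] at k3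
      rw [Real.rpow_one] at k4
      rw [div_mul_eq_mul_div, one_le_div (by positivity)]
      linarith
    · exact mul_nonneg (by positivity) (sub_nonneg.2 k2)
  refine (sum_le_sum fun J _ => mul_le_mul_of_nonneg_left (k1 _) (hw J)).trans ?_
  simp only [mul_left_comm _ (2 / 2 ^ j : ℝ), ← mul_sum]
  simp only [mul_sub, mul_one, sum_sub_distrib, Pert_gen, sum_wf]
  have k2 : (1 + σ * (2 - 1)) ^ (A ∩ S).card ≤ Real.exp (S.card * σ) := by
    rw [Real.exp_nat_mul]
    exact (pow_le_pow_right₀ (by linarith) (card_le_card inter_subset_right)).trans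
      (pow_le_pow_left₀ (by linarith) (by linarith [Real.add_one_le_exp σ]) _)
  have k3 : Real.exp (S.card * σ) - 1 ≤ S.card * σ * Real.exp (S.card * σ) := by
    have := mul_le_mul_of_nonneg_right (Real.add_one_le_exp (-(S.card * σ)))
      (Real.exp_pos (S.card * σ)).le
    rw [← Real.exp_add, neg_add_cancel, Real.exp_zero] at this
    linarith
  have k4 : Real.exp (S.card * σ) ≤ Real.exp (σ * k₀) :=
    Real.exp_le_exp.2 (by nlinarith [not_le.1 hk])
  have k5 := mul_le_mul_of_nonneg_left k4 (by positivity : 0 ≤ S.card * σ)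
  have k6 := mul_le_mul_of_nonneg_left ((sub_le_sub_right k2 1).trans (k3.trans k5))
    (by positivity : (0 : ℝ) ≤ 2 / 2 ^ j)
  refine le_of_eq_of_le ?_ (k6.trans_eq ?_) <;> ring

end Vale.Agent.P158
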