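import Vale.Agent.P158.Typ
import Vale.Agent.P158.Pert
import Vale.Agent.P158.Pair

/-! The strip perturbation: lower bound and the almost sure inequality. -/

namespace Vale.Agent.P158

open Finset MeasureTheory Filter
open scoped NNReal ENNReal Classical Topology

variable {G : Measure ℝ≥0} [IsProbabilityMeasure G] [NullSingletonClass G] {q1 q2 M : ℝ≥0}

/-- Number of starting points whose bigeodesic collects `j₀` hits. -/
noncomputable def nHit (w : Wt) (D : Finset V) (J : Finset (Sym2 V)) (ℓ : ℤ) (j₀ : ℝ) : ℕ :=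
  (D.filter fun v => ∃ γ, Bi w γ ∧ γ 0 = v ∧ j₀ ≤ cntJ J γ ℓ).card

/-- Edges of the perturbation strip. -/
noncomputable def ED (θ : Bool × ℤ) (m l : ℕ) : Finset (Sym2 V) := edgesF (D2 θ m (m * l))

/-- Edges that can be lowered. -/
noncomputable def DD (q1 q2 M : ℝ≥0) (θ : Bool × ℤ) (m l : ℕ) (x y : Om) : Finset (Sym2 V) :=
  DA (ED θ m l) (Set.Ioc q2 M) (Set.Iic q1) x y

theorem key_ind_nonneg (p : Prop) : 0 ≤ ind p := by
  unfold ind; split_ifs <;> norm_num

theorem key_ind_le (p : Prop) : ind p ≤ 1 := by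
  unfold ind; split_ifs <;> norm_num

theorem key_le_lintegral_sum {α ι : Type*} [MeasurableSpace α] (μ : Measure α) (I : Finset ι)
    (f : ι → α → ℝ≥0∞) : ∑ i ∈ I, ∫⁻ a, f i a ∂μ ≤ ∫⁻ a, ∑ i ∈ I, f i a ∂μ := by
  induction I using Finset.induction_on with
  | empty => simp
  | insert i I hi ih =>
    simp only [Finset.sum_insert hi]
    exact (add_le_add le_rfl ih).trans (le_lintegral_add _ _)

omit [NullSingletonClass G] in
theorem key_pt {m l ρ Cg : ℕ} (hm : 0 < m) (hl : 0 < l)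
    (hρ : ρ ≤ m * l) {θ : Bool × ℤ} (hθ : θ ∈ Th m) {σ j₀ c : ℝ} (h0 : 0 < σ) (h1 : σ ≤ 1 / 2)
    (hc : 0 ≤ c)
    (htail : (2 : ℝ) ^ j₀ * Real.exp (-(σ * (G (Set.Iic q1)).toReal * (m * l) / 4)) ≤ 1 / 2)
    {x : Om} (hn : Nice (W M x)) (hG : Good Cg q2 M (W M x) 0 ρ (m * l)) :
    ∑ v ∈ D1 θ m (m * l) l, ENNReal.ofReal (c / 2 * ind (StEv m (m * l) θ (W M x) v)) ≤
      ∫⁻ y, ∑ J ∈ (DD q1 q2 M θ m l x y).powerset, ENNReal.ofReal (wf σ (DD q1 q2 M θ m l x y) J *
          (c * nHit (W M x) (D1 θ m (m * l) l) J (m * l) j₀)) ∂PP G := by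
  have hch : ∀ v : V, ∃ S : Finset (Sym2 V), v ∈ D1 θ m (m * l) l → StEv m (m * l) θ (W M x) v →
      S ⊆ ED θ m l ∧ (∀ e ∈ S, x e ∈ Set.Ioc q2 M) ∧ ((m : ℝ) * l ≤ 2 * S.card) ∧
      ∀ J : Finset (Sym2 V), j₀ ≤ (J ∩ S).card →
        ∃ γ, Bi (W M x) γ ∧ γ 0 = v ∧ j₀ ≤ cntJ J γ (m * l) := by
    intro v
    by_cases hv : v ∈ D1 θ m (m * l) l ∧ StEv m (m * l) θ (W M x) v
    swap
    · exact ⟨∅, fun h1 h2 => absurd ⟨h1, h2⟩ hv⟩
    obtain ⟨hv, γ, hγ, hγ0, hs⟩ := hv
    have hinj := hγ.inj hn.pos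
    have hpf : PathFn γ 0 (m * l) := ⟨fun i _ _ => hγ.1 i, hinj.injOn⟩
    refine ⟨((Ico (0 : ℤ) (m * l)).filter fun i => W M x s(γ i, γ (i + 1)) ∈
      Set.Ioc (q2 : ℝ) M).image fun i => s(γ i, γ (i + 1)), fun _ _ => ⟨?_, ?_, ?_, ?_⟩⟩
    · intro e he
      obtain ⟨i, hi, rfl⟩ := Finset.mem_image.1 he
      have hi2 := Finset.mem_Ico.1 (Finset.mem_filter.1 hi).1
      have hmem : ∀ t : ℤ, 0 ≤ t → t ≤ m * l → γ t ∈ D2 θ m (m * l) := fun t h1 h2 => by
        have := D1_add hm hl hθ hv (hs t h1 h2)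
        rwa [hγ0, zero_add, add_sub_cancel] at this
      exact mem_edgesF.2 ⟨_, _, rfl, hγ.1 i, hmem i hi2.1 hi2.2.le,
        hmem (i + 1) (by omega) (by omega)⟩
    · intro e he
      obtain ⟨i, hi, rfl⟩ := Finset.mem_image.1 he
      exact W_mem_Ioc.1 (Finset.mem_filter.1 hi).2
    · rw [Finset.card_image_of_injOn]
      · have hb := D1_sub_ball hm hl hθ hv
        have hml : (0 : ℤ) ≤ m * l := by positivity
        have hb2 : v ∈ ball 0 (24 * ((m : ℤ) * l)) := by
          rw [mem_ball] at hb ⊢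
          omega
        have hpe := (hG v hb2).1.2 v (by rw [mem_ball]; omega) γ (m * l) hγ0
          (by exact_mod_cast hρ) hpf
        unfold cntA at hpe
        exact_mod_cast hpe
      · intro i hi j hj hij
        have hi2 := Finset.mem_Ico.1 (Finset.mem_filter.1 (Finset.mem_coe.1 hi)).1
        have hj2 := Finset.mem_Ico.1 (Finset.mem_filter.1 (Finset.mem_coe.1 hj)).1
        exact hpf.edge_inj hi2.1 hi2.2 hj2.1 hj2.2 hij
    · intro J hJ
      refine ⟨γ, hγ, hγ0, hJ.trans ?_⟩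
      unfold cntJ
      have : J ∩ ((Ico (0 : ℤ) (m * l)).filter fun i => W M x s(γ i, γ (i + 1)) ∈
          Set.Ioc (q2 : ℝ) M).image (fun i => s(γ i, γ (i + 1))) ⊆
          ((Ico (0 : ℤ) (m * l)).filter fun k => s(γ k, γ (k + 1)) ∈ J).image
            fun i => s(γ i, γ (i + 1)) := by
        intro e he
        obtain ⟨he1, he2⟩ := Finset.mem_inter.1 he
        obtain ⟨i, hi, rfl⟩ := Finset.mem_image.1 he2
        exact Finset.mem_image.2 ⟨i, Finset.mem_filter.2 ⟨(Finset.mem_filter.1 hi).1, he1⟩, rfl⟩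
      exact_mod_cast (Finset.card_le_card this).trans Finset.card_image_le
  choose S hS using hch
  have hwf : ∀ A J, 0 ≤ wf σ A J := wf_nonneg h0.le (by linarith)
  calc ∑ v ∈ D1 θ m (m * l) l, ENNReal.ofReal (c / 2 * ind (StEv m (m * l) θ (W M x) v))
      ≤ ∑ v ∈ D1 θ m (m * l) l, ∫⁻ y, ENNReal.ofReal (c * ind (StEv m (m * l) θ (W M x) v)) *
          ∑ J ∈ (DD q1 q2 M θ m l x y).powerset, ENNReal.ofReal
            (wf σ (DD q1 q2 M θ m l x y) J * ind (j₀ ≤ (J ∩ S v).card)) ∂PP G := by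
        refine Finset.sum_le_sum fun v hv => ?_
        by_cases hst : StEv m (m * l) θ (W M x) v
        swap
        · simp [ind, hst]
        obtain ⟨h1', h2', h3', -⟩ := hS v hv hst
        have hlt := low_tail (G := G) (ED θ m l) (S v) (A := Set.Ioc q2 M) (U := Set.Iic q1)
          measurableSet_Iic h0 h1 x h1' h2' j₀ (by
            refine le_trans (mul_le_mul_of_nonneg_left (Real.exp_le_exp.2 ?_) (by positivity)) htail
            have : 0 ≤ σ * (G (Set.Iic q1)).toReal := by positivity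
            nlinarith)
        refine le_trans ?_ (lintegral_const_mul_le _ _)
        refine le_trans (le_of_eq ?_) (mul_le_mul_right hlt _)
        rw [← ENNReal.ofReal_ofNat 2, ← ENNReal.ofReal_inv_of_pos two_pos,
          ← ENNReal.ofReal_mul (mul_nonneg hc (key_ind_nonneg _))]
        congr 1; ring
    _ ≤ _ := by
        refine (key_le_lintegral_sum _ _ _).trans (lintegral_mono fun y => ?_)
        simp only [Finset.mul_sum]
        rw [Finset.sum_comm]
        refine Finset.sum_le_sum fun J _ => ?_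
        simp only [← ENNReal.ofReal_mul (mul_nonneg hc (key_ind_nonneg _))]
        rw [← ENNReal.ofReal_sum_of_nonneg fun v _ => mul_nonneg
          (mul_nonneg hc (key_ind_nonneg _)) (mul_nonneg (hwf _ _) (key_ind_nonneg _))]
        refine ENNReal.ofReal_le_ofReal ?_
        unfold nHit
        rw [Finset.card_filter]
        push_cast
        rw [Finset.mul_sum, Finset.mul_sum]
        refine Finset.sum_le_sum fun v hv => ?_
        have hw := hwf (DD q1 q2 M θ m l x y) J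
        by_cases hst : StEv m (m * l) θ (W M x) v
        swap
        · simp only [ind, hst, if_false, mul_zero, zero_mul]
          split_ifs <;> positivity
        by_cases hj : j₀ ≤ (J ∩ S v).card
        · rw [if_pos ((hS v hv hst).2.2.2 J hj)]
          simp only [ind, hst, hj, if_true]
          linarith
        · simp only [ind, hj, if_false, mul_zero]
          split_ifs <;> positivity

theorem key_lower (hP : Par G q1 q2 M) {m l ρ Cg : ℕ} (hm : 0 < m) (hl : 0 < l)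
    (hρ : ρ ≤ m * l) {σ j₀ c : ℝ} (h0 : 0 < σ) (h1 : σ ≤ 1 / 2) (hc : 0 ≤ c)
    (htail : (2 : ℝ) ^ j₀ * Real.exp (-(σ * (G (Set.Iic q1)).toReal * (m * l) / 4)) ≤ 1 / 2)
    (Gd : Set Om) (hGd : MeasurableSet Gd)
    (hG : ∀ ω ∈ Gd, Good Cg q2 M (W M ω) 0 ρ (m * l))
    (F : Om × Om → ℝ≥0∞) (hF : Measurable F)
    (hle : ∀ᵐ p ∂(PP G).prod (PP G), p.1 ∈ Gd →
      ∑ θ ∈ Th m, ∑ J ∈ (DD q1 q2 M θ m l p.1 p.2).powerset,
        ENNReal.ofReal (wf σ (DD q1 q2 M θ m l p.1 p.2) J *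
          (c * nHit (W M p.1) (D1 θ m (m * l) l) J (m * l) j₀)) ≤ F p) :
    ENNReal.ofReal (c / 2 * (m * l * l)) *
        ∑ θ ∈ Th m, PP G {ω | StEv m (m * l) θ (W M ω) 0} ≤
      ∫⁻ p, F p ∂(PP G).prod (PP G) +
        ENNReal.ofReal (c / 2 * (m * l * l)) * ((Th m).card * PP G Gdᶜ) := by
  have hSm : ∀ θ v, MeasurableSet {ω | StEv m (m * l) θ (W M ω) v} := fun θ v =>
    measurable_W (measurableSet_StEv _ _ _)
  have h2 : ∑ θ ∈ Th m, ∑ v ∈ D1 θ m (m * l) l,
      ENNReal.ofReal (c / 2) * PP G ({ω | StEv m (m * l) θ (W M ω) v} ∩ Gd) ≤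
      ∫⁻ p, F p ∂(PP G).prod (PP G) := by
    rw [lintegral_prod _ hF.aemeasurable]
    have e : ∑ θ ∈ Th m, ∑ v ∈ D1 θ m (m * l) l,
        ENNReal.ofReal (c / 2) * PP G ({ω | StEv m (m * l) θ (W M ω) v} ∩ Gd) =
        ∫⁻ x, ∑ θ ∈ Th m, ∑ v ∈ D1 θ m (m * l) l, ({ω | StEv m (m * l) θ (W M ω) v} ∩ Gd).indicator
          (fun _ => ENNReal.ofReal (c / 2)) x ∂PP G := by
      rw [lintegral_finsetSum _ fun θ _ => Finset.measurable_sum _ fun v _ =>
        measurable_const.indicator ((hSm θ v).inter hGd)]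
      refine Finset.sum_congr rfl fun θ _ => ?_
      rw [lintegral_finsetSum _ fun v _ => measurable_const.indicator ((hSm θ v).inter hGd)]
      exact Finset.sum_congr rfl fun v _ => by rw [lintegral_indicator_const ((hSm θ v).inter hGd)]
    rw [e]
    refine lintegral_mono_ae ?_
    filter_upwards [Measure.ae_ae_of_ae_prod hle, ae_nice hP] with x hx hn
    by_cases hxG : x ∈ Gd
    swap
    · simp [Set.indicator, hxG]
    refine le_trans ?_ (lintegral_mono_ae (hx.mono fun y hy => hy hxG))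
    refine le_trans (Finset.sum_le_sum fun θ hθ => ?_) (key_le_lintegral_sum _ _ _)
    refine le_trans (Finset.sum_le_sum fun v _ => ?_)
      (key_pt hm hl hρ hθ h0 h1 hc htail hn (hG x hxG))
    by_cases hst : StEv m (m * l) θ (W M x) v
    · simp [Set.indicator, hxG, hst, ind]
    · simp [Set.indicator, hst]
  refine le_trans ?_ (add_le_add h2 le_rfl)
  have e0 : ((Th m).card : ℝ≥0∞) * PP G Gdᶜ = ∑ θ ∈ Th m, PP G Gdᶜ := by
    rw [Finset.sum_const, nsmul_eq_mul]
  rw [e0, Finset.mul_sum, Finset.mul_sum, ← Finset.sum_add_distrib]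
  refine Finset.sum_le_sum fun θ _ => ?_
  have e : ENNReal.ofReal (c / 2 * (m * l * l)) =
      ∑ v ∈ D1 θ m (m * l) l, ENNReal.ofReal (c / 2) := by
    rw [Finset.sum_const, card_D1, nsmul_eq_mul, ← ENNReal.ofReal_natCast,
      ← ENNReal.ofReal_mul (by positivity)]
    congr 1; push_cast; ring
  rw [e, Finset.sum_mul, Finset.sum_mul, ← Finset.sum_add_distrib]
  refine Finset.sum_le_sum fun v _ => ?_
  rw [← mul_add]
  refine mul_le_mul_right ?_ _
  have e2 : PP G {ω | StEv m (m * l) θ (W M ω) 0} = PP G {ω | StEv m (m * l) θ (W M ω) v} := by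
    rw [← measure_shift v]
    congr 1
    ext ω
    simp only [Set.mem_preimage, Set.mem_ofPred_eq, W_shift, StEv_shift, zero_add]
  rw [e2]
  refine le_trans (measure_mono ?_) (measure_union_le _ _)
  intro ω hω
  by_cases h : ω ∈ Gd
  · exact Or.inl ⟨hω, h⟩
  · exact Or.inr h

omit [NullSingletonClass G] in
/-- The almost sure inequality for one strip and one hit set. -/
theorem key_ae (hP : Par G q1 q2 M) {m l ρ Cg : ℕ} (hm : 0 < m) (hl : 0 < l) (hCg : 0 < Cg)
    {θ : Bool × ℤ} (hθ : θ ∈ Th m) {j₀ C : ℝ} (hj : 0 < j₀) {x y : Om} {J : Finset (Sym2 V)}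
    (hJ : J ⊆ DD q1 q2 M θ m l x y) (hn : Nice (W M x)) (hk : ∀ B, KP (W M x) B)
    (hn' : Nice (W M (mix J y x))) (hk' : ∀ B, KP (W M (mix J y x)) B)
    (hG : Good Cg q2 M (W M x) 0 ρ (m * l)) :
    ∃ L : ℤ, ∀ o n, L ≤ n → ball 0 (n / 4) ⊆ box o n → GEv C o n (W M (mix J y x)) →
      j₀ * (q2 - q1) / ((2 * Cg / q2 + 2) * (24 * (m * l))) *
          nHit (W M x) (D1 θ m (m * l) l) J (m * l) j₀ ≤
        mass o n (W M (mix J y x)) (fun a b =>
          ind (j₀ * (q2 - q1) / M ≤ cntE (box o n) (W M (mix J y x)) a b J)) := by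
  have hq := hP.q2_pos
  have h12 : (q1 : ℝ) < q2 := by exact_mod_cast hP.h12
  have h2M : (q2 : ℝ) < M := by exact_mod_cast hP.h2M
  have hJ' : ∀ e ∈ J, e ∈ ED θ m l ∧ x e ∈ Set.Ioc q2 M ∧ y e ∈ Set.Iic q1 := fun e he => by
    have := hJ he
    unfold DD DA at this
    simpa only [Finset.mem_filter] using this
  obtain ⟨hw1, hw2⟩ := W_mix (M := M) (x := x) (y := y) (J := J) hP.h12 hP.h2M
    fun e he => (hJ' e he).2
  have hml : (0 : ℤ) < m * l := by positivity
  obtain ⟨L, hL⟩ := app_hit (C := C) (a := 0) (R := 24 * ((m : ℤ) * l)) (ℓ := m * l) hn' hn (hk' _)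
    (hk _) J (fun e he v hv => by
      obtain ⟨a, b, rfl, -, ha, hb⟩ := mem_edgesF.1 (hJ' e he).1
      have ha' := mem_ballF.1 (Finset.mem_filter.1 ha).1
      have hb' := mem_ballF.1 (Finset.mem_filter.1 hb).1
      rcases Sym2.mem_iff.1 hv with rfl | rfl
      · rw [mem_ball] at ha' ⊢; omega
      · rw [mem_ball] at hb' ⊢; omega)
    hw1 (κ := q2 - q1) (M := M) (j₀ := j₀) (μ := (2 * Cg / q2 + 2) * (24 * (m * l)))
    (by linarith) (by linarith) hj hw2 (D1 θ m (m * l) l)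
    (fun v hv => by
      have hb := D1_sub_ball hm hl hθ hv
      rw [mem_ball] at hb ⊢; omega) (by positivity)
    (fun γ hγ => by
      have := vis_bi hn hq (a := 0) (ρ := 24 * ((m : ℤ) * l)) (by positivity) hCg
        (hG 0 (by rw [mem_ball]; simp only [Prod.fst_zero, Prod.snd_zero]; omega)).2 hγ
        (D1 θ m (m * l) l) (fun v hv => by
          have hb := D1_sub_ball hm hl hθ hv
          rw [mem_ball] at hb ⊢; omega)
      push_cast at this
      exact this)
  refine ⟨L, fun o n h1 h2 h3 => ?_⟩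
  have := hL o n h1 h2 h3
  rw [div_mul_eq_mul_div, div_le_iff₀ (by positivity)]
  unfold nHit
  linarith

end Vale.Agent.P158
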