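import Vale.Agent.P158.KeyA

/-! The strip perturbation: upper bound in one box. -/

namespace Vale.Agent.P158

open Finset MeasureTheory Filter
open scoped NNReal ENNReal Classical Topology

variable {G : Measure ℝ≥0} [IsProbabilityMeasure G] {q1 q2 M : ℝ≥0}

/-- Mass of the cells whose geodesic has many hits, replaced by `Y` off the good set. -/
noncomputable def Zf (M : ℝ≥0) (o : V) (n : ℤ) (j' : ℝ) (B : Set Om) (Y : ℝ≥0∞) (x : Om)
    (J : Finset (Sym2 V)) : ℝ≥0∞ :=
  if x ∈ B then ENNReal.ofReal (mass o n (W M x) fun a b =>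
    ind (j' ≤ cntE (box o n) (W M x) a b J)) else Y

theorem measurable_Zf (o : V) (n : ℤ) (j' : ℝ) {B : Set Om} (hB : MeasurableSet B) (Y : ℝ≥0∞)
    (J : Finset (Sym2 V)) : Measurable fun x => Zf M o n j' B Y x J := by
  unfold Zf
  refine Measurable.ite hB ?_ measurable_const
  refine (measurable_mass measurable_W fun a b => measurable_ind ?_).ennreal_ofReal
  exact measurableSet_le measurable_const
    ((measurable_from_top (f := fun k : ℕ => (k : ℝ))).comp
      ((measurable_cntE J).comp measurable_W))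

theorem key_DA_subset (E : Finset (Sym2 V)) (A U : Set ℝ≥0) (x y : Om) : DA E A U x y ⊆ E :=
  Finset.filter_subset _ _

theorem key_rev {m l : ℕ} {o : V} {n : ℤ} (hn : 0 < n) {σ j' k₀ : ℝ} (h0 : 0 < σ) (h1 : σ ≤ 1)
    (hj : 1 ≤ j') (x : Om) (U : Bool × ℤ → Finset (Sym2 V)) (hU : ∀ θ, U θ ⊆ ED θ m l) :
    ∑ θ ∈ Th m, ∑ J ∈ (U θ).powerset, ENNReal.ofReal (wf σ (U θ) J) *
        ENNReal.ofReal (mass o n (W M x) fun a b => ind (j' ≤ cntE (box o n) (W M x) a b J)) ≤
      ENNReal.ofReal (mass o n (W M x) fun a b => ∑ θ ∈ Th m,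
        phi k₀ (2 * σ * Real.exp (σ * k₀) / 2 ^ j') (cntE (box o n) (W M x) a b (ED θ m l))) := by
  have hwf : ∀ A J, 0 ≤ wf σ A J := wf_nonneg h0.le h1
  have hm0 : ∀ J, 0 ≤ mass o n (W M x) fun a b => ind (j' ≤ cntE (box o n) (W M x) a b J) :=
    fun J => mass_nonneg (W_nn x) hn fun _ _ => key_ind_nonneg _
  simp only [← ENNReal.ofReal_mul (hwf _ _)]
  have e1 : ∀ θ, ∑ J ∈ (U θ).powerset, ENNReal.ofReal (wf σ (U θ) J *
      mass o n (W M x) fun a b => ind (j' ≤ cntE (box o n) (W M x) a b J)) =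
      ENNReal.ofReal (1 * mass o n (W M x) fun a b => ∑ J ∈ (U θ).powerset,
        wf σ (U θ) J * ind (j' ≤ cntE (box o n) (W M x) a b J)) := fun θ => by
    rw [← ENNReal.ofReal_sum_of_nonneg fun J _ => mul_nonneg (hwf _ _) (hm0 J), mass_sum, one_mul]
  simp only [e1]
  rw [← ENNReal.ofReal_sum_of_nonneg fun θ _ => mul_nonneg zero_le_one (mass_nonneg (W_nn x) hn
    fun _ _ => Finset.sum_nonneg fun J _ => mul_nonneg (hwf _ _) (key_ind_nonneg _)), mass_sum]
  refine ENNReal.ofReal_le_ofReal (mass_mono (W_nn x) hn fun i j => ?_)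
  refine Finset.sum_le_sum fun θ _ => ?_
  rw [one_mul]
  refine le_trans (le_of_eq ?_) (up_tail (U θ) ((ED θ m l).filter fun e =>
    EdgeOn (box o n) (W M x) (bd o n i) (bd o n j) e) h0 h1 (k₀ := k₀) hj)
  refine Finset.sum_congr rfl fun J hJ => ?_
  have hJ2 := (Finset.mem_powerset.1 hJ).trans (hU θ)
  have : J ∩ (ED θ m l).filter (fun e => EdgeOn (box o n) (W M x) (bd o n i) (bd o n j) e) =
      J.filter fun e => EdgeOn (box o n) (W M x) (bd o n i) (bd o n j) e := by
    ext e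
    simp only [Finset.mem_inter, Finset.mem_filter]
    exact ⟨fun h => ⟨h.1, h.2.2⟩, fun h => ⟨h.1, hJ2 h.1, h.2⟩⟩
  rw [this]
  rfl

theorem key_upper (hq : q1 < q2) {m l : ℕ} (hm : 0 < m) (hl : 0 < l) {o : V} {n : ℤ} (hn : 0 < n)
    {σ j' k₀ : ℝ} (h0 : 0 < σ) (h1 : σ ≤ 1 / 2) (hj : 1 ≤ j') (k : ℕ) {B Gg : Set Om}
    (hB : MeasurableSet B) (hGg : MeasurableSet Gg) (Y : ℝ≥0∞) :
    ∫⁻ p, ∑ θ ∈ Th m, ∑ J ∈ (DD q1 q2 M θ m l p.1 p.2).powerset,
        ENNReal.ofReal (wf σ (DD q1 q2 M θ m l p.1 p.2) J) *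
          min (Zf M o n j' (B ∩ Gg) Y (mix J p.2 p.1) J) Y ∂(PP G).prod (PP G) ≤
      ENNReal.ofReal (Real.exp 1) *
        (∫⁻ x, B.indicator (fun x => ENNReal.ofReal (mass o n (W M x) fun a b => ∑ θ ∈ Th m,
          ind (x ∈ Gg) * phi k₀ (2 * σ * Real.exp (σ * k₀) / 2 ^ j')
            (cntE (box o n) (W M x) a b (ED θ m l)))) x ∂PP G +
          (Th m).card * Y * (PP G Bᶜ + PP G Ggᶜ)) +
        (Th m).card * Y *
          ENNReal.ofReal (Real.exp (2 * (k + 1) ^ 2 * σ ^ 2 * (420 * (m * l * l)) - k)) := by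
  have hZ := fun J => measurable_Zf (M := M) o n j' (hB.inter hGg) Y J
  have hdis : Disjoint (Set.Ioc q2 M) (Set.Iic q1) :=
    Set.disjoint_left.2 fun t h1 h2 => absurd (h1.1.trans_le h2) (not_lt.2 hq.le)
  unfold DD
  rw [lintegral_finsetSum _ fun θ _ => measurable_sum_DA _ measurableSet_Ioc measurableSet_Iic σ
    (fun p J => min (Zf M o n j' (B ∩ Gg) Y (mix J p.2 p.1) J) Y)
    fun J => ((hZ J).comp (measurable_mix _)).min measurable_const]
  refine le_trans (Finset.sum_le_sum fun θ _ => pert (G := G) (ED θ m l) measurableSet_Ioc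
    measurableSet_Iic hdis h0 h1 k (fun x J => Zf M o n j' (B ∩ Gg) Y x J) hZ Y) ?_
  rw [Finset.sum_add_distrib]
  refine add_le_add ?_ ?_
  · rw [← Finset.mul_sum]
    refine mul_le_mul_right ?_ _
    refine (key_le_lintegral_sum _ _ _).trans ((lintegral_prod_le _).trans ?_)
    have e : (Th m).card * Y * (PP G Bᶜ + PP G Ggᶜ) =
        ∫⁻ x, (Bᶜ.indicator (fun _ => (Th m).card * Y) x +
          Ggᶜ.indicator (fun _ => (Th m).card * Y) x) ∂PP G := by
      rw [lintegral_add_left (measurable_const.indicator hB.compl),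
        lintegral_indicator_const hB.compl, lintegral_indicator_const hGg.compl, mul_add]
    rw [e, ← lintegral_add_right _ ((measurable_const.indicator hB.compl).fun_add
      (measurable_const.indicator hGg.compl))]
    refine lintegral_mono fun x => ?_
    refine le_trans (lintegral_mono fun y => ?_) (le_of_eq (by
      rw [lintegral_const, measure_univ, mul_one]))
    by_cases hx : x ∈ B ∩ Gg
    · simp only [Zf, if_pos hx]
      refine le_trans ?_ le_self_add
      rw [Set.indicator_of_mem hx.1]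
      simp only [ind, if_pos hx.2, one_mul]
      exact key_rev hn h0 (by linarith) hj x _ fun θ => key_DA_subset _ _ _ _ _
    · simp only [Zf, if_neg hx]
      refine le_trans ?_ le_add_self
      have e2 : ∀ A : Finset (Sym2 V), ∑ J ∈ A.powerset, ENNReal.ofReal (wf σ A J) * Y = Y := by
        intro A
        rw [← Finset.sum_mul, ← ENNReal.ofReal_sum_of_nonneg fun J _ =>
          wf_nonneg h0.le (by linarith) A J, sum_wf, ENNReal.ofReal_one, one_mul]
      simp only [e2, Finset.sum_const, nsmul_eq_mul]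
      by_cases hb : x ∈ B
      · have hg : x ∈ Ggᶜ := fun h => hx ⟨hb, h⟩
        rw [Set.indicator_of_mem hg]
        exact le_add_self
      · rw [Set.indicator_of_mem (show x ∈ Bᶜ from hb)]
        exact le_self_add
  · rw [mul_assoc ((Th m).card : ℝ≥0∞), ← nsmul_eq_mul (Th m).card, ← Finset.sum_const]
    refine Finset.sum_le_sum fun θ _ => mul_le_mul_right (ENNReal.ofReal_le_ofReal
      (Real.exp_le_exp.2 ?_)) _
    have hc : ((ED θ m l).card : ℝ) ≤ 420 * (m * l * l) := by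
      have h1 := card_edgesF (D2 θ m (m * l))
      have h2 := card_D2 θ hm hl
      have : (ED θ m l).card ≤ 420 * (m * l * l) := by unfold ED; omega
      exact_mod_cast this
    have : 0 ≤ 2 * ((k : ℝ) + 1) ^ 2 * σ ^ 2 := by positivity
    nlinarith

end Vale.Agent.P158
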