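import Vale.Agent.P158.Cpt

/-! Measurability in the weights. -/

namespace Vale.Agent.P158

open Finset MeasureTheory Filter
open scoped NNReal ENNReal Classical Topology

variable {S : Set V} {x y a b c o v : V} {n : ℤ}

theorem measurable_wt (p : grid.Walk x y) : Measurable fun w : Wt => wt w p := by
  induction p with
  | nil => exact measurable_const
  | cons h p ih => exact (measurable_pi_apply _).add ih

theorem measurable_T : Measurable fun w : Wt => T S w x y := by
  have : Countable (grid.Walk x y) := SimpleGraph.Walk.support_injective.countable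
  exact Measurable.iInf fun p => measurable_wt p.1

theorem measurable_seg (f : ℤ → V) (i j : ℤ) : Measurable fun w : Wt => seg w f i j :=
  Finset.measurable_fun_sum _ fun _ _ => measurable_pi_apply _

theorem measurableSet_On : MeasurableSet {w : Wt | On S w x c y} :=
  (measurable_const.and ((measurable_T.add measurable_T).eq measurable_T)).setOf

theorem measurableSet_DartOn : MeasurableSet {w : Wt | DartOn S w x y a b} :=
  (measurable_const.and <| measurable_const.and <| measurable_const.and <|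
    ((measurable_T.add (measurable_pi_apply _)).add measurable_T).eq measurable_T).setOf

theorem measurableSet_EdgeOn (e : Sym2 V) : MeasurableSet {w : Wt | EdgeOn S w x y e} :=
  (Measurable.exists fun _ => Measurable.exists fun _ =>
    measurable_const.and (measurableSet_setOfPred.1 measurableSet_DartOn)).setOf

theorem measurable_cntE (J : Finset (Sym2 V)) : Measurable fun w : Wt => cntE S w x y J := by
  simp only [cntE, card_filter]
  exact Finset.measurable_fun_sum _ fun e _ =>
    Measurable.ite (measurableSet_EdgeOn e) measurable_const measurable_const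

theorem measurable_ind {α : Type*} [MeasurableSpace α] {p : α → Prop}
    (h : MeasurableSet {t | p t}) : Measurable fun t => ind (p t) :=
  Measurable.ite h measurable_const measurable_const

theorem measurable_mass {α : Type*} [MeasurableSpace α] {F : α → Wt} (hF : Measurable F)
    {φ : α → V → V → ℝ} (hφ : ∀ x y, Measurable fun t => φ t x y) :
    Measurable fun t => mass o n (F t) (φ t) :=
  Finset.measurable_fun_sum _ fun _ _ => Finset.measurable_fun_sum _ fun _ _ =>
    ((((measurable_T.add measurable_T).sub measurable_T).sub measurable_T).comp hF).mul (hφ _ _)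

theorem measurable_perim : Measurable fun w : Wt => perim o n w :=
  Finset.measurable_fun_sum _ fun _ _ => measurable_pi_apply _

theorem measurable_upE (e : Sym2 V) (δ : ℝ) : Measurable fun w : Wt => upE w e δ := by
  unfold upE
  fun_prop

theorem measurableSet_BrEv (δ : ℝ) : MeasurableSet {w : Wt | BrEv o n δ w c} := by
  have h1 : Measurable (raiseAt c δ) :=
    measurable_pi_lambda _ fun e => (measurable_pi_apply e).add_const _
  have h2 : ∀ z d, Measurable fun w => Child (box o n) w c z d := fun z d =>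
    measurable_const.and <| measurable_const.and <|
      ((measurable_pi_apply _).add measurable_T).eq measurable_T
  have h3 : ∀ x y, Measurable fun w => T (box o n) w x y + δ ≤ T (box o n) (raiseAt c δ w) x y :=
    fun x y => (measurable_T.add_const δ).le' (measurable_T.comp h1)
  exact (Measurable.exists fun _ => Measurable.exists fun _ => Measurable.exists fun _ =>
    measurable_const.and <| measurable_const.and <| measurable_const.and <|
    measurable_const.and <| measurable_const.and <|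
    (measurableSet_setOfPred.1 measurableSet_On).and <|
    (measurableSet_setOfPred.1 measurableSet_On).and <|
    (Measurable.exists fun _ => Measurable.exists fun _ =>
      measurable_const.and <| (h2 _ _).and (h2 _ _)).and <| (h3 _ _).and (h3 _ _)).setOf

theorem meas_ex {F C α : Type*} [MeasurableSpace α] [Countable C] (r : F → C) (P : F → α → Prop)
    (hP : ∀ f, Measurable (P f)) (h : ∀ f g, r f = r g → ∀ t, P f t → P g t) :
    Measurable fun t => ∃ f, P f t := by
  have : (fun t => ∃ f, P f t) = fun t => ∃ c : Set.range r, P c.2.choose t :=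
    funext fun t => propext ⟨fun ⟨f, hf⟩ => ⟨⟨r f, f, rfl⟩,
      h f _ (Set.mem_range_self (f := r) f).choose_spec.symm t hf⟩, fun ⟨_, hc⟩ => ⟨_, hc⟩⟩
  rw [this]
  exact Measurable.exists fun c => hP _

theorem meas_ex_Icc {α : Type*} [MeasurableSpace α] (lo hi : ℤ) (P : (ℤ → V) → α → Prop)
    (hP : ∀ f, Measurable (P f))
    (h : ∀ f g, (∀ i, lo ≤ i → i ≤ hi → f i = g i) → ∀ t, P f t → P g t) :
    Measurable fun t => ∃ f, P f t :=
  meas_ex (fun f (i : Icc lo hi) => f i) P hP fun f g e =>
    h f g fun i hi hi' => congrFun e ⟨i, mem_Icc.2 ⟨hi, hi'⟩⟩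

theorem meas_Str {m ℓ : ℤ} {θ : Bool × ℤ} {f g : ℤ → V} (h : ∀ i, 0 ≤ i → i ≤ |ℓ| → f i = g i)
    (hf : Str m ℓ θ f 0) : Str m ℓ θ g 0 := fun t ht ht' => by
  rw [← h 0 le_rfl (abs_nonneg ℓ), ← h (0 + t) (by omega) (by have := le_abs_self ℓ; omega)]
  exact hf t ht ht'

theorem measurableSet_NSOn (m ℓ : ℤ) : MeasurableSet {w : Wt | NSOn S w x y m ℓ v} := by
  refine (meas_ex_Icc 0 |ℓ| _ (fun f => measurable_const.and <| (Measurable.forall fun _ =>
    measurable_const.imp <| measurable_const.imp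
      (measurableSet_setOfPred.1 measurableSet_DartOn)).and measurable_const) ?_).setOf
  rintro f g h w ⟨h1, h2, h3⟩
  have h4 := le_abs_self ℓ
  refine ⟨h 0 le_rfl (abs_nonneg ℓ) ▸ h1, fun t ht ht' => ?_, fun θ hθ h5 =>
    h3 θ hθ (meas_Str (fun i hi hi' => (h i hi hi').symm) h5)⟩
  rw [← h t ht (by omega), ← h (t + 1) (by omega) (by omega)]
  exact h2 t ht ht'

/-- Extendability of a finite pattern to a bigeodesic is measurable. -/
theorem measurableSet_ext (f : ℤ → V) (lo hi : ℤ) (h : lo ≤ hi) :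
    MeasurableSet {w : Wt | ∃ γ, Bi w γ ∧ ∀ i, lo ≤ i → i ≤ hi → γ i = f i} := by
  have key : {w : Wt | ∃ γ, Bi w γ ∧ ∀ i, lo ≤ i → i ≤ hi → γ i = f i} = {w : Wt | ∀ t : ℕ, ∃ g,
      (∀ i, lo ≤ i → i ≤ hi → g i = f i) ∧
      (∀ i, lo - t ≤ i → i < hi + t → grid.Adj (g i) (g (i + 1))) ∧
      ∀ i j, lo - t ≤ i → i ≤ j → j ≤ hi + t → seg w g i j = T Set.univ w (g i) (g j)} := by
    ext w
    refine ⟨fun ⟨γ, h1, h2⟩ t => ⟨γ, h2, fun i _ _ => h1.1 i, fun i j _ hij _ => h1.2 i j hij⟩,
      fun hw => ?_⟩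
    choose g h1 h2 h3 using hw
    have hadj : ∀ i, ∀ᶠ t in (hyperfilter ℕ : Filter ℕ), grid.Adj (g t i) (g t (i + 1)) := fun i => by
      filter_upwards [cpt_ev_ge (lo - i), cpt_ev_ge (i + 1 - hi)] with t a1 a2
      exact h2 t i (by omega) (by omega)
    obtain ⟨γ, hγ⟩ := ulim (hyperfilter ℕ) (fun t i => g t (i + lo)) {f lo} (Set.finite_singleton _)
      (Eventually.of_forall fun t => by rw [zero_add]; exact h1 t lo le_rfl h)
      fun i => by rw [add_right_comm]; exact hadj _
    have h4 : ∀ i, ∀ᶠ t in (hyperfilter ℕ : Filter ℕ), g t i = γ (i - lo) := fun i => by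
      simpa only [sub_add_cancel] using hγ (i - lo)
    refine ⟨fun i => γ (i - lo), ⟨fun i => ?_, fun i j hij => ?_⟩, fun i a1 a2 => ?_⟩
    · obtain ⟨t, a1, a2, a3⟩ := ((hadj i).and ((h4 i).and (h4 (i + 1)))).exists
      rwa [a2, a3] at a1
    · obtain ⟨t, a1, a2, a3⟩ := (((eventually_all_finset (Icc i j)).2 fun k _ => h4 k).and
        ((cpt_ev_ge (lo - i)).and (cpt_ev_ge (j - hi)))).exists
      simp only [mem_Icc, and_imp] at a1
      refine (cpt_seg_congr fun k hk hk' => ?_).trans ((h3 t i j (by omega) hij (by omega)).trans ?_)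
      · rw [a1 k hk hk'.le, a1 (k + 1) (by omega) (by omega)]
      · rw [a1 i le_rfl hij, a1 j hij le_rfl]
    · obtain ⟨t, a3⟩ := (h4 i).exists
      exact a3.symm.trans (h1 t i a1 a2)
  rw [key]
  refine (Measurable.forall fun t : ℕ => meas_ex_Icc (lo - t) (hi + t) _
    (fun g => measurable_const.and <| measurable_const.and <| Measurable.forall fun i =>
      Measurable.forall fun j => measurable_const.imp <| measurable_const.imp <|
        measurable_const.imp <| (measurable_seg g i j).eq measurable_T) ?_).setOf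
  rintro g g' e w ⟨h1, h2, h3⟩
  refine ⟨fun i a1 a2 => (e i (by omega) (by omega)).symm.trans (h1 i a1 a2), fun i a1 a2 => ?_,
    fun i j a1 a2 a3 => ?_⟩
  · rw [← e i a1 a2.le, ← e (i + 1) (by omega) (by omega)]
    exact h2 i a1 a2
  · rw [← e i a1 (by omega), ← e j (by omega) a3, ← h3 i j a1 a2 a3]
    refine cpt_seg_congr fun k hk hk' => ?_
    rw [e k (by omega) (by omega), e (k + 1) (by omega) (by omega)]

theorem measurableSet_StEv (m ℓ : ℤ) (θ : Bool × ℤ) :
    MeasurableSet {w : Wt | StEv m ℓ θ w v} := by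
  have key : {w : Wt | StEv m ℓ θ w v} = {w : Wt | ∃ f, (f 0 = v ∧ Str m ℓ θ f 0) ∧
      ∃ γ, Bi w γ ∧ ∀ i, 0 ≤ i → i ≤ |ℓ| → γ i = f i} := by
    ext w
    exact ⟨fun ⟨γ, h1, h2⟩ => ⟨γ, h2, γ, h1, fun _ _ _ => rfl⟩, fun ⟨f, ⟨h1, h2⟩, γ, h3, h4⟩ =>
      ⟨γ, h3, (h4 0 le_rfl (abs_nonneg ℓ)).trans h1,
        meas_Str (fun i hi hi' => (h4 i hi hi').symm) h2⟩⟩
  rw [key]
  refine (meas_ex_Icc 0 |ℓ| _ (fun f => measurable_const.and
    (measurableSet_setOfPred.1 (measurableSet_ext f 0 _ (abs_nonneg ℓ)))) ?_).setOf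
  rintro f g e w ⟨⟨h1, h2⟩, γ, h3, h4⟩
  exact ⟨⟨e 0 le_rfl (abs_nonneg ℓ) ▸ h1, meas_Str e h2⟩, γ, h3,
    fun i hi hi' => (h4 i hi hi').trans (e i hi hi')⟩

theorem measurableSet_biSet (k : ℕ) :
    MeasurableSet {w : Wt | (k : ℕ∞) ≤ (biSet w a b).encard} := by
  have key : {w : Wt | (k : ℕ∞) ≤ (biSet w a b).encard} = {w : Wt | ∃ n : ℕ, ∃ f : Fin k → ℤ → V,
      (∀ j j', (∀ i : ℤ, -n ≤ i → i ≤ n + 1 → f j i = f j' i) → j = j') ∧
      ∀ j, (f j 0 = a ∧ f j 1 = b) ∧ ∃ γ, Bi w γ ∧ ∀ i : ℤ, -n ≤ i → i ≤ n + 1 → γ i = f j i} := by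
    ext w
    constructor
    · intro hw
      obtain ⟨f, h1, h2⟩ := (Set.finite_univ (α := Fin k)).exists_injOn_of_encard_le
        (t := biSet w a b) (by simpa using hw)
      have h3 : ∀ j j', ∀ᶠ n : ℕ in atTop,
          (∀ i : ℤ, -n ≤ i → i ≤ n + 1 → f j i = f j' i) → j = j' := fun j j' => by
        by_cases e : j = j'
        · exact Eventually.of_forall fun _ _ => e
        obtain ⟨i, hi⟩ := Function.ne_iff.1 (mt (h2 trivial trivial) e)
        filter_upwards [eventually_ge_atTop i.natAbs] with n hn h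
        exact absurd (h i (by omega) (by omega)) hi
      obtain ⟨n, hn⟩ := (eventually_all.2 fun j => eventually_all.2 (h3 j)).exists
      exact ⟨n, f, hn, fun j => ⟨(h1 trivial).2, f j, (h1 trivial).1, fun _ _ _ => rfl⟩⟩
    · rintro ⟨n, f, h1, h2⟩
      choose h2 γ h3 h4 using h2
      simpa using Set.encard_le_encard_of_injOn (f := γ) (s := Set.univ) (t := biSet w a b)
        (fun j _ => ⟨h3 j, (h4 j 0 (by omega) (by omega)).trans (h2 j).1,
          (h4 j 1 (by omega) (by omega)).trans (h2 j).2⟩)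
        fun j _ j' _ e => h1 j j' fun i a1 a2 => by rw [← h4 j i a1 a2, e, h4 j' i a1 a2]
  rw [key]
  refine (Measurable.exists fun n : ℕ => meas_ex
    (fun (f : Fin k → ℤ → V) j (i : Icc (-n : ℤ) (n + 1)) => f j i) _
    (fun f => measurable_const.and <| Measurable.forall fun j => measurable_const.and
      (measurableSet_setOfPred.1 (measurableSet_ext (f j) _ _ (by omega)))) ?_).setOf
  rintro f g e w ⟨h1, h2⟩
  have e' : ∀ j (i : ℤ), -n ≤ i → i ≤ n + 1 → f j i = g j i := fun j i a1 a2 =>
    congrFun (congrFun e j) ⟨i, mem_Icc.2 ⟨a1, a2⟩⟩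
  refine ⟨fun j j' h => h1 j j' fun i a1 a2 => by rw [e' j i a1 a2, e' j' i a1 a2, h i a1 a2],
    fun j => ?_⟩
  obtain ⟨h3, γ, h4, h5⟩ := h2 j
  exact ⟨by rwa [← e' j 0 (by omega) (by omega), ← e' j 1 (by omega) (by omega)], γ, h4,
    fun i a1 a2 => (h5 i a1 a2).trans (e' j i a1 a2)⟩

end Vale.Agent.P158
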