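import Vale.Agent.P158.Basic

/-! Product-measure tools: swapping, resampling, independence, shifts, Peierls bound. -/

namespace Vale.Agent.P158

open Finset MeasureTheory Filter
open scoped NNReal ENNReal Classical Topology

variable {G : Measure ℝ≥0} [IsProbabilityMeasure G]

theorem measurable_mix (S : Set (Sym2 V)) : Measurable fun p : Om × Om => mix S p.2 p.1 := by
  refine measurable_pi_iff.2 fun e => ?_
  unfold mix
  split_ifs
  exacts [(measurable_pi_apply e).comp measurable_snd, (measurable_pi_apply e).comp measurable_fst]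

theorem Mix_reindex {α ι : Type*} {f : α → ι} (hf : Function.Injective f) :
    MeasurePreserving (fun (ω : ι → ℝ≥0) (i : α) => ω (f i)) (Measure.infinitePi fun _ => G)
      (Measure.infinitePi fun _ => G) :=
  ⟨measurable_pi_iff.2 fun _ => measurable_pi_apply _,
    Measure.map_infinitePi_infinitePi_of_inj (P := fun _ : ι => G) hf⟩

theorem Mix_join : MeasurePreserving
    (MeasurableEquiv.sumPiEquivProdPi fun _ : Sym2 V ⊕ Sym2 V => ℝ≥0).symm ((PP G).prod (PP G))
    (Measure.infinitePi fun _ => G) := by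
  refine ⟨MeasurableEquiv.measurable _, Measure.eq_infinitePi _ fun s t ht => ?_⟩
  have e : (MeasurableEquiv.sumPiEquivProdPi fun _ : Sym2 V ⊕ Sym2 V => ℝ≥0).symm ⁻¹'
      Set.pi s t = Set.pi s.toLeft (fun i => t (Sum.inl i)) ×ˢ
        Set.pi s.toRight fun i => t (Sum.inr i) := by
    ext p
    simp [MeasurableEquiv.sumPiEquivProdPi, Equiv.sumPiEquivProdPi, Set.mem_pi]
  rw [MeasurableEquiv.map_apply, e, Measure.prod_prod, PP,
    Measure.infinitePi_pi _ fun i _ => ht _, Measure.infinitePi_pi _ fun i _ => ht _,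
    prod_sum_eq_prod_toLeft_mul_prod_toRight]

theorem swap_mp (S : Set (Sym2 V)) :
    MeasurePreserving (fun p : Om × Om => (mix S p.2 p.1, mix S p.1 p.2))
      ((PP G).prod (PP G)) ((PP G).prod (PP G)) := by
  have h1 : Function.Involutive fun i : Sym2 V ⊕ Sym2 V =>
      if Sum.elim id id i ∈ S then i.swap else i := by
    rintro (e | e) <;> by_cases he : e ∈ S <;> simp [he]
  have h2 := (Mix_join (G := G)).symm.comp ((Mix_reindex h1.injective).comp Mix_join)
  convert h2 using 1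
  funext p
  refine Prod.ext (funext fun e => ?_) (funext fun e => ?_) <;> by_cases he : e ∈ S <;>
    simp [mix, he, MeasurableEquiv.sumPiEquivProdPi, Equiv.sumPiEquivProdPi]

theorem mix_mp (S : Set (Sym2 V)) :
    MeasurePreserving (fun p : Om × Om => mix S p.2 p.1) ((PP G).prod (PP G)) (PP G) :=
  measurePreserving_fst.comp (swap_mp S)

theorem eval_mp (e : Sym2 V) : MeasurePreserving (fun ω : Om => ω e) (PP G) G :=
  measurePreserving_eval_infinitePi (fun _ => G) e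

theorem res {p : Om → Prop} (h : ∀ᵐ ω ∂PP G, p ω) :
    ∀ᵐ ω ∂PP G, ∀ S : Finset (Sym2 V), ∀ᵐ y ∂PP G, p (mix S y ω) :=
  ae_all_iff.2 fun S =>
    Measure.ae_ae_of_ae_prod ((mix_mp (S : Set (Sym2 V))).quasiMeasurePreserving.ae h)

theorem res2 {p : Om → Prop} (h : ∀ᵐ ω ∂PP G, p ω) :
    ∀ᵐ z ∂(PP G).prod (PP G), p z.1 ∧ ∀ S : Finset (Sym2 V), p (mix S z.2 z.1) :=
  (measurePreserving_fst.quasiMeasurePreserving.ae h).and
    (ae_all_iff.2 fun S => (mix_mp (S : Set (Sym2 V))).quasiMeasurePreserving.ae h)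

theorem pick {p : Om → Prop} (h : ∀ᵐ y ∂PP G, p y) (S : Finset (Sym2 V))
    (I : Sym2 V → Set ℝ≥0) (hI : ∀ e, MeasurableSet (I e)) (h0 : ∀ e ∈ S, G (I e) ≠ 0) :
    ∃ y, p y ∧ ∀ e ∈ S, y e ∈ I e := by
  have h1 : PP G (Set.pi S I) ≠ 0 := by
    rw [PP, Measure.infinitePi_pi _ fun e _ => hI e]
    exact prod_ne_zero_iff.2 h0
  obtain ⟨y, hy, hp⟩ := Measure.exists_mem_of_measure_ne_zero_of_ae h1 (ae_restrict_of_ae h)
  exact ⟨y, hp, hy⟩

theorem indep_dep {S S' : Set (Sym2 V)} {A A' : Set Om} (hd : Disjoint S S') (hA : Dep S A)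
    (hA' : Dep S' A') (mA : MeasurableSet A) (mA' : MeasurableSet A') :
    PP G (A ∩ A') = PP G A * PP G A' := by
  have e : (fun p : Om × Om => mix S p.2 p.1) ⁻¹' (A ∩ A') = A' ×ˢ A := by
    ext p
    rw [Set.mem_preimage, Set.mem_inter_iff, Set.mem_prod, and_comm,
      hA (mix S p.2 p.1) p.2 fun e he => if_pos he,
      hA' (mix S p.2 p.1) p.1 fun e he => if_neg (Set.disjoint_right.1 hd he)]
  rw [← (mix_mp S).measure_preimage (mA.inter mA').nullMeasurableSet, e, Measure.prod_prod,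
    mul_comm]

theorem indep_dep_finset {ι : Type*} (I : Finset ι) (S : ι → Set (Sym2 V)) (A : ι → Set Om)
    (hd : ∀ i ∈ I, ∀ j ∈ I, i ≠ j → Disjoint (S i) (S j)) (hA : ∀ i ∈ I, Dep (S i) (A i))
    (mA : ∀ i ∈ I, MeasurableSet (A i)) : PP G (⋂ i ∈ I, A i) = ∏ i ∈ I, PP G (A i) := by
  induction I using Finset.induction_on with
  | empty => simp
  | insert i I hi ih =>
    have h1 : ∀ j ∈ I, j ∈ insert i I := fun j hj => mem_insert_of_mem hj
    rw [set_biInter_insert, prod_insert hi, ← ih (fun j hj k hk => hd j (h1 j hj) k (h1 k hk))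
      (fun j hj => hA j (h1 j hj)) fun j hj => mA j (h1 j hj)]
    refine indep_dep (S' := ⋃ j ∈ I, S j) (Set.disjoint_iUnion₂_right.2 fun j hj =>
      hd i (mem_insert_self _ _) j (h1 j hj) fun e => hi (e ▸ hj)) (hA i (mem_insert_self _ _))
      (fun ω ω' h => ?_) (mA i (mem_insert_self _ _))
      (Finset.measurableSet_biInter _ fun j hj => mA j (h1 j hj))
    simp only [Set.mem_iInter]
    exact forall₂_congr fun j hj => hA j (h1 j hj) _ _ fun e he => h e (Set.mem_biUnion hj he)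

theorem edgesIn_disjoint {Q Q' : Set V} (h : Disjoint Q Q') :
    Disjoint (edgesIn Q) (edgesIn Q') :=
  Set.disjoint_left.2 fun e h1 h2 =>
    Set.disjoint_left.1 h (h1 _ e.out_fst_mem) (h2 _ e.out_fst_mem)

theorem lintegral_prod_coord (S : Finset (Sym2 V)) (f : Sym2 V → ℝ≥0 → ℝ≥0∞)
    (hf : ∀ e, Measurable (f e)) :
    ∫⁻ ω, ∏ e ∈ S, f e (ω e) ∂PP G = ∏ e ∈ S, ∫⁻ t, f e t ∂G := by
  rw [ProbabilityTheory.lintegral_prod_eq_prod_lintegral_of_indepFun (μ := PP G) S
    (fun e (ω : Om) => f e (ω e)) (ProbabilityTheory.iIndepFun_infinitePi hf)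
    fun e => (hf e).comp (measurable_pi_apply e)]
  exact prod_congr rfl fun e _ => (eval_mp e).lintegral_comp (hf e)

theorem measurable_shiftO (s : V) : Measurable (shiftO s) :=
  measurable_pi_iff.2 fun _ => measurable_pi_apply _

theorem shift_mp (s : V) : MeasurePreserving (shiftO s) (PP G) (PP G) :=
  Mix_reindex (Sym2.map.injective (add_left_injective s))

theorem shiftO_add (s s' : V) (ω : Om) : shiftO s (shiftO s' ω) = shiftO (s + s') ω := by
  funext e
  simp only [shiftO, Sym2.map_map, Function.comp_def, add_assoc]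

/-- Invariance of the outer measure. -/
theorem measure_shift (s : V) (A : Set Om) : PP G (shiftO s ⁻¹' A) = PP G A := by
  have h0 : ∀ ω, shiftO 0 ω = ω := fun ω => by
    funext e
    simp [shiftO]
  let E : Om ≃ᵐ Om :=
    { toFun := shiftO s
      invFun := shiftO (-s)
      left_inv := fun ω => by rw [shiftO_add, neg_add_cancel, h0]
      right_inv := fun ω => by rw [shiftO_add, add_neg_cancel, h0]
      measurable_toFun := measurable_shiftO s
      measurable_invFun := measurable_shiftO (-s) }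
  exact MeasurePreserving.measure_preimage_equiv (f := E) (shift_mp s) A

theorem avg (Y : V → V → Om → ℝ≥0∞) (hm : ∀ o a, Measurable (Y o a))
    (hcov : ∀ o a s ω, Y (o + s) (a + s) ω = Y o a (shiftO s ω)) (C : Finset V)
    (hC : C.Nonempty) (β : ℝ≥0∞) (hβ : ∫⁻ ω, ∑ v ∈ C, Y 0 v ω ∂PP G ≤ β * C.card) (a : V) :
    ∃ v ∈ C, ∫⁻ ω, Y (a - v) a ω ∂PP G ≤ β := by
  by_contra hn
  push Not at hn
  have h1 : ∀ v ∈ C, β < ∫⁻ ω, Y 0 v ω ∂PP G := fun v hv => by
    refine (hn v hv).trans_eq ?_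
    rw [← (shift_mp (a - v)).lintegral_comp (hm 0 v)]
    refine lintegral_congr fun ω => ?_
    rw [← hcov, zero_add, add_sub_cancel]
  have h2 := ENNReal.sum_lt_sum_of_nonempty hC h1
  rw [sum_const, nsmul_eq_mul, mul_comm, ← lintegral_finsetSum _ fun v _ => hm 0 v] at h2
  exact h2.not_ge hβ

theorem acc [NullSingletonClass G] : ∀ᵐ (t : ℝ≥0) ∂G, ∀ ε : ℝ, 0 < ε →
    G {s : ℝ≥0 | (t : ℝ) < s ∧ (s : ℝ) < t + ε} ≠ 0 ∧
      G {s : ℝ≥0 | (t : ℝ) - ε < s ∧ (s : ℝ) < t} ≠ 0 := by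
  let I : ℝ → ℝ → Set ℝ≥0 := fun a b => {s | a < s ∧ (s : ℝ) < b}
  have hm : ∀ {a a' b b' : ℝ}, a ≤ a' → b' ≤ b → G (I a b) = 0 → G (I a' b') = 0 :=
    fun h1 h2 h => measure_mono_null
      (fun s hs => And.intro (h1.trans_lt hs.1) (hs.2.trans_le h2)) h
  have h1 : ∀ᵐ (t : ℝ≥0) ∂G, ∀ r q : ℚ, G (I r q) = 0 → t ∉ I r q := by
    refine ae_all_iff.2 fun r => ae_all_iff.2 fun q => ?_
    by_cases h : G (I r q) = 0
    · filter_upwards [measure_eq_zero_iff_ae_notMem.1 h] with t ht _ using ht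
    · exact Eventually.of_forall fun t h' => absurd h' h
  have h2 : ∀ᵐ (t : ℝ≥0) ∂G, ∀ q : ℚ,
      t ∉ {t : ℝ≥0 | G (I t q) = 0 ∧ ∀ a : ℝ, a < t → G (I a q) ≠ 0} := by
    refine ae_all_iff.2 fun q => measure_eq_zero_iff_ae_notMem.1
      (Set.Subsingleton.measure_zero (fun s hs t ht => ?_) G)
    exact le_antisymm (not_lt.1 fun h => hs.2 t h ht.1) (not_lt.1 fun h => ht.2 s h hs.1)
  have h3 : ∀ᵐ (t : ℝ≥0) ∂G, ∀ q : ℚ,
      t ∉ {t : ℝ≥0 | G (I q t) = 0 ∧ ∀ a : ℝ, t < a → G (I q a) ≠ 0} := by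
    refine ae_all_iff.2 fun q => measure_eq_zero_iff_ae_notMem.1
      (Set.Subsingleton.measure_zero (fun s hs t ht => ?_) G)
    exact le_antisymm (not_lt.1 fun h => ht.2 s h hs.1) (not_lt.1 fun h => hs.2 t h ht.1)
  filter_upwards [h1, h2, h3] with t h1 h2 h3 ε hε
  refine ⟨fun h => ?_, fun h => ?_⟩
  · obtain ⟨q, k1, k2⟩ := exists_rat_btwn (lt_add_of_pos_right (t : ℝ) hε)
    refine h2 q ⟨hm le_rfl k2.le h, fun a ha h' => ?_⟩
    obtain ⟨r, k3, k4⟩ := exists_rat_btwn ha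
    exact h1 r q (hm k3.le le_rfl h') ⟨k4, k1⟩
  · obtain ⟨q, k1, k2⟩ := exists_rat_btwn (sub_lt_self (t : ℝ) hε)
    refine h3 q ⟨hm k1.le le_rfl h, fun a ha h' => ?_⟩
    obtain ⟨r, k3, k4⟩ := exists_rat_btwn ha
    exact h1 q r (hm le_rfl k4.le h') ⟨k2, k3⟩

theorem Mix_small {s : ℕ → Set ℝ≥0} (hs : ∀ n, MeasurableSet (s n)) (ha : Antitone s)
    (h0 : G (⋂ n, s n) = 0) : ∃ n, G (s n) ≤ 1 / 2048 := by
  have h := tendsto_measure_iInter_atTop (μ := G) (fun n => (hs n).nullMeasurableSet) ha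
    ⟨0, measure_ne_top _ _⟩
  rw [h0] at h
  exact (h.eventually_le_const (by norm_num : (0 : ℝ≥0∞) < 1 / 2048)).exists

theorem par_exists [NullSingletonClass G] : ∃ q1 q2 M, Par G q1 q2 M := by
  obtain ⟨N, hN⟩ := Mix_small (G := G) (s := fun n => Set.Ioi (n : ℝ≥0))
    (fun _ => measurableSet_Ioi) (fun m n h => Set.Ioi_subset_Ioi (Nat.cast_le.2 h)) (by
      convert measure_empty (μ := G)
      refine Set.eq_empty_of_forall_notMem fun t ht => ?_
      obtain ⟨n, hn⟩ := exists_nat_gt t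
      exact (Set.mem_iInter.1 ht n).not_gt hn)
  have hne : {q : ℝ≥0 | G (Set.Iic q) ≠ 0}.Nonempty := by
    refine ⟨N, fun h => ?_⟩
    have h1 := measure_union_le (μ := G) (Set.Iic (N : ℝ≥0)) (Set.Ioi N)
    rw [Set.Iic_union_Ioi, measure_univ, h, zero_add] at h1
    exact absurd (h1.trans hN) (by norm_num)
  obtain ⟨a, ha⟩ : ∃ a, a = sInf {q : ℝ≥0 | G (Set.Iic q) ≠ 0} := ⟨_, rfl⟩
  have h1 : G (Set.Iic a) = 0 := by
    rw [← measure_congr Iio_ae_eq_Iic]
    refine measure_null_of_locally_null _ fun x hx => ?_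
    obtain ⟨y, k1, k2⟩ := exists_between (Set.mem_Iio.1 hx)
    exact ⟨Set.Iic y, mem_nhdsWithin_of_mem_nhds (Iic_mem_nhds k1),
      not_not.1 (notMem_of_lt_csInf (ha ▸ k2) (OrderBot.bddBelow _))⟩
  obtain ⟨n, hn⟩ := Mix_small (G := G) (s := fun n => Set.Iic (a + 1 / ((n : ℝ≥0) + 1)))
    (fun _ => measurableSet_Iic) (fun m n h => Set.Iic_subset_Iic.2 (by gcongr)) (by
      refine measure_mono_null (fun t ht => ?_) h1
      refine le_of_forall_pos_le_add (a := t) (b := a) fun ε hε => ?_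
      obtain ⟨n, hn⟩ := exists_nat_one_div_lt hε
      exact (Set.mem_iInter.1 ht n).trans (add_le_add le_rfl hn.le))
  obtain ⟨q, hq, hq'⟩ := exists_lt_of_csInf_lt hne (ha.ge.trans_lt (lt_add_of_pos_right a
    (by positivity : 0 < 1 / ((n : ℝ≥0) + 1))))
  refine ⟨q, _, a + 1 / ((n : ℝ≥0) + 1) + 1 + N, hq', ?_, hq, ?_⟩
  · exact (lt_add_one _).trans_le le_self_add
  · refine le_trans (measure_mono fun t ht => ?_) ((measure_union_le _ _).trans
      ((add_le_add hn hN).trans_eq ?_))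
    · by_contra h
      simp only [Set.mem_union, Set.mem_Iic, Set.mem_Ioi, not_or, not_le, not_lt] at h
      exact ht ⟨h.1, h.2.trans le_add_self⟩
    · rw [ENNReal.div_add_div_same, ENNReal.div_eq_div_iff] <;> norm_num

theorem Mix_path {q1 q2 M : ℝ≥0} (hP : Par G q1 q2 M) {f : ℤ → V} {n : ℕ} (hf : PathFn f 0 n) :
    PP G {ω | 2 * cntA q2 M (fun e => (ω e : ℝ)) f 0 n ≤ n} ≤ 16⁻¹ ^ n := by
  let h : ℝ≥0 → ℝ≥0∞ := fun t => if t ∈ Set.Ioc q2 M then 32⁻¹ else 32
  have hm : Measurable h := Measurable.ite measurableSet_Ioc measurable_const measurable_const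
  have hi : Set.InjOn (fun i => s(f i, f (i + 1))) (Ico (0 : ℤ) n) := fun i hi j hj e =>
    hf.edge_inj (mem_Ico.1 hi).1 (mem_Ico.1 hi).2 (mem_Ico.1 hj).1 (mem_Ico.1 hj).2 e
  have h1 : ∫⁻ t, h t ∂G ≤ 16⁻¹ := by
    have k : ∀ t, h t ≤ 32⁻¹ + (Set.Ioc q2 M)ᶜ.indicator (fun _ => 32) t := fun t => by
      by_cases ht : t ∈ Set.Ioc q2 M
      · simp only [h, if_pos ht]
        exact le_self_add
      · simp only [h, if_neg ht, Set.indicator_of_mem (Set.mem_compl ht)]
        exact le_add_self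
    refine (lintegral_mono k).trans ?_
    rw [lintegral_add_left measurable_const, lintegral_const, measure_univ, mul_one,
      lintegral_indicator_const measurableSet_Ioc.compl]
    refine (add_le_add le_rfl (mul_le_mul_right hP.hA _)).trans_eq ?_
    rw [← ENNReal.toReal_eq_toReal_iff' (by finiteness) (by finiteness),
      ENNReal.toReal_add (by finiteness) (by finiteness)]
    norm_num
  refine (meas_le_lintegral₀ (f := fun ω => ∏ e ∈ (Ico (0 : ℤ) n).image
    fun i => s(f i, f (i + 1)), h (ω e)) (Finset.measurable_prod _ fun e _ =>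
      hm.comp (measurable_pi_apply e)).aemeasurable fun ω hω => ?_).trans ?_
  · rw [prod_image hi, prod_ite, prod_const, prod_const]
    have k1 := card_filter_add_card_filter_not (s := Ico (0 : ℤ) n)
      fun i => ω s(f i, f (i + 1)) ∈ Set.Ioc q2 M
    have k2 : cntA q2 M (fun e => (ω e : ℝ)) f 0 n =
        ((Ico (0 : ℤ) n).filter fun i => ω s(f i, f (i + 1)) ∈ Set.Ioc q2 M).card :=
      congrArg card (filter_congr fun i _ => by simp)
    rw [Set.mem_ofPred_eq, k2] at hω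
    rw [Int.card_Ico, sub_zero, Int.toNat_natCast] at k1
    refine le_trans ?_ (mul_le_mul_right (pow_le_pow_right₀ (by norm_num)
      (by omega : ((Ico (0 : ℤ) n).filter fun i => ω s(f i, f (i + 1)) ∈ Set.Ioc q2 M).card ≤ _)) _)
    rw [← mul_pow, ENNReal.inv_mul_cancel (by norm_num) (by norm_num), one_pow]
  · rw [lintegral_prod_coord _ (fun _ => h) fun _ => hm]
    refine (prod_le_pow_card _ _ _ fun _ _ => h1).trans_eq ?_
    rw [card_image_of_injOn hi, Int.card_Ico, sub_zero, Int.toNat_natCast]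

/-- Peierls bound, in terms of the raw configuration. -/
theorem peierls {q1 q2 M : ℝ≥0} (hP : Par G q1 q2 M) (x : V) (k : ℕ) :
    PP G {ω | ¬ Pe q2 M (fun e => (ω e : ℝ)) x k} ≤ 2 * 2⁻¹ ^ k := by
  let D : Finset V := {(1, 0), (-1, 0), (0, 1), (0, -1)}
  let E : (n : ℕ) → (Fin n → V) → Set Om := fun n d => {ω | ∃ f : ℤ → V, f 0 = x ∧ PathFn f 0 n ∧
    (∀ j : Fin n, f (j + 1) - f j = d j) ∧ 2 * cntA q2 M (fun e => (ω e : ℝ)) f 0 n ≤ n}
  have h1 : ∀ n d, PP G (E n d) ≤ 16⁻¹ ^ n := fun n d => by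
    rcases (E n d).eq_empty_or_nonempty with h | ⟨ω₀, f, k1, k2, k3, -⟩
    · rw [h, measure_empty]
      exact zero_le
    refine le_trans (measure_mono ?_) (Mix_path hP k2)
    rintro ω ⟨g, l1, -, l3, l4⟩
    have e : ∀ j : ℕ, j ≤ n → g j = f j := fun j => by
      induction j with
      | zero => exact fun _ => l1.trans k1.symm
      | succ j ih =>
        intro hj
        have := (l3 ⟨j, hj⟩).trans (k3 ⟨j, hj⟩).symm
        rw [ih (Nat.le_of_succ_le hj), sub_left_inj] at this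
        exact_mod_cast this
    refine le_of_eq_of_le (congrArg (fun t => 2 * card t) (filter_congr fun i hi => ?_)) l4
    obtain ⟨i0, i1⟩ := mem_Ico.1 hi
    lift i to ℕ using i0
    have i2 : i + 1 ≤ n := by omega
    have := e _ i2
    push_cast at this
    rw [e i (by omega), this]
  have h2 : {ω : Om | ¬ Pe q2 M (fun e => (ω e : ℝ)) x k} ⊆
      ⋃ m : ℕ, ⋃ d ∈ Fintype.piFinset fun _ : Fin (k + m) => D, E (k + m) d := by
    intro ω hω
    simp only [Pe, Set.mem_ofPred_eq, not_forall, not_le] at hω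
    obtain ⟨f, n, k1, k2, k3, k4⟩ := hω
    obtain ⟨m, rfl⟩ : ∃ m : ℕ, n = ((k + m : ℕ) : ℤ) := ⟨(n - k).toNat, by omega⟩
    refine Set.mem_iUnion.2 ⟨m, Set.mem_iUnion₂.2 ⟨fun j : Fin (k + m) => f (j + 1) - f j,
      Fintype.mem_piFinset.2 fun j => ?_, f, k1, k3, fun _ => rfl, by omega⟩⟩
    have := adj_iff.1 (k3.1 j (by omega) (by exact_mod_cast j.2))
    simp only [D, mem_insert, mem_singleton, Prod.ext_iff, Prod.fst_sub, Prod.snd_sub]
    omega
  refine (measure_mono h2).trans ((measure_iUnion_le _).trans ?_)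
  have h3 : ∀ n : ℕ, PP G (⋃ d ∈ Fintype.piFinset fun _ : Fin n => D, E n d) ≤ 2⁻¹ ^ n := by
    intro n
    refine (measure_biUnion_finset_le _ _).trans ((sum_le_card_nsmul _ _ _ fun d _ =>
      h1 n d).trans ?_)
    have hD : D.card = 4 := by decide
    rw [Fintype.card_piFinset_const, hD, nsmul_eq_mul, Nat.cast_pow, ← mul_pow]
    refine pow_le_pow_left₀ zero_le ?_ n
    rw [← ENNReal.toReal_le_toReal (by finiteness) (by finiteness)]
    norm_num
  refine (ENNReal.tsum_le_tsum fun m => h3 (k + m)).trans_eq ?_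
  simp only [pow_add]
  rw [ENNReal.tsum_mul_left, ENNReal.tsum_geometric, ENNReal.one_sub_inv_two, inv_inv, mul_comm]

end Vale.Agent.P158
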