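import Vale.Agent.P158.Defs

/-! All internal definitions of the no-bigeodesics proof. -/

namespace Vale.Agent.P158

open Finset MeasureTheory
open scoped NNReal ENNReal Classical

abbrev V := ℤ × ℤ
abbrev Wt := Sym2 V → ℝ

/-! ### Passage times restricted to a vertex set -/

def wt (w : Wt) {x y : V} (p : grid.Walk x y) : ℝ := (p.edges.map w).sum

def In (S : Set V) {x y : V} (p : grid.Walk x y) : Prop := ∀ v ∈ p.support, v ∈ S

noncomputable def T (S : Set V) (w : Wt) (x y : V) : ℝ :=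
  ⨅ p : {p : grid.Walk x y // In S p}, wt w p.1

def Conn (S : Set V) : Prop := ∀ x ∈ S, ∀ y ∈ S, ∃ p : grid.Walk x y, In S p

def NN (w : Wt) : Prop := ∀ e, 0 ≤ w e

/-- `c` lies on the `S`-geodesic from `x` to `y`. -/
def On (S : Set V) (w : Wt) (x c y : V) : Prop := c ∈ S ∧ T S w x c + T S w c y = T S w x y

/-- The oriented edge `a → b` lies on the `S`-geodesic from `x` to `y`. -/
def DartOn (S : Set V) (w : Wt) (x y a b : V) : Prop :=
  grid.Adj a b ∧ a ∈ S ∧ b ∈ S ∧ T S w x a + w s(a, b) + T S w b y = T S w x y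

def EdgeOn (S : Set V) (w : Wt) (x y : V) (e : Sym2 V) : Prop :=
  ∃ a b, e = s(a, b) ∧ DartOn S w x y a b

/-- `d` is the vertex after `c` on the `S`-geodesic from `c` to `z`. -/
def Child (S : Set V) (w : Wt) (c z d : V) : Prop :=
  grid.Adj c d ∧ d ∈ S ∧ w s(c, d) + T S w d z = T S w c z

def Touch (S : Set V) (w : Wt) (B : Set V) (x y : V) : Prop := ∃ c ∈ B, On S w x c y

noncomputable def seg (w : Wt) (f : ℤ → V) (i j : ℤ) : ℝ := ∑ k ∈ Ico i j, w s(f k, f (k + 1))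

def PathFn (f : ℤ → V) (lo hi : ℤ) : Prop :=
  (∀ i, lo ≤ i → i < hi → grid.Adj (f i) (f (i + 1))) ∧ Set.InjOn f (Set.Icc lo hi)

structure Nice (w : Wt) : Prop where
  pos : ∀ e, 0 < w e
  uniq : ∀ (x y : V) (p q : grid.Walk x y), p.IsPath → q.IsPath → wt w p = wt w q → p = q
  proper : ∀ (x : V) (C : ℝ), ∃ k : ℤ, ∀ (f : ℤ → V) (n : ℤ), f 0 = x → k ≤ n → PathFn f 0 n →
    C < seg w f 0 n

structure GeoFn (S : Set V) (w : Wt) (x y : V) (f : ℤ → V) (lo hi : ℤ) : Prop where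
  le : lo ≤ hi
  start : f lo = x
  stop : f hi = y
  adj : ∀ i, lo ≤ i → i < hi → grid.Adj (f i) (f (i + 1))
  mem : ∀ i, lo ≤ i → i ≤ hi → f i ∈ S
  add : ∀ i j, lo ≤ i → i ≤ j → j ≤ hi → seg w f i j = T S w (f i) (f j)

/-- Bigeodesic for real weights (injectivity follows when the weights are positive). -/
def Bi (w : Wt) (γ : ℤ → V) : Prop :=
  (∀ i, grid.Adj (γ i) (γ (i + 1))) ∧ ∀ i j, i ≤ j → seg w γ i j = T Set.univ w (γ i) (γ j)

/-- Raise the single edge `e` by `δ`. -/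
noncomputable def upE (w : Wt) (e : Sym2 V) (δ : ℝ) : Wt := Function.update w e (w e + δ)

def shiftW (s : V) (w : Wt) : Wt := fun e => w (e.map (· + s))

noncomputable def ind (p : Prop) : ℝ := if p then 1 else 0

/-! ### Boxes and the boundary cycle -/

def rect (c : V) (m n : ℤ) : Set V :=
  {v | c.1 ≤ v.1 ∧ v.1 ≤ c.1 + m ∧ c.2 ≤ v.2 ∧ v.2 ≤ c.2 + n}

noncomputable def rectF (c : V) (m n : ℤ) : Finset V := Icc c.1 (c.1 + m) ×ˢ Icc c.2 (c.2 + n)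

def box (o : V) (n : ℤ) : Set V := rect o n n

noncomputable def boxF (o : V) (n : ℤ) : Finset V := rectF o n n

def ball (a : V) (r : ℤ) : Set V := rect (a.1 - r, a.2 - r) (2 * r) (2 * r)

noncomputable def ballF (a : V) (r : ℤ) : Finset V := rectF (a.1 - r, a.2 - r) (2 * r) (2 * r)

def bdry (o : V) (n : ℤ) : Set V :=
  {v | v ∈ box o n ∧ (v.1 = o.1 ∨ v.1 = o.1 + n ∨ v.2 = o.2 ∨ v.2 = o.2 + n)}

/-- Counterclockwise boundary cycle of `box o n`, periodic with period `4 n`. -/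
def bd (o : V) (n : ℤ) (i : ℤ) : V :=
  if i % (4 * n) < n then (o.1 + i % (4 * n), o.2)
  else if i % (4 * n) < 2 * n then (o.1 + n, o.2 + (i % (4 * n) - n))
  else if i % (4 * n) < 3 * n then (o.1 + n - (i % (4 * n) - 2 * n), o.2 + n)
  else (o.1, o.2 + n - (i % (4 * n) - 3 * n))

/-- The piece of `γ` around index `0` between two boundary visits, inside the box. -/
def Pass (o : V) (n : ℤ) (γ : ℤ → V) (lo hi : ℤ) : Prop :=
  lo ≤ 0 ∧ 0 ≤ hi ∧ (∀ k, lo ≤ k → k ≤ hi → γ k ∈ box o n) ∧ γ lo ∈ bdry o n ∧ γ hi ∈ bdry o n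

/-! ### The chord (Kalmanson) measure of a box -/

noncomputable def gcell (o : V) (n : ℤ) (w : Wt) (i j : ℤ) : ℝ :=
  T (box o n) w (bd o n i) (bd o n (j - 1)) + T (box o n) w (bd o n (i + 1)) (bd o n j)
    - T (box o n) w (bd o n i) (bd o n j) - T (box o n) w (bd o n (i + 1)) (bd o n (j - 1))

noncomputable def mass (o : V) (n : ℤ) (w : Wt) (φ : V → V → ℝ) : ℝ :=
  ∑ i ∈ Ico 0 (8 * n), ∑ j ∈ Icc (i + 2) (i + 4 * n),
    gcell o n w i j * φ (bd o n i) (bd o n j)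

noncomputable def perim (o : V) (n : ℤ) (w : Wt) : ℝ :=
  ∑ i ∈ Ico 0 (4 * n), w s(bd o n i, bd o n (i + 1))

/-- Darts of the box geodesic from `x` to `y` with both ends in `ball a R`. -/
def dset (o : V) (n : ℤ) (w : Wt) (a : V) (R : ℤ) (x y : V) : Set (V × V) :=
  {d | d.1 ∈ ball a R ∧ d.2 ∈ ball a R ∧ DartOn (box o n) w x y d.1 d.2}

/-- Number of vertices of `F` on the `S`-geodesic from `x` to `y`. -/
noncomputable def cntOn (S : Set V) (w : Wt) (x y : V) (F : Finset V) : ℕ :=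
  (F.filter fun v => On S w x v y).card

/-- Number of edges of `J` on the `S`-geodesic from `x` to `y`. -/
noncomputable def cntE (S : Set V) (w : Wt) (x y : V) (J : Finset (Sym2 V)) : ℕ :=
  (J.filter fun e => EdgeOn S w x y e).card

/-- Good box: boundary geodesics are linearly long, geodesics between neighbouring boundary
points are short. -/
def GEv (C : ℝ) (o : V) (n : ℤ) (w : Wt) : Prop :=
  (∀ i j, (cntOn (box o n) w (bd o n i) (bd o n j) (boxF o n) : ℝ) ≤ C * n) ∧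
    ∀ i v, On (box o n) w (bd o n i) v (bd o n (i + 1)) → v ∈ ball (bd o n i) (n / 8)

/-! ### Branching, compatibility -/

noncomputable def raiseAt (c : V) (δ : ℝ) (w : Wt) : Wt :=
  fun e => w e + if c ∈ e then δ else 0

/-- Finite-volume branch point with slack `δ`. -/
def BrEv (o : V) (n : ℤ) (δ : ℝ) (w : Wt) (c : V) : Prop :=
  ∃ a b b' : ℤ, 0 ≤ a ∧ a < 4 * n ∧ a ≤ b ∧ b ≤ b' ∧ b' < a + 4 * n ∧
    On (box o n) w (bd o n a) c (bd o n b) ∧ On (box o n) w (bd o n a) c (bd o n b') ∧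
    (∃ d d', d ≠ d' ∧ Child (box o n) w c (bd o n b) d ∧ Child (box o n) w c (bd o n b') d') ∧
    T (box o n) w (bd o n a) (bd o n b) + δ ≤ T (box o n) (raiseAt c δ w) (bd o n a) (bd o n b) ∧
    T (box o n) w (bd o n a) (bd o n b') + δ ≤ T (box o n) (raiseAt c δ w) (bd o n a) (bd o n b')

/-- Two bigeodesics branching at `c`, both surviving when the last common edge is raised. -/
def SlBr (δ : ℝ) (w : Wt) (c : V) : Prop :=
  ∃ γ γ' : ℤ → V, Bi w γ ∧ Bi w γ' ∧ γ 0 = c ∧ (∀ i, i ≤ 0 → γ i = γ' i) ∧ γ 1 ≠ γ' 1 ∧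
    Bi (upE w s(γ (-1), γ 0) δ) γ ∧ Bi (upE w s(γ (-1), γ 0) δ) γ'

def NoBr (w : Wt) : Prop :=
  ∀ γ γ' : ℤ → V, Bi w γ → Bi w γ' → (∀ i, i ≤ 0 → γ i = γ' i) → γ = γ'

/-- The backward half of `γ₂` and the forward half of `γ₁` are compatible. -/
def Compat (w : Wt) (γ₂ γ₁ : ℤ → V) : Prop :=
  ∃ C : ℝ, ∀ i j, i ≤ 0 → 0 ≤ j →
    T Set.univ w (γ₂ i) (γ₂ 0) + T Set.univ w (γ₁ 0) (γ₁ j) ≤ T Set.univ w (γ₂ i) (γ₁ j) + C

def Eqv (γ γ' : ℤ → V) : Prop := ∃ d : ℤ, ∀ i, γ' i = γ (i + d)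

def R1 (w : Wt) : Prop :=
  ∀ γ₂ γ₁ : ℤ → V, Bi w γ₂ → Bi w γ₁ → Compat w γ₂ γ₁ → ∀ j k m₀ : ℤ, 0 ≤ k →
    ∃ m, m ≤ m₀ ∧ On Set.univ w (γ₂ m) (γ₁ (j - k)) (γ₁ j)

def KP (w : Wt) (B : Set V) : Prop :=
  ∀ γ₂ γ₁ : ℤ → V, Bi w γ₂ → Bi w γ₁ → γ₂ 0 ∈ B → γ₁ 0 ∈ B → Compat w γ₂ γ₁ → Eqv γ₂ γ₁

/-- In large boxes the geodesic from the entry point of `γ` to the exit point of `γ'` misses
`ball a R`. -/
def SepP (w : Wt) (a : V) (R : ℤ) (γ γ' : ℤ → V) : Prop :=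
  ∃ L : ℤ, ∀ o n lo hi lo' hi', ball a L ⊆ box o n → Pass o n γ lo hi → Pass o n γ' lo' hi' →
    ¬ Touch (box o n) w (ball a R) (γ lo) (γ' hi')

/-- Bigeodesics through the dart `a → b`. -/
def biSet (w : Wt) (a b : V) : Set (ℤ → V) := {γ | Bi w γ ∧ γ 0 = a ∧ γ 1 = b}

/-- Positive slack at the first edge. -/
def SlEv (δ : ℝ) (w : Wt) (a : V) : Prop :=
  ∃ γ : ℤ → V, Bi w γ ∧ γ 0 = a ∧ Bi (upE w s(γ 0, γ 1) δ) γ

/-! ### Peierls property and good points -/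

noncomputable def cntA (q M : ℝ) (w : Wt) (f : ℤ → V) (lo hi : ℤ) : ℕ :=
  ((Ico lo hi).filter fun i => w s(f i, f (i + 1)) ∈ Set.Ioc q M).card

def Pe (q M : ℝ) (w : Wt) (x : V) (k : ℤ) : Prop :=
  ∀ (f : ℤ → V) (n : ℤ), f 0 = x → k ≤ n → PathFn f 0 n → n ≤ 2 * (cntA q M w f 0 n : ℤ)

def GoodPt (C : ℕ) (q M : ℝ) (w : Wt) (a : V) (ρ : ℤ) : Prop :=
  (∀ b ∈ ball a ρ, ∀ b' ∈ ball a ρ, T (ball a (C * ρ)) w b b' ≤ C * ρ) ∧
    ∀ b ∈ ball a ρ, Pe q M w b ρ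

def Good (C : ℕ) (q M : ℝ) (w : Wt) (a : V) (ρ ℓ : ℤ) : Prop :=
  ∀ v ∈ ball a (24 * ℓ), GoodPt C q M w v ρ ∧ GoodPt C q M w v (24 * ℓ)

/-! ### Strips and straightness -/

def sw (b : Bool) (v : V) : V := if b then v.swap else v

def strip (θ : Bool × ℤ) (m R Wd : ℤ) : Set V :=
  {v | |(sw θ.1 v).1| ≤ R ∧ |m * (sw θ.1 v).2 - θ.2 * (sw θ.1 v).1| ≤ Wd}

noncomputable def Th (m : ℤ) : Finset (Bool × ℤ) := univ ×ˢ Icc (-m) m

def Str (m ℓ : ℤ) (θ : Bool × ℤ) (f : ℤ → V) (i : ℤ) : Prop :=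
  ∀ t, 0 ≤ t → t ≤ ℓ → f (i + t) - f i ∈ strip θ m ℓ (5 * ℓ)

def NS (m ℓ : ℤ) (f : ℤ → V) (i : ℤ) : Prop := ∀ θ ∈ Th m, ¬ Str m ℓ θ f i

/-- The geodesic from `x` to `y` passes `v` and its next `ℓ` steps are in no strip. -/
def NSOn (S : Set V) (w : Wt) (x y : V) (m ℓ : ℤ) (v : V) : Prop :=
  ∃ f : ℤ → V, f 0 = v ∧ (∀ t, 0 ≤ t → t < ℓ → DartOn S w x y (f t) (f (t + 1))) ∧ NS m ℓ f 0

def StEv (m ℓ : ℤ) (θ : Bool × ℤ) (w : Wt) (v : V) : Prop :=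
  ∃ γ : ℤ → V, Bi w γ ∧ γ 0 = v ∧ Str m ℓ θ γ 0

/-- Starting points, `ℓ * l` of them (used with `ℓ = m * l`). -/
noncomputable def D1 (θ : Bool × ℤ) (m ℓ l : ℤ) : Finset V :=
  (Ico 0 ℓ ×ˢ Ico 0 l).image fun p => sw θ.1 (p.1, θ.2 * p.1 / m + p.2)

/-- The perturbation strip. -/
noncomputable def D2 (θ : Bool × ℤ) (m ℓ : ℤ) : Finset V :=
  (ballF 0 (12 * ℓ)).filter fun v => v ∈ strip θ m (2 * ℓ) (10 * ℓ)

noncomputable def edgesF (D : Finset V) : Finset (Sym2 V) :=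
  ((D ×ˢ D).filter fun p => grid.Adj p.1 p.2).image fun p => s(p.1, p.2)

noncomputable def cntJ (J : Finset (Sym2 V)) (γ : ℤ → V) (ℓ : ℤ) : ℕ :=
  ((Ico 0 ℓ).filter fun k => s(γ k, γ (k + 1)) ∈ J).card

/-! ### The probability space -/

abbrev Om := Sym2 V → ℝ≥0

noncomputable def PP (G : Measure ℝ≥0) : Measure Om := Measure.infinitePi fun _ => G

instance (G : Measure ℝ≥0) [IsProbabilityMeasure G] : IsProbabilityMeasure (PP G) := by
  unfold PP; infer_instance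

/-- `y` on `S`, `x` elsewhere. -/
noncomputable def mix (S : Set (Sym2 V)) (y x : Om) : Om := fun e => if e ∈ S then y e else x e

def shiftO (s : V) (ω : Om) : Om := fun e => ω (e.map (· + s))

/-- The event depends only on the coordinates in `S`. -/
def Dep (S : Set (Sym2 V)) (A : Set Om) : Prop :=
  ∀ ω ω' : Om, (∀ e ∈ S, ω e = ω' e) → (ω ∈ A ↔ ω' ∈ A)

def edgesIn (Q : Set V) : Set (Sym2 V) := {e | ∀ v ∈ e, v ∈ Q}

structure Par (G : Measure ℝ≥0) (q1 q2 M : ℝ≥0) : Prop where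
  h12 : q1 < q2
  h2M : q2 < M
  hU : G (Set.Iic q1) ≠ 0
  hA : G (Set.Ioc q2 M)ᶜ ≤ 1 / 1024

noncomputable def DA (E : Finset (Sym2 V)) (A U : Set ℝ≥0) (x y : Om) : Finset (Sym2 V) :=
  E.filter fun e => x e ∈ A ∧ y e ∈ U

noncomputable def wf (σ : ℝ) (A J : Finset (Sym2 V)) : ℝ := σ ^ J.card * (1 - σ) ^ (A \ J).card

/-! ### Shields and the truncated weights -/

def OConn (M : ℝ≥0) (ω : Om) (S : Set V) (u v : V) : Prop :=
  ∃ p : grid.Walk u v, In S p ∧ ∀ e ∈ p.edges, ω e ≤ M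

def rectB (b : Bool) (c : V) (len wid : ℤ) : Set V := {v | sw b v ∈ rect c len wid}

/-- Open crossing in the long direction (horizontal for `b = false`, vertical for `b = true`,
where `c` is then given in swapped coordinates). -/
def Cr (M : ℝ≥0) (ω : Om) (b : Bool) (c : V) (len wid : ℤ) : Prop :=
  ∃ u v, (sw b u).1 = c.1 ∧ (sw b v).1 = c.1 + len ∧ OConn M ω (rectB b c len wid) u v

def rk (k : ℕ) : ℤ := 2 ^ (k + 2) - 1

/-- Lower left corner of the big square of side `3 rk k` around `x`. -/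
def shc (k : ℕ) (x : V) : V := (x.1 - rk k - (2 ^ (k + 1) - 1), x.2 - rk k - (2 ^ (k + 1) - 1))

def Shield (M : ℝ≥0) (ω : Om) (k : ℕ) (x : V) : Prop :=
  Cr M ω false (shc k x) (3 * rk k) (rk k) ∧
  Cr M ω false ((shc k x).1, (shc k x).2 + 2 * rk k) (3 * rk k) (rk k) ∧
  Cr M ω true ((shc k x).2, (shc k x).1) (3 * rk k) (rk k) ∧
  Cr M ω true ((shc k x).2, (shc k x).1 + 2 * rk k) (3 * rk k) (rk k)

noncomputable def kk (M : ℝ≥0) (ω : Om) (x : V) : ℕ := sInf {k | Shield M ω k x}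

noncomputable def zk (M : ℝ≥0) (k : ℕ) : ℝ := 3 * M * (3 * rk k + 1) ^ 2 + 2

noncomputable def psi (H t : ℝ) : ℝ := if t ≤ H then t else H + (t - H) / (1 + (t - H))

/-- The truncated environment. -/
noncomputable def W (M : ℝ≥0) (ω : Om) : Wt := fun e => psi (zk M (kk M ω e.inf) - 1) (ω e)

end Vale.Agent.P158
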