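import Vale.Agent.P158.Trunc
import Vale.Agent.P158.Geo
import Vale.Agent.P158.Kalm

/-! Moments and linear upper bounds for the truncated environment. -/

namespace Vale.Agent.P158

open Finset MeasureTheory Filter
open scoped NNReal ENNReal Classical Topology

variable {G : Measure ℝ≥0} [IsProbabilityMeasure G] {q1 q2 M : ℝ≥0}

theorem mom_zk_nonneg (k : ℕ) : 0 ≤ zk M k := by
  have h := M_lt_zk (M := M) k
  have h0 : (0 : ℝ) ≤ M := M.2
  linarith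

theorem mom_pow1 (k : ℕ) : 3 * k + 2 ≤ 2 ^ k + 4 := by
  induction k with
  | zero => norm_num
  | succ k ih =>
    rcases Nat.lt_or_ge k 2 with h | h
    · interval_cases k <;> norm_num
    · have : 4 ≤ 2 ^ k := by
        calc 4 = 2 ^ 2 := by norm_num
          _ ≤ 2 ^ k := Nat.pow_le_pow_right (by norm_num) h
      rw [pow_succ]; omega

theorem mom_pow_inv (a b : ℕ) : (2 : ℝ≥0∞) ^ a * 2⁻¹ ^ (a + b) = 2⁻¹ ^ b := by
  rw [pow_add, ← mul_assoc, ← mul_pow, ENNReal.mul_inv_cancel (by norm_num) (by norm_num)]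
  simp

theorem mom_half_anti {a b : ℕ} (h : a ≤ b) : (2⁻¹ : ℝ≥0∞) ^ b ≤ 2⁻¹ ^ a :=
  pow_le_pow_right_of_le_one' (ENNReal.inv_le_one.2 (by norm_num)) h

theorem mom_term (k : ℕ) : (4 : ℝ≥0∞) ^ (k + 1) * 2⁻¹ ^ (2 ^ k) ≤ 16 * 2⁻¹ ^ k := by
  have h1 : (4 : ℝ≥0∞) ^ (k + 1) = 2 ^ (2 * k + 2) := by
    rw [show (4 : ℝ≥0∞) = 2 ^ 2 by norm_num, ← pow_mul]; ring_nf
  have h2 : (2⁻¹ : ℝ≥0∞) ^ (2 ^ k) = 16 * 2⁻¹ ^ (2 ^ k + 4) := by
    rw [show (16 : ℝ≥0∞) = 2 ^ 4 by norm_num, add_comm, mom_pow_inv]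
  have h3 : (2⁻¹ : ℝ≥0∞) ^ (2 ^ k + 4) ≤ 2⁻¹ ^ ((2 * k + 2) + k) :=
    mom_half_anti (by have := mom_pow1 k; omega)
  calc (4 : ℝ≥0∞) ^ (k + 1) * 2⁻¹ ^ (2 ^ k)
      = 16 * (2 ^ (2 * k + 2) * 2⁻¹ ^ (2 ^ k + 4)) := by rw [h1, h2]; ring
    _ ≤ 16 * (2 ^ (2 * k + 2) * 2⁻¹ ^ ((2 * k + 2) + k)) := by gcongr
    _ = 16 * 2⁻¹ ^ k := by rw [mom_pow_inv]

/-- The constant of the first moment bound. -/
noncomputable def momC (M : ℝ≥0) : ℝ := 33 * (432 * M + 2)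

theorem momC_pos : 0 < momC M := by
  unfold momC; positivity

theorem mom_lint (hM : G (Set.Ioi M) ≤ 1 / 1024) (x : V) (κ : Om → ℕ)
    (hκ : ∀ ω k, k < κ ω → ¬ Shield M ω k x) :
    ∫⁻ ω, ENNReal.ofReal (zk M (κ ω)) ∂PP G ≤ ENNReal.ofReal (momC M) := by
  set A : ℝ≥0∞ := ENNReal.ofReal (432 * M + 2) with hA
  have hz : ∀ k, ENNReal.ofReal (zk M k) ≤ A * 4 ^ k := by
    intro k
    calc ENNReal.ofReal (zk M k) ≤ ENNReal.ofReal ((432 * M + 2) * 4 ^ k) :=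
          ENNReal.ofReal_le_ofReal (zk_le k)
      _ = A * 4 ^ k := by
          rw [ENNReal.ofReal_mul (by positivity), ENNReal.ofReal_pow (by norm_num)]
          simp [hA]
  have hms : ∀ k, MeasurableSet {ω : Om | ¬ Shield M ω k x} :=
    fun k => (measurableSet_Shield k x).compl
  have hpt : ∀ ω, ENNReal.ofReal (zk M (κ ω)) ≤
      A + ∑' k, {ω : Om | ¬ Shield M ω k x}.indicator (fun _ => A * 4 ^ (k + 1)) ω := by
    intro ω
    rcases hk : κ ω with _ | k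
    · exact le_trans (by simpa using hz 0) le_self_add
    · refine le_trans ?_ le_add_self
      refine le_trans ?_ (ENNReal.le_tsum k)
      rw [Set.indicator_of_mem (by exact hκ ω k (by omega))]
      exact hz _
  calc ∫⁻ ω, ENNReal.ofReal (zk M (κ ω)) ∂PP G
      ≤ ∫⁻ ω, (A + ∑' k, {ω : Om | ¬ Shield M ω k x}.indicator (fun _ => A * 4 ^ (k + 1)) ω)
          ∂PP G := lintegral_mono hpt
    _ = A + ∑' k, A * 4 ^ (k + 1) * PP G {ω : Om | ¬ Shield M ω k x} := by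
        rw [lintegral_add_left measurable_const, lintegral_tsum]
        · simp only [lintegral_const, measure_univ, mul_one]
          congr 1
          refine tsum_congr fun k => ?_
          rw [lintegral_indicator_const (hms k)]
        · intro k
          exact (measurable_const.indicator (hms k)).aemeasurable
    _ ≤ A + ∑' k : ℕ, A * (16 * 2⁻¹ ^ k) := by
        refine add_le_add le_rfl (ENNReal.tsum_le_tsum fun k => ?_)
        calc A * 4 ^ (k + 1) * PP G {ω : Om | ¬ Shield M ω k x}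
            ≤ A * 4 ^ (k + 1) * 2⁻¹ ^ (2 ^ k) := by
              gcongr; exact prob_not_Shield hM k x
          _ = A * (4 ^ (k + 1) * 2⁻¹ ^ (2 ^ k)) := by ring
          _ ≤ A * (16 * 2⁻¹ ^ k) := mul_le_mul' le_rfl (mom_term k)
    _ = ENNReal.ofReal (momC M) := by
        rw [ENNReal.tsum_mul_left, ENNReal.tsum_mul_left, ENNReal.tsum_geometric]
        rw [ENNReal.one_sub_inv_two, inv_inv, momC, ENNReal.ofReal_mul (by norm_num), ← hA]
        simp only [ENNReal.ofReal_ofNat]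
        ring

theorem mom_lint_kk (hM : G (Set.Ioi M) ≤ 1 / 1024) (x : V) :
    ∫⁻ ω, ENNReal.ofReal (zk M (kk M ω x)) ∂PP G ≤ ENNReal.ofReal (momC M) :=
  mom_lint hM x _ fun _ _ hk => Nat.notMem_of_lt_sInf hk

theorem lintegral_zk (hM : G (Set.Ioi M) ≤ 1 / 1024) :
    ∃ CZ : ℝ, 0 < CZ ∧ ∀ x,
      ∫⁻ ω, ENNReal.ofReal (zk M (kk M ω x)) ∂PP G ≤ ENNReal.ofReal CZ :=
  ⟨momC M, momC_pos, mom_lint_kk hM⟩

theorem mom_meas_zk {κ : Om → ℕ} (h : Measurable κ) :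
    Measurable fun ω => zk M (κ ω) :=
  (measurable_from_top (f := zk M)).comp h

theorem mom_lint_sum {ι : Type*} (I : Finset ι) (Z : ι → Om → ℝ) (hZ : ∀ i, Measurable (Z i))
    (h0 : ∀ i ω, 0 ≤ Z i ω) {c : ℝ} (hc : 0 ≤ c)
    (h : ∀ i, ∫⁻ ω, ENNReal.ofReal (Z i ω) ∂PP G ≤ ENNReal.ofReal c) :
    ∫⁻ ω, ENNReal.ofReal (∑ i ∈ I, Z i ω) ∂PP G ≤ ENNReal.ofReal (c * I.card) := by
  calc ∫⁻ ω, ENNReal.ofReal (∑ i ∈ I, Z i ω) ∂PP G
      = ∫⁻ ω, ∑ i ∈ I, ENNReal.ofReal (Z i ω) ∂PP G := by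
        refine lintegral_congr fun ω => ?_
        exact ENNReal.ofReal_sum_of_nonneg fun i _ => h0 i ω
    _ = ∑ i ∈ I, ∫⁻ ω, ENNReal.ofReal (Z i ω) ∂PP G :=
        lintegral_finsetSum _ fun i _ => (hZ i).ennreal_ofReal
    _ ≤ ∑ i ∈ I, ENNReal.ofReal c := Finset.sum_le_sum fun i _ => h i
    _ = ENNReal.ofReal (c * I.card) := by
        rw [ENNReal.ofReal_mul hc]; simp [mul_comm]

theorem lintegral_perim (hM : G (Set.Ioi M) ≤ 1 / 1024) :
    ∃ CZ : ℝ, 0 < CZ ∧ ∀ (o : V) (n : ℕ),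
      ∫⁻ ω, ENNReal.ofReal (perim o n (W M ω)) ∂PP G ≤ ENNReal.ofReal (CZ * n) := by
  refine ⟨4 * momC M, by have := momC_pos (M := M); positivity, fun o n => ?_⟩
  calc ∫⁻ ω, ENNReal.ofReal (perim o n (W M ω)) ∂PP G
      ≤ ∫⁻ ω, ENNReal.ofReal (∑ i ∈ Ico (0 : ℤ) (4 * n),
          zk M (kk M ω (s(bd o n i, bd o n (i + 1))).inf)) ∂PP G := by
        refine lintegral_mono fun ω => ENNReal.ofReal_le_ofReal ?_
        exact Finset.sum_le_sum fun i _ => W_le_zk ω _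
    _ ≤ ENNReal.ofReal (momC M * (Ico (0 : ℤ) (4 * n)).card) :=
        mom_lint_sum _ (fun i ω => zk M (kk M ω (s(bd o n i, bd o n (i + 1))).inf))
          (fun i => mom_meas_zk (measurable_kk _)) (fun i ω => mom_zk_nonneg _)
          momC_pos.le (fun i => mom_lint_kk hM _)
    _ = ENNReal.ofReal (4 * momC M * n) := by
        congr 1
        have : (Ico (0 : ℤ) (4 * n)).card = 4 * n := by
          rw [Int.card_Ico]; omega
        rw [this]; push_cast; ring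

/-! ### Local weights and good lines -/

theorem mom_ex (M : ℝ≥0) (j : ℕ) (x : V) (ω : Om) : ∃ k, j ≤ k ∨ Shield M ω k x :=
  ⟨j, Or.inl le_rfl⟩

/-- First shield scale, cut at `j`. -/
noncomputable def momKl (M : ℝ≥0) (j : ℕ) (x : V) (ω : Om) : ℕ := Nat.find (mom_ex M j x ω)

theorem mom_measurable_kl (j : ℕ) (x : V) : Measurable (momKl M j x) := by
  refine measurable_find (mom_ex M j x) fun k => ?_
  exact (MeasurableSet.const _).union (measurableSet_Shield k x)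

theorem mom_kl_lint (hM : G (Set.Ioi M) ≤ 1 / 1024) (j : ℕ) (x : V) :
    ∫⁻ ω, ENNReal.ofReal (zk M (momKl M j x ω)) ∂PP G ≤ ENNReal.ofReal (momC M) :=
  mom_lint hM x _ fun ω _ hk h => Nat.find_min (mom_ex M j x ω) hk (Or.inr h)

theorem mom_kk_le_of {ω : Om} {j : ℕ} {x : V} (h : Shield M ω j x) : kk M ω x ≤ j :=
  Nat.sInf_le h

theorem mom_kk_le_kl {ω : Om} {j : ℕ} {x : V} (h : Shield M ω j x) : kk M ω x ≤ momKl M j x ω := by
  rcases Nat.find_spec (mom_ex M j x ω) with h1 | h1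
  · exact (mom_kk_le_of h).trans h1
  · exact mom_kk_le_of h1

theorem mom_rk_mono {k j : ℕ} (h : k ≤ j) : rk k ≤ rk j := by
  unfold rk
  have : (2 : ℤ) ^ (k + 2) ≤ 2 ^ (j + 2) := pow_le_pow_right₀ (by norm_num) (by omega)
  omega

theorem mom_kl_congr {ω ω' : Om} {j : ℕ} {x : V}
    (h : ∀ e ∈ edgesIn (ball x (2 * rk j)), ω e = ω' e) : momKl M j x ω = momKl M j x ω' := by
  have key : ∀ k, (j ≤ k ∨ Shield M ω k x) ↔ (j ≤ k ∨ Shield M ω' k x) := by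
    intro k
    rcases le_or_gt j k with hk | hk
    · simp [hk]
    · have h1 := dep_Shield (M := M) k x ω ω' (fun e he => h e fun v hv => by
        have h2 := mem_ball.1 (he v hv)
        have h3 := mom_rk_mono hk.le
        rw [mem_ball]; omega)
      exact or_congr Iff.rfl h1
  unfold momKl
  apply le_antisymm
  · exact Nat.find_mono fun k hk => (key k).2 hk
  · exact Nat.find_mono fun k hk => (key k).1 hk

/-- Sum of local weights along a line of length `16 ^ j`. -/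
noncomputable def momLS (M : ℝ≥0) (j : ℕ) (b : Bool) (c y : ℤ) (ω : Om) : ℝ :=
  ∑ t ∈ Ico c (c + 16 ^ j), zk M (momKl M j (sw b (t, y)) ω)

def momBadL (M : ℝ≥0) (j : ℕ) (b : Bool) (c y : ℤ) : Set Om :=
  {ω | 2 * momC M * 16 ^ j < momLS M j b c y ω}

theorem mom_measurable_LS (j : ℕ) (b : Bool) (c y : ℤ) : Measurable (momLS M j b c y) :=
  Finset.measurable_sum _ fun _ _ => mom_meas_zk (mom_measurable_kl _ _)

theorem mom_measurableSet_badL (j : ℕ) (b : Bool) (c y : ℤ) : MeasurableSet (momBadL M j b c y) :=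
  measurableSet_lt measurable_const (mom_measurable_LS j b c y)

theorem mom_card_Ico (c : ℤ) (j : ℕ) : ((Ico c (c + 16 ^ j)).card : ℝ) = 16 ^ j := by
  have h : ((Ico c (c + 16 ^ j)).card : ℤ) = 16 ^ j := by
    rw [Int.card_Ico_of_le _ _ (by have : (0 : ℤ) ≤ 16 ^ j := by positivity
                                   omega)]
    ring
  exact_mod_cast h

theorem mom_prob_badL (hM : G (Set.Ioi M) ≤ 1 / 1024) (j : ℕ) (b : Bool) (c y : ℤ) :
    PP G (momBadL M j b c y) ≤ 2⁻¹ := by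
  have hC := momC_pos (M := M)
  have hpos : (0 : ℝ) < momC M * 16 ^ j := by positivity
  have h1 : ∫⁻ ω, ENNReal.ofReal (momLS M j b c y ω) ∂PP G ≤ ENNReal.ofReal (momC M * 16 ^ j) := by
    have := mom_lint_sum (G := G) (Ico c (c + 16 ^ j))
      (fun t ω => zk M (momKl M j (sw b (t, y)) ω)) (fun t => mom_meas_zk (mom_measurable_kl _ _))
      (fun _ _ => mom_zk_nonneg _) hC.le (fun t => mom_kl_lint hM j _)
    rwa [mom_card_Ico] at this
  have h2 := mul_meas_ge_le_lintegral (μ := PP G) (mom_measurable_LS (M := M) j b c y).ennreal_ofReal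
    (ENNReal.ofReal (2 * momC M * 16 ^ j))
  have h3 : momBadL M j b c y ⊆
      {ω | ENNReal.ofReal (2 * momC M * 16 ^ j) ≤ ENNReal.ofReal (momLS M j b c y ω)} :=
    fun ω h => ENNReal.ofReal_le_ofReal (le_of_lt h)
  have h4 : ENNReal.ofReal (2 * momC M * 16 ^ j) = ENNReal.ofReal (momC M * 16 ^ j) * 2 := by
    rw [mul_assoc, mul_comm, ENNReal.ofReal_mul hpos.le]; simp
  have h5 : ENNReal.ofReal (momC M * 16 ^ j) * (2 * PP G (momBadL M j b c y)) ≤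
      ENNReal.ofReal (momC M * 16 ^ j) * 1 := by
    rw [mul_one, ← mul_assoc, ← h4]
    exact le_trans (by gcongr) (h2.trans h1)
  have h6 := (ENNReal.mul_le_mul_iff_right (by simpa using hpos) ENNReal.ofReal_ne_top).1 h5
  calc PP G (momBadL M j b c y) = 2⁻¹ * (2 * PP G (momBadL M j b c y)) := by
        rw [← mul_assoc, ENNReal.inv_mul_cancel (by norm_num) (by norm_num), one_mul]
    _ ≤ 2⁻¹ * 1 := by gcongr
    _ = 2⁻¹ := mul_one _

def momBand (b : Bool) (y R : ℤ) : Set V := {v | y - R ≤ (sw b v).2 ∧ (sw b v).2 ≤ y + R}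

theorem mom_dep_badL (j : ℕ) (b : Bool) (c y : ℤ) :
    Dep (edgesIn (momBand b y (2 * rk j))) (momBadL M j b c y) := by
  intro ω ω' h
  have : momLS M j b c y ω = momLS M j b c y ω' := by
    refine Finset.sum_congr rfl fun t _ => ?_
    rw [mom_kl_congr (ω := ω) (ω' := ω')]
    intro e he
    refine h e fun v hv => ?_
    have h2 := mem_ball.1 (he v hv)
    cases b <;> simp [momBand, sw] at h2 ⊢ <;> omega
  simp only [momBadL, Set.mem_ofPred_eq, this]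

/-- All of `2 ^ j` well separated parallel lines are bad. -/
def momAllBad (M : ℝ≥0) (j : ℕ) (b : Bool) (c y : ℤ) : Set Om :=
  ⋂ i ∈ range (2 ^ j), momBadL M j b c (y + i * (4 * rk j + 1))

theorem mom_rk_pos (j : ℕ) : 0 < rk j := by
  unfold rk
  have : (2 : ℤ) ^ 2 ≤ 2 ^ (j + 2) := pow_le_pow_right₀ (by norm_num) (by omega)
  omega

theorem mom_prob_allBad (hM : G (Set.Ioi M) ≤ 1 / 1024) (j : ℕ) (b : Bool) (c y : ℤ) :
    PP G (momAllBad M j b c y) ≤ 2⁻¹ ^ (2 ^ j) := by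
  unfold momAllBad
  rw [indep_dep_finset (range (2 ^ j))
    (fun i => edgesIn (momBand b (y + i * (4 * rk j + 1)) (2 * rk j)))]
  · calc ∏ i ∈ range (2 ^ j), PP G (momBadL M j b c (y + i * (4 * rk j + 1)))
        ≤ ∏ i ∈ range (2 ^ j), (2⁻¹ : ℝ≥0∞) :=
          Finset.prod_le_prod' fun i _ => mom_prob_badL hM j b c _
      _ = 2⁻¹ ^ (2 ^ j) := by simp
  · intro i _ i' _ hne
    apply edgesIn_disjoint
    rw [Set.disjoint_left]
    intro v h1 h2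
    have hr := mom_rk_pos j
    simp only [momBand, Set.mem_ofPred_eq] at h1 h2
    rcases lt_or_gt_of_ne hne with h | h
    · have : ((i : ℤ) + 1) * (4 * rk j + 1) ≤ i' * (4 * rk j + 1) :=
        mul_le_mul_of_nonneg_right (by exact_mod_cast h) (by omega)
      nlinarith [h1.2, h2.1]
    · have : ((i' : ℤ) + 1) * (4 * rk j + 1) ≤ i * (4 * rk j + 1) :=
        mul_le_mul_of_nonneg_right (by exact_mod_cast h) (by omega)
      nlinarith [h1.1, h2.2]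
  · intro i _; exact mom_dep_badL j b c _
  · intro i _; exact mom_measurableSet_badL j b c _

theorem mom_good_line {ω : Om} {j : ℕ} {b : Bool} {c y : ℤ} (h : ω ∉ momAllBad M j b c y) :
    ∃ y', y ≤ y' ∧ y' ≤ y + 16 * 4 ^ j ∧ momLS M j b c y' ω ≤ 2 * momC M * 16 ^ j := by
  simp only [momAllBad, Set.mem_iInter, not_forall] at h
  obtain ⟨i, hi, h⟩ := h
  have hr := mom_rk_pos j
  refine ⟨y + i * (4 * rk j + 1), ?_, ?_, not_lt.1 h⟩
  · have : (0 : ℤ) ≤ i * (4 * rk j + 1) := by positivity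
    omega
  · have h1 : (i : ℤ) ≤ 2 ^ j := by exact_mod_cast (mem_range.1 hi).le
    have h2 : 4 * rk j + 1 ≤ 16 * 2 ^ j := by
      unfold rk; rw [pow_add]; omega
    have h3 : (i : ℤ) * (4 * rk j + 1) ≤ 2 ^ j * (16 * 2 ^ j) :=
      mul_le_mul h1 h2 (by omega) (by positivity)
    have h4 : (2 : ℤ) ^ j * (16 * 2 ^ j) = 16 * 4 ^ j := by
      rw [show (4 : ℤ) = 2 * 2 by norm_num, mul_pow]; ring
    omega

theorem mom_line_T {S : Set V} {w : Wt} (hw : NN w) (b : Bool) (y lo hi t1 t2 : ℤ)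
    (hmem : ∀ t, lo ≤ t → t ≤ hi → sw b (t, y) ∈ S) (h1 : lo ≤ t1) (h1' : t1 ≤ hi)
    (h2 : lo ≤ t2) (h2' : t2 ≤ hi) :
    T S w (sw b (t1, y)) (sw b (t2, y)) ≤
      ∑ t ∈ Ico lo hi, w s(sw b (t, y), sw b (t + 1, y)) := by
  wlog h12 : t1 ≤ t2 generalizing t1 t2
  · rw [T_comm]; exact this t2 t1 h2 h2' h1 h1' (by omega)
  have h3 := T_le_seg (S := S) (f := fun t => sw b (t, y)) hw h12
    (fun i _ _ => by cases b <;> simp [sw, adj_iff])
    (fun i hi1 hi2 => hmem i (by omega) (by omega))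
  refine h3.trans ?_
  unfold seg
  exact Finset.sum_le_sum_of_subset_of_nonneg (Ico_subset_Ico h1 h2') fun i _ _ => hw _

theorem mom_inf (b : Bool) (t y : ℤ) :
    (s(sw b (t, y), sw b (t + 1, y)) : Sym2 V).inf = sw b (t, y) := by
  rw [Sym2.inf_mk]
  cases b <;> simp [sw, Prod.le_def]

theorem mom_inf_mem {o : V} {n : ℤ} {e : Sym2 V} (he : e ∈ edgesIn (box o n)) :
    e.inf ∈ box o n := by
  induction e using Sym2.ind with
  | h u v =>
    have hu := mem_box.1 (he u (Sym2.mem_mk_left u v))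
    have hv := mem_box.1 (he v (Sym2.mem_mk_right u v))
    rw [Sym2.inf_mk, mem_box]
    simp only [Prod.fst_inf, Prod.snd_inf]
    omega

theorem mom_line_LS {ω : Om} {j : ℕ} {S : Set V} (hs : ∀ x ∈ S, Shield M ω j x) (b : Bool)
    (c y t1 t2 : ℤ) (hmem : ∀ t, c ≤ t → t ≤ c + 16 ^ j → sw b (t, y) ∈ S) (h1 : c ≤ t1)
    (h1' : t1 ≤ c + 16 ^ j) (h2 : c ≤ t2) (h2' : t2 ≤ c + 16 ^ j) :
    T S (W M ω) (sw b (t1, y)) (sw b (t2, y)) ≤ momLS M j b c y ω := by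
  refine (mom_line_T (W_nn ω) b y c _ t1 t2 hmem h1 h1' h2 h2').trans ?_
  refine Finset.sum_le_sum fun t ht => ?_
  have ht' := mem_Ico.1 ht
  refine (W_le_zk ω _).trans (zk_mono ?_)
  rw [mom_inf]
  exact mom_kk_le_kl (hs _ (hmem t ht'.1 ht'.2.le))

theorem mom_edge {ω : Om} {j : ℕ} {o : V} {n : ℤ} (hs : ∀ x ∈ box o n, Shield M ω j x)
    {e : Sym2 V} (he : e ∈ edgesIn (box o n)) : W M ω e ≤ (432 * M + 2) * 4 ^ j :=
  (W_le_zk ω e).trans ((zk_mono (mom_kk_le_of (hs _ (mom_inf_mem he)))).trans (zk_le j))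

theorem mom_box_det {ω : Om} {j : ℕ} (hj : 2 ≤ j) {o : V}
    (hs : ∀ x ∈ box o (16 ^ j), Shield M ω j x)
    (hr : ∀ y ∈ Icc o.2 (o.2 + 16 ^ j), ω ∉ momAllBad M j false o.1 y)
    (hc : ω ∉ momAllBad M j true o.2 o.1) :
    ∀ a ∈ box o (16 ^ j), ∀ b ∈ box o (16 ^ j),
      T (box o (16 ^ j)) (W M ω) a b ≤ 10 * momC M * 16 ^ j := by
  have hs16 : (16 : ℤ) * 4 ^ j ≤ 16 ^ j := by
    have h1 : (4 : ℤ) ^ 2 ≤ 4 ^ j := pow_le_pow_right₀ (by norm_num) hj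
    have h2 : (16 : ℤ) ^ j = 4 ^ j * 4 ^ j := by rw [← mul_pow]; norm_num
    have h3 : (0 : ℤ) ≤ 4 ^ j := by positivity
    nlinarith
  have h4 : (0 : ℤ) ≤ 4 ^ j := by positivity
  obtain ⟨x0, hx1, hx2, hx⟩ := mom_good_line hc
  have hw := W_nn (M := M) ω
  have hp : ((x0, o.2) : V) ∈ box o (16 ^ j) := by rw [mem_box]; simp only; omega
  have key : ∀ a ∈ box o (16 ^ j),
      T (box o (16 ^ j)) (W M ω) a (x0, o.2) ≤ 5 * momC M * 16 ^ j := by
    intro a ha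
    have ha' := mem_box.1 ha
    obtain ⟨y0, hy0, hy1, hy2, hy3⟩ : ∃ y0, o.2 ≤ y0 ∧ y0 + 16 * 4 ^ j ≤ o.2 + 16 ^ j ∧
        y0 ≤ a.2 ∧ a.2 ≤ y0 + 16 * 4 ^ j :=
      ⟨min a.2 (o.2 + 16 ^ j - 16 * 4 ^ j), by omega, by omega, by omega, by omega⟩
    obtain ⟨y, hy4, hy5, hy⟩ := mom_good_line (hr y0 (mem_Icc.2 ⟨hy0, by omega⟩))
    have hp1 : ((a.1, y) : V) ∈ box o (16 ^ j) := by rw [mem_box]; simp only; omega
    have hp2 : ((x0, y) : V) ∈ box o (16 ^ j) := by rw [mem_box]; simp only; omega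
    have e1 : T (box o (16 ^ j)) (W M ω) a (a.1, y) ≤ momC M * 16 ^ j := by
      have hmem : ∀ t, y0 ≤ t → t ≤ y0 + 16 * 4 ^ j → sw true (t, a.1) ∈ box o (16 ^ j) := by
        intro t h1 h2
        rw [mem_box]; simp only [sw, if_true, Prod.swap]; omega
      have h1 := mom_line_T (S := box o (16 ^ j)) hw true a.1 y0 (y0 + 16 * 4 ^ j) a.2 y hmem
        hy2 hy3 hy4 hy5
      have h2 : ∑ t ∈ Ico y0 (y0 + 16 * 4 ^ j), W M ω s(sw true (t, a.1), sw true (t + 1, a.1))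
          ≤ (Ico y0 (y0 + 16 * 4 ^ j)).card • ((432 * M + 2) * 4 ^ j : ℝ) := by
        refine Finset.sum_le_card_nsmul _ _ _ fun t ht => mom_edge hs ?_
        have ht' := mem_Ico.1 ht
        intro v hv
        rcases Sym2.mem_iff.1 hv with rfl | rfl
        · exact hmem _ (by omega) (by omega)
        · exact hmem _ (by omega) (by omega)
      have h3 : ((Ico y0 (y0 + 16 * 4 ^ j)).card : ℝ) = 16 * 4 ^ j := by
        have h : ((Ico y0 (y0 + 16 * 4 ^ j)).card : ℤ) = 16 * 4 ^ j := by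
          rw [Int.card_Ico_of_le _ _ (by omega)]; ring
        exact_mod_cast h
      rw [nsmul_eq_mul, h3] at h2
      have h5 : (16 : ℝ) ^ j = 4 ^ j * 4 ^ j := by rw [← mul_pow]; norm_num
      have h6 : (0 : ℝ) ≤ (432 * M + 2) * (4 ^ j * 4 ^ j) := by positivity
      refine (h1.trans h2).trans ?_
      rw [h5, momC]; nlinarith
    have e2 : T (box o (16 ^ j)) (W M ω) (a.1, y) (x0, y) ≤ 2 * momC M * 16 ^ j := by
      refine le_trans (mom_line_LS hs false o.1 y a.1 x0 ?_ (by omega) (by omega) (by omega)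
        (by omega)) hy
      intro t h1 h2
      rw [mem_box]; simp only [sw, Bool.false_eq_true, if_false]; omega
    have e3 : T (box o (16 ^ j)) (W M ω) (x0, y) (x0, o.2) ≤ 2 * momC M * 16 ^ j := by
      refine le_trans (mom_line_LS hs true o.2 x0 y o.2 ?_ (by omega) (by omega) (by omega)
        (by omega)) hx
      intro t h1 h2
      rw [mem_box]; simp only [sw, if_true, Prod.swap]; omega
    have t1 := T_tri hw conn_box ha hp1 hp
    have t2 := T_tri hw conn_box hp1 hp2 hp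
    linarith
  intro a ha b hb
  have t1 := T_tri hw conn_box ha hp hb
  have t2 := key b hb
  rw [T_comm] at t2
  have := key a ha
  linarith

theorem mom_pow2 {j : ℕ} (hj : 7 ≤ j) : 17 * j ≤ 2 ^ j := by
  induction j, hj using Nat.le_induction with
  | base => norm_num
  | succ k hk ih => rw [pow_succ]; omega

theorem mom_small (c : ℕ) (η : ℝ≥0∞) (hη : η ≠ 0) :
    ∃ j₀ : ℕ, ∀ j, j₀ ≤ j → (c * 256 ^ j * 2⁻¹ ^ (2 ^ j) : ℝ≥0∞) * 256 ^ j ≤ η := by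
  have h1 : Tendsto (fun j : ℕ => (c : ℝ≥0∞) * 2⁻¹ ^ j) atTop (𝓝 0) := by
    have h2 : Tendsto (fun j : ℕ => (2⁻¹ : ℝ≥0∞) ^ j) atTop (𝓝 0) :=
      ENNReal.tendsto_pow_atTop_nhds_zero_of_lt_one (by simp)
    simpa using ENNReal.Tendsto.const_mul (a := (c : ℝ≥0∞)) h2 (Or.inr (by simp))
  obtain ⟨j₀, hj⟩ := eventually_atTop.1 (h1.eventually (ge_mem_nhds (pos_iff_ne_zero.2 hη)))
  refine ⟨max j₀ 7, fun j hj' => le_trans ?_ (hj j (le_of_max_le_left hj'))⟩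
  have h3 := mom_pow2 (le_of_max_le_right hj')
  have h4 : (256 : ℝ≥0∞) ^ j * 256 ^ j = 2 ^ (16 * j) := by
    rw [← mul_pow, pow_mul]; norm_num
  calc (c * 256 ^ j * 2⁻¹ ^ (2 ^ j) : ℝ≥0∞) * 256 ^ j
      = c * (2 ^ (16 * j) * 2⁻¹ ^ (2 ^ j)) := by rw [← h4]; ring
    _ ≤ c * (2 ^ (16 * j) * 2⁻¹ ^ (16 * j + j)) := by
        gcongr c * (_ * ?_)
        exact mom_half_anti (by omega)
    _ = c * 2⁻¹ ^ j := by rw [mom_pow_inv]

theorem mom_card_box (o : V) (j : ℕ) : ((boxF o (16 ^ j)).card : ℝ≥0∞) ≤ 4 * 256 ^ j := by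
  have h0 : (1 : ℤ) ≤ 16 ^ j := one_le_pow₀ (by norm_num)
  have h1 : ((boxF o (16 ^ j)).card : ℤ) = (16 ^ j + 1) * (16 ^ j + 1) :=
    card_rectF (by omega) (by omega)
  have h2 : (256 : ℤ) ^ j = 16 ^ j * 16 ^ j := by rw [← mul_pow]; norm_num
  have h3 : ((boxF o (16 ^ j)).card : ℤ) ≤ 4 * 256 ^ j := by rw [h1, h2]; nlinarith
  have h4 : (boxF o (16 ^ j)).card ≤ 4 * 256 ^ j := by exact_mod_cast h3
  exact_mod_cast h4

theorem mom_union {ι : Type*} (I : Finset ι) (A : ι → Set Om) {p c : ℝ≥0∞}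
    (h : ∀ i ∈ I, PP G (A i) ≤ p) (hc : (I.card : ℝ≥0∞) ≤ c) :
    PP G (⋃ i ∈ I, A i) ≤ c * p := by
  refine (measure_biUnion_finset_le I A).trans ?_
  refine (Finset.sum_le_card_nsmul _ _ _ h).trans ?_
  rw [nsmul_eq_mul]; gcongr

theorem box_bound (hM : G (Set.Ioi M) ≤ 1 / 1024) :
    ∃ C : ℕ, 0 < C ∧ ∀ η : ℝ≥0∞, η ≠ 0 → ∃ j₀ : ℕ, ∀ j, j₀ ≤ j → ∀ o : V,
      PP G {ω | ¬ ((∀ a ∈ box o (16 ^ j), ∀ b ∈ box o (16 ^ j),
          T (box o (16 ^ j)) (W M ω) a b ≤ C * 16 ^ j) ∧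
        ∀ e ∈ edgesIn (box o (16 ^ j)), W M ω e ≤ C * 4 ^ j)} * 256 ^ j ≤ η := by
  have hC := momC_pos (M := M)
  refine ⟨⌈10 * momC M⌉₊, Nat.ceil_pos.2 (by positivity), fun η hη => ?_⟩
  have hCl : 10 * momC M ≤ ⌈10 * momC M⌉₊ := Nat.le_ceil _
  obtain ⟨j₀, hj₀⟩ := mom_small 7 η hη
  refine ⟨max j₀ 2, fun j hj o => le_trans ?_ (hj₀ j (le_of_max_le_left hj))⟩
  gcongr
  have h256 : (1 : ℝ≥0∞) ≤ 256 ^ j := one_le_pow₀ (by norm_num)
  have p1 := mom_union (G := G) (boxF o (16 ^ j)) (fun x => {ω | ¬ Shield M ω j x})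
    (fun x _ => prob_not_Shield hM j x) (mom_card_box o j)
  have p2 := mom_union (G := G) (Icc o.2 (o.2 + 16 ^ j)) (fun y => momAllBad M j false o.1 y)
    (c := 2 * 256 ^ j) (fun y _ => mom_prob_allBad hM j false o.1 y) (by
      have h0 : (1 : ℤ) ≤ 16 ^ j := one_le_pow₀ (by norm_num)
      have h1 : ((Icc o.2 (o.2 + 16 ^ j)).card : ℤ) = 16 ^ j + 1 := by
        rw [Int.card_Icc_of_le _ _ (by omega)]; ring
      have h2 : (256 : ℤ) ^ j = 16 ^ j * 16 ^ j := by rw [← mul_pow]; norm_num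
      have h3 : ((Icc o.2 (o.2 + 16 ^ j)).card : ℤ) ≤ 2 * 256 ^ j := by rw [h1, h2]; nlinarith
      have h4 : (Icc o.2 (o.2 + 16 ^ j)).card ≤ 2 * 256 ^ j := by exact_mod_cast h3
      exact_mod_cast h4)
  have p3 := mom_prob_allBad hM j true o.2 o.1
  calc _ ≤ PP G (((⋃ x ∈ boxF o (16 ^ j), {ω | ¬ Shield M ω j x}) ∪
        ⋃ y ∈ Icc o.2 (o.2 + 16 ^ j), momAllBad M j false o.1 y) ∪ momAllBad M j true o.2 o.1) := by
        refine measure_mono fun ω hω => ?_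
        by_contra hn
        simp only [Set.mem_union, Set.mem_iUnion, not_or, not_exists, Set.mem_ofPred_eq,
          not_not] at hn
        obtain ⟨⟨h1, h2⟩, h3⟩ := hn
        have hs : ∀ x ∈ box o (16 ^ j), Shield M ω j x := fun x hx => h1 x (mem_boxF.2 hx)
        refine hω ⟨fun a ha b hb => ?_, fun e he => ?_⟩
        · refine (mom_box_det (le_of_max_le_right hj) hs h2 h3 a ha b hb).trans ?_
          gcongr
        · refine (mom_edge hs he).trans ?_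
          gcongr
          unfold momC at hCl hC ⊢
          linarith
    _ ≤ 4 * 256 ^ j * 2⁻¹ ^ (2 ^ j) + 2 * 256 ^ j * 2⁻¹ ^ (2 ^ j) + 256 ^ j * 2⁻¹ ^ (2 ^ j) := by
        refine (measure_union_le _ _).trans (add_le_add ((measure_union_le _ _).trans
          (add_le_add p1 p2)) (p3.trans ?_))
        exact le_mul_of_one_le_left' h256
    _ = ((7 : ℕ) : ℝ≥0∞) * 256 ^ j * 2⁻¹ ^ (2 ^ j) := by push_cast; ring

theorem mom_prob_not_Pe (hP : Par G q1 q2 M) (x : V) (k : ℕ) :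
    PP G {ω | ¬ Pe q2 M (W M ω) x k} ≤ 2 * 2⁻¹ ^ k := by
  simp only [Pe_W]
  exact peierls hP x k

theorem Pe.mom_mono {q M : ℝ} {w : Wt} {x : V} {k k' : ℤ} (h : Pe q M w x k) (hk : k ≤ k') :
    Pe q M w x k' := fun f n h0 hn hf => h f n h0 (hk.trans hn) hf

theorem ae_pe (hP : Par G q1 q2 M) : ∀ᵐ ω ∂PP G, ∀ x, ∃ k, Pe q2 M (W M ω) x k := by
  rw [ae_all_iff]
  intro x
  rw [ae_iff]
  have h1 : Tendsto (fun j : ℕ => (2 : ℝ≥0∞) * 2⁻¹ ^ j) atTop (𝓝 0) := by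
    have h2 : Tendsto (fun j : ℕ => (2⁻¹ : ℝ≥0∞) ^ j) atTop (𝓝 0) :=
      ENNReal.tendsto_pow_atTop_nhds_zero_of_lt_one (by simp)
    simpa using ENNReal.Tendsto.const_mul (a := (2 : ℝ≥0∞)) h2 (Or.inr (by simp))
  refine le_antisymm (ge_of_tendsto' h1 fun k => ?_) zero_le
  refine le_trans (measure_mono fun ω hω => ?_) (mom_prob_not_Pe hP x k)
  exact fun h => hω ⟨k, h⟩

/-- The good event of a box of side `16 ^ j`. -/
def MomBoxEv (C : ℕ) (q2 M : ℝ≥0) (j : ℕ) (o : V) (ω : Om) : Prop :=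
  ((∀ a ∈ box o (16 ^ j), ∀ b ∈ box o (16 ^ j),
      T (box o (16 ^ j)) (W M ω) a b ≤ C * 16 ^ j) ∧
    ∀ e ∈ edgesIn (box o (16 ^ j)), W M ω e ≤ C * 4 ^ j) ∧
  ∀ x ∈ box o (16 ^ j), Pe q2 M (W M ω) x (2 ^ j : ℕ)

theorem mom_boxEv_bound (hP : Par G q1 q2 M) :
    ∃ C : ℕ, 0 < C ∧ ∀ η : ℝ≥0∞, η ≠ 0 → ∃ j₀ : ℕ, ∀ j, j₀ ≤ j → ∀ o : V,
      PP G {ω | ¬ MomBoxEv C q2 M j o ω} * 256 ^ j ≤ η := by
  obtain ⟨C, hC, h⟩ := box_bound hP.hM
  refine ⟨C, hC, fun η hη => ?_⟩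
  have hη2 : η / 2 ≠ 0 := by simp [hη]
  obtain ⟨j₁, h1⟩ := h (η / 2) hη2
  obtain ⟨j₂, h2⟩ := mom_small 8 (η / 2) hη2
  refine ⟨max j₁ j₂, fun j hj o => ?_⟩
  have p1 := mom_union (G := G) (boxF o (16 ^ j))
    (fun x => {ω | ¬ Pe q2 M (W M ω) x (2 ^ j : ℕ)})
    (fun x _ => mom_prob_not_Pe hP x (2 ^ j)) (mom_card_box o j)
  have e1 := h1 j (le_of_max_le_left hj) o
  have e2 := h2 j (le_of_max_le_right hj)
  rw [← ENNReal.add_halves η]
  refine le_trans ?_ (add_le_add e1 e2)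
  rw [← add_mul]
  gcongr
  refine le_trans (measure_mono ?_) ((measure_union_le _ _).trans (add_le_add le_rfl
    (p1.trans (le_of_eq (by push_cast; ring)))))
  intro ω hω
  by_contra hn
  simp only [Set.mem_union, Set.mem_iUnion, not_or, not_exists, Set.mem_ofPred_eq,
    not_not] at hn
  exact hω ⟨hn.1, fun x hx => hn.2 x (mem_boxF.2 hx)⟩

theorem mom_gev_det {C : ℕ} {j : ℕ} {o : V} {ω : Om} (hq : (0 : ℝ) < q2) (hj : 1 ≤ j)
    (hj2 : 16 * (C : ℝ) / q2 < 4 ^ j) (hn : Nice (W M ω)) (h : MomBoxEv C q2 M j o ω) :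
    GEv (2 * C / q2 + 2) o (16 ^ j) (W M ω) := by
  obtain ⟨⟨hT, hE⟩, hPe⟩ := h
  have hpos : (0 : ℤ) < 16 ^ j := by positivity
  obtain ⟨i0, rfl⟩ : ∃ i0, j = i0 + 1 := ⟨j - 1, by omega⟩
  have h8 : (16 : ℤ) ^ (i0 + 1) / 8 = 2 * 16 ^ i0 := by
    rw [pow_succ]; omega
  have h28 : ((2 ^ (i0 + 1) : ℕ) : ℤ) ≤ 2 * 16 ^ i0 := by
    have : (2 : ℤ) ^ i0 ≤ 16 ^ i0 := pow_le_pow_left₀ (by norm_num) (by norm_num) _
    push_cast; rw [pow_succ]; omega
  refine ⟨fun i i' => ?_, fun i v hv => ?_⟩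
  · have hx := bd_mem (o := o) (i := i) hpos
    have hy := bd_mem (o := o) (i := i') hpos
    obtain ⟨f, lo, hi, hg, -, -, -⟩ := exists_geoFn hn conn_box hx hy (on_left hn.nn hx)
    have h1 := hg.cntOn_eq hn conn_box (F := boxF o (16 ^ (i0 + 1))) fun v hv => mem_boxF.2 hv
    have h1' : (cntOn (box o (16 ^ (i0 + 1))) (W M ω) (bd o (16 ^ (i0 + 1)) i)
        (bd o (16 ^ (i0 + 1)) i') (boxF o (16 ^ (i0 + 1))) : ℝ) = (hi - lo : ℝ) + 1 := by
      exact_mod_cast h1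
    rw [h1']
    push_cast
    have h16 : (1 : ℝ) ≤ 16 ^ (i0 + 1) := one_le_pow₀ (by norm_num)
    have hC0 : (0 : ℝ) ≤ 2 * C / q2 * 16 ^ (i0 + 1) := by positivity
    rcases le_or_gt (2 * 16 ^ i0) (hi - lo) with h2 | h2
    · have h3 := len_le_of_pe hn hq hg (hPe _ hx) (h28.trans h2)
      have h4 := hT _ hx _ hy
      have h5 : (hi - lo : ℝ) ≤ 2 * C / q2 * 16 ^ (i0 + 1) := by
        rw [div_mul_eq_mul_div, le_div_iff₀ hq]; linarith
      linarith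
    · have h3 : hi - lo ≤ 16 ^ (i0 + 1) := by rw [pow_succ]; omega
      have h4 : (hi - lo : ℝ) ≤ 16 ^ (i0 + 1) := by exact_mod_cast h3
      linarith
  · have hx := bd_mem (o := o) (i := i) hpos
    have hy := bd_mem (o := o) (i := i + 1) hpos
    obtain ⟨f, lo, hi, hg, hf, hlo, hhi⟩ := exists_geoFn hn conn_box hx hy hv
    have h2 : hi - lo < 2 * 16 ^ i0 := by
      by_contra h2
      have h2 := not_lt.1 h2
      have h3 := len_le_of_pe hn hq hg (hPe _ hx) (h28.trans h2)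
      have h4 := T_adj hn.nn (bd_adj hpos) hx hy
      have h5 := hE s(bd o (16 ^ (i0 + 1)) i, bd o (16 ^ (i0 + 1)) (i + 1)) (by
        intro u hu
        rcases Sym2.mem_iff.1 hu with rfl | rfl
        · exact hx
        · exact hy)
      have h6 : (2 * 16 ^ i0 : ℝ) ≤ hi - lo := by exact_mod_cast h2
      have h7 : (q2 : ℝ) * (2 * 16 ^ i0) ≤ 2 * (C * 4 ^ (i0 + 1)) := by
        have := mul_le_mul_of_nonneg_left h6 hq.le
        linarith
      rw [div_lt_iff₀ hq] at hj2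
      have h9 : (16 : ℝ) ^ i0 = 4 ^ i0 * 4 ^ i0 := by rw [← mul_pow]; norm_num
      have h10 : (0 : ℝ) < 4 ^ i0 := by positivity
      rw [h9, pow_succ] at h7
      rw [pow_succ] at hj2
      nlinarith
    have h3 := mem_ball_of_adj hg.adj le_rfl hg.le hlo hhi
    rw [hf, hg.start, mem_ball, abs_of_nonneg (by omega)] at h3
    rw [h8, mem_ball]
    omega

theorem gev_prob (hP : Par G q1 q2 M) :
    ∃ C : ℝ, 0 < C ∧
      Tendsto (fun j : ℕ => PP G {ω | Nice (W M ω) ∧ ¬ GEv C 0 (16 ^ j) (W M ω)}) atTop (𝓝 0) := by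
  obtain ⟨C, hC, h⟩ := mom_boxEv_bound hP
  have hq := hP.q2_pos
  refine ⟨2 * C / q2 + 2, by positivity, ENNReal.tendsto_atTop_zero.2 fun η hη => ?_⟩
  obtain ⟨j₀, hj₀⟩ := h η hη.ne'
  obtain ⟨j₁, hj₁⟩ := pow_unbounded_of_one_lt (16 * (C : ℝ) / q2) (by norm_num : (1 : ℝ) < 4)
  refine ⟨max j₀ (max j₁ 1), fun j hj => ?_⟩
  have h1 : j₀ ≤ j := le_of_max_le_left hj
  have h2 : j₁ ≤ j := le_of_max_le_left (le_of_max_le_right hj)
  have h3 : 1 ≤ j := le_of_max_le_right (le_of_max_le_right hj)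
  refine le_trans ?_ (hj₀ j h1 0)
  refine le_trans (measure_mono fun ω hω => ?_)
    (le_mul_of_one_le_right' (one_le_pow₀ (by norm_num)))
  exact fun hb => hω.2 (mom_gev_det hq h3
    (hj₁.trans_le (pow_le_pow_right₀ (by norm_num) h2)) hω.1 hb)

theorem mom_goodPt_det {C : ℕ} (hC : 0 < C) {j : ℕ} (hj : 2 ≤ j) {a : V} {r : ℤ} {ω : Om}
    (h1 : 2 * r ≤ 16 ^ j) (h2 : 16 ^ j ≤ 32 * r)
    (h : MomBoxEv C q2 M j (a.1 - r, a.2 - r) ω) : GoodPt (32 * C) q2 M (W M ω) a r := by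
  obtain ⟨⟨hT, -⟩, hPe⟩ := h
  have hsub : ∀ b ∈ ball a r, b ∈ box (a.1 - r, a.2 - r) (16 ^ j) := by
    intro b hb
    have := mem_ball.1 hb
    rw [mem_box]; simp only; omega
  have hpos : (0 : ℤ) < 16 ^ j := by positivity
  refine ⟨fun b hb b' hb' => ?_, fun b hb => (hPe b (hsub b hb)).mom_mono ?_⟩
  · have h3 := T_mono_S (S' := ball a (((32 * C : ℕ) : ℤ) * r)) (W_nn (M := M) ω) conn_box
      (hsub b hb) (hsub b' hb') (by
        intro v hv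
        have h4 := mem_box.1 hv
        have h5 : 32 * r ≤ ((32 * C : ℕ) : ℤ) * r := by
          refine mul_le_mul_of_nonneg_right ?_ (by omega)
          push_cast; omega
        rw [mem_ball]; simp only at h4; omega)
    refine h3.trans ((hT _ (hsub b hb) _ (hsub b' hb')).trans ?_)
    have h6 : (16 : ℝ) ^ j ≤ 32 * r := by exact_mod_cast h2
    have h7 : (0 : ℝ) ≤ C := by positivity
    push_cast
    nlinarith
  · have h3 : (8 : ℤ) ^ 2 ≤ 8 ^ j := pow_le_pow_right₀ (by norm_num) hj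
    have h4 : (16 : ℤ) ^ j = 2 ^ j * 8 ^ j := by rw [← mul_pow]; norm_num
    have h5 : (0 : ℤ) < 2 ^ j := by positivity
    push_cast
    nlinarith

theorem mom_goodPt_prob (hP : Par G q1 q2 M) :
    ∃ C : ℕ, 0 < C ∧ ∀ η : ℝ≥0∞, η ≠ 0 → ∃ r₀ : ℕ, ∀ r : ℕ, r₀ ≤ r → ∀ a : V,
      PP G {ω | ¬ GoodPt C q2 M (W M ω) a r} * r ^ 2 ≤ η := by
  obtain ⟨C, hC, h⟩ := mom_boxEv_bound hP
  refine ⟨32 * C, by omega, fun η hη => ?_⟩
  obtain ⟨j₀, hj₀⟩ := h η hη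
  refine ⟨16 ^ (max j₀ 2), fun r hr a => ?_⟩
  have hex : ∃ j, 2 * r ≤ 16 ^ j := ⟨2 * r, (Nat.lt_pow_self (by norm_num)).le⟩
  have hs := Nat.find_spec hex
  set j := Nat.find hex with hj
  have hj1 : max j₀ 2 ≤ j := by
    by_contra hc
    have h1 : 16 ^ j ≤ 16 ^ (max j₀ 2) := Nat.pow_le_pow_right (by norm_num) (not_le.1 hc).le
    have h2 : 0 < 16 ^ (max j₀ 2) := by positivity
    omega
  have hj2 : 2 ≤ j := le_of_max_le_right hj1
  have hmin : ¬ 2 * r ≤ 16 ^ (j - 1) := Nat.find_min hex (by omega)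
  have h32 : 16 ^ j ≤ 32 * r := by
    have : 16 ^ j = 16 ^ (j - 1) * 16 := by rw [← pow_succ]; congr 1; omega
    omega
  refine le_trans ?_ (hj₀ j (le_of_max_le_left hj1) (a.1 - r, a.2 - r))
  refine mul_le_mul' (measure_mono fun ω hω hb => hω ?_) ?_
  · exact mom_goodPt_det hC hj2 (by exact_mod_cast hs) (by exact_mod_cast h32) hb
  · have h1 : r ^ 2 ≤ 256 ^ j := by
      have h2 : 256 ^ j = (16 ^ j) ^ 2 := by rw [← pow_mul, mul_comm, pow_mul]; norm_num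
      rw [h2]; exact Nat.pow_le_pow_left (by omega) 2
    exact_mod_cast h1

theorem good_prob (hP : Par G q1 q2 M) :
    ∃ C : ℕ, 0 < C ∧ ∀ (N : ℕ) (η : ℝ≥0∞), 0 < N → η ≠ 0 → ∃ ρ₀ : ℕ, ∀ ρ : ℕ, ρ₀ ≤ ρ →
      PP G {ω | ¬ Good C q2 M (W M ω) 0 ρ (N * ρ)} ≤ η := by
  obtain ⟨C, hC, h⟩ := mom_goodPt_prob hP
  refine ⟨C, hC, fun N η hN hη => ?_⟩
  set K : ℝ≥0∞ := ((2 * (49 * N) ^ 2 : ℕ) : ℝ≥0∞) with hK
  have hK0 : K ≠ 0 := by rw [hK]; exact_mod_cast (by positivity : 2 * (49 * N) ^ 2 ≠ 0)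
  have hKt : K ≠ ⊤ := ENNReal.natCast_ne_top _
  obtain ⟨r₀, hr₀⟩ := h (η / K) (by simp [hη, hKt])
  refine ⟨max r₀ 1, fun ρ hρ => ?_⟩
  have h1 : r₀ ≤ ρ := le_of_max_le_left hρ
  have h2 : 1 ≤ ρ := le_of_max_le_right hρ
  have h3 : ρ ≤ 24 * (N * ρ) := by nlinarith
  have hcard : ((ballF 0 (24 * ((N : ℤ) * ρ))).card : ℝ≥0∞) ≤ (((49 * N) ^ 2 : ℕ) : ℝ≥0∞) * ρ ^ 2 := by
    have h4 : (1 : ℤ) ≤ N * ρ := by exact_mod_cast Nat.mul_pos hN h2
    have h5 : ((ballF 0 (24 * ((N : ℤ) * ρ))).card : ℤ) =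
        (2 * (24 * (N * ρ)) + 1) * (2 * (24 * (N * ρ)) + 1) := card_rectF (by omega) (by omega)
    have h6 : ((ballF 0 (24 * ((N : ℤ) * ρ))).card : ℤ) ≤ (49 * N) ^ 2 * ρ ^ 2 := by
      rw [h5, ← mul_pow, mul_assoc 49]; nlinarith
    have h7 : (ballF 0 (24 * ((N : ℤ) * ρ))).card ≤ (49 * N) ^ 2 * ρ ^ 2 := by exact_mod_cast h6
    exact_mod_cast h7
  have hρ0 : ((ρ : ℝ≥0∞) ^ 2) ≠ 0 := by
    have : (ρ : ℝ≥0∞) ≠ 0 := by exact_mod_cast (by omega : ρ ≠ 0)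
    exact pow_ne_zero _ this
  have hρt : ((ρ : ℝ≥0∞) ^ 2) ≠ ⊤ := ENNReal.pow_ne_top (ENNReal.natCast_ne_top _)
  have hp : ∀ r : ℕ, ρ ≤ r → ∀ a : V,
      PP G {ω | ¬ GoodPt C q2 M (W M ω) a r} ≤ η / K / ρ ^ 2 := by
    intro r hr a
    rw [ENNReal.le_div_iff_mul_le (Or.inl hρ0) (Or.inl hρt)]
    refine le_trans ?_ (hr₀ r (h1.trans hr) a)
    gcongr
  have p1 := mom_union (G := G) (ballF 0 (24 * ((N : ℤ) * ρ)))
    (fun a => {ω | ¬ GoodPt C q2 M (W M ω) a ρ} ∪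
      {ω | ¬ GoodPt C q2 M (W M ω) a (24 * (N * ρ) : ℕ)})
    (fun a _ => (measure_union_le _ _).trans (add_le_add (hp ρ le_rfl a) (hp _ h3 a))) hcard
  refine le_trans (measure_mono fun ω hω => ?_) (p1.trans (le_of_eq ?_))
  · by_contra hn
    simp only [Set.mem_union, Set.mem_iUnion, not_or, not_exists, Set.mem_ofPred_eq,
      not_not] at hn
    refine hω fun v hv => ?_
    have := hn v (mem_ballF.2 hv)
    push_cast at this
    exact this
  · have e1 : (((49 * N) ^ 2 : ℕ) : ℝ≥0∞) * ρ ^ 2 * (η / K / ρ ^ 2 + η / K / ρ ^ 2) =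
        K * (ρ ^ 2 * (η / K / ρ ^ 2)) := by
      rw [hK]; push_cast; ring
    rw [e1, ENNReal.mul_div_cancel hρ0 hρt, ENNReal.mul_div_cancel hK0 hKt]

end Vale.Agent.P158
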