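import Vale.Agent.P158.Mix
import Vale.Agent.P158.Cross

/-! Open crossings by renormalisation; shields. -/

namespace Vale.Agent.P158

open Finset MeasureTheory Filter
open scoped NNReal ENNReal Classical Topology

variable {G : Measure ℝ≥0} [IsProbabilityMeasure G] {M : ℝ≥0}

namespace Sh

variable {ω : Om} {S S' : Set V} {u v w z z' c c' : V} {b : Bool} {len len' wid wid' : ℤ}

theorem refl (h : u ∈ S) : OConn M ω S u u :=
  ⟨SimpleGraph.Walk.nil, fun v hv => by simpa [show v = u by simpa using hv] using h, by simp⟩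

theorem symm (h : OConn M ω S u v) : OConn M ω S v u := by
  obtain ⟨p, h1, h2⟩ := h
  exact ⟨p.reverse, fun w hw => h1 w (by simpa using hw), fun e he => h2 e (by simpa using he)⟩

theorem trans (h : OConn M ω S u v) (h' : OConn M ω S v w) : OConn M ω S u w := by
  obtain ⟨p, h1, h2⟩ := h
  obtain ⟨q, h3, h4⟩ := h'
  refine ⟨p.append q, fun z hz => ((p.mem_support_append_iff q).1 hz).elim (h1 z) (h3 z),
    fun e he => ?_⟩
  rw [SimpleGraph.Walk.edges_append, List.mem_append] at he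
  exact he.elim (h2 e) (h4 e)

theorem mono (h : OConn M ω S u v) (hS : S ⊆ S') : OConn M ω S' u v := by
  obtain ⟨p, h1, h2⟩ := h
  exact ⟨p, fun w hw => hS (h1 w hw), h2⟩

theorem of_mem {p : grid.Walk u v} (h1 : In S p) (h2 : ∀ e ∈ p.edges, ω e ≤ M)
    (hz : z ∈ p.support) (hz' : z' ∈ p.support) : OConn M ω S z z' := by
  have k : ∀ z ∈ p.support, OConn M ω S u z := fun z hz =>
    ⟨p.takeUntil z hz, fun w hw => h1 w (p.support_takeUntil_subset_support hz hw),
      fun e he => h2 e (p.edges_takeUntil_subset_edges hz he)⟩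
  exact trans (symm (k z hz)) (k z' hz')

/-- Cut a walk at the first vertex with property `P`. -/
theorem cut {I P : V → Prop} (hstep : ∀ a b, grid.Adj a b → I a → ¬ P a → I b)
    (p : grid.Walk u v) (hu : I u) (hv : ¬ I v ∨ P v) :
    ∃ z, ∃ q : grid.Walk u z, P z ∧ (∀ w ∈ q.support, I w ∧ w ∈ p.support) ∧
      ∀ e ∈ q.edges, e ∈ p.edges := by
  induction p with
  | nil => exact ⟨_, .nil, hv.resolve_left (not_not.2 hu), by simpa using hu, by simp⟩
  | @cons a a' _ h p ih =>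
    by_cases ha : P a
    · exact ⟨_, .nil, ha, by simpa using hu, by simp⟩
    · obtain ⟨z, q, h1, h2, h3⟩ := ih (hstep _ _ h hu ha) hv
      refine ⟨z, .cons h q, h1, fun w hw => ?_, fun e he => ?_⟩
      · rw [SimpleGraph.Walk.support_cons, List.mem_cons] at hw ⊢
        exact hw.elim (fun e => ⟨e ▸ hu, Or.inl e⟩) fun hw => ⟨(h2 w hw).1, Or.inr (h2 w hw).2⟩
      · rw [SimpleGraph.Walk.edges_cons, List.mem_cons] at he ⊢
        exact he.imp_right (h3 e)

theorem mem_rectB : v ∈ rectB b c len wid ↔ c.1 ≤ (sw b v).1 ∧ (sw b v).1 ≤ c.1 + len ∧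
    c.2 ≤ (sw b v).2 ∧ (sw b v).2 ≤ c.2 + wid := Iff.rfl

theorem sw_not_fst : (sw (!b) v).1 = (sw b v).2 := by cases b <;> rfl

theorem sw_not_snd : (sw (!b) v).2 = (sw b v).1 := by cases b <;> rfl

theorem sw_sw : sw b (sw b v) = v := by cases b <;> rfl

theorem sw_add : sw b (u + v) = sw b u + sw b v := by cases b <;> rfl

theorem sw_adj (b : Bool) (h : grid.Adj u v) :
    (sw b v).1 ≤ (sw b u).1 + 1 ∧ (sw b u).1 ≤ (sw b v).1 + 1 ∧
      (sw b v).2 ≤ (sw b u).2 + 1 ∧ (sw b u).2 ≤ (sw b v).2 + 1 := by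
  have := adj_iff.1 h
  cases b <;> simp only [sw, if_true, Bool.false_eq_true, if_false, Prod.fst_swap,
    Prod.snd_swap] <;> omega

theorem meet {u u' x x' : V} (p : grid.Walk u u') (q : grid.Walk x x')
    (hp : In (rectB b c len wid) p) (hq : In (rectB b c len wid) q) (hu : (sw b u).1 = c.1)
    (hu' : (sw b u').1 = c.1 + len) (hx : (sw b x).2 = c.2) (hx' : (sw b x').2 = c.2 + wid) :
    ∃ v, v ∈ p.support ∧ v ∈ q.support := by
  cases b
  · exact lrtb p q hp hq hu hu' hx hx'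
  · obtain ⟨v, h1, h2⟩ := lrtb (c := c.swap) (m := wid) (n := len) q p
      (fun v hv => ⟨(hq v hv).2.2.1, (hq v hv).2.2.2, (hq v hv).1, (hq v hv).2.1⟩)
      (fun v hv => ⟨(hp v hv).2.2.1, (hp v hv).2.2.2, (hp v hv).1, (hp v hv).2.1⟩) hx hx' hu hu'
    exact ⟨v, h2, h1⟩

theorem short (h : Cr M ω b c len wid) (h0 : 0 ≤ len') (h1 : len' ≤ len) :
    Cr M ω b c len' wid := by
  obtain ⟨u, v, hu, hv, p, h2, h3⟩ := h
  obtain ⟨z, q, k1, k2, k3⟩ := cut (I := fun a => (sw b a).1 ≤ c.1 + len')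
    (P := fun a => (sw b a).1 = c.1 + len') (fun a a' h k k' => by
      have := sw_adj b h
      omega) p (by omega) (by omega)
  exact ⟨u, z, hu, k1, q, fun w hw => ⟨(h2 w (k2 w hw).2).1, (k2 w hw).1, (h2 w (k2 w hw).2).2.2⟩,
    fun e he => h3 e (k3 e he)⟩

theorem widen (h : Cr M ω b c len wid) (h1 : c'.1 = c.1) (h2 : c'.2 ≤ c.2)
    (h3 : c.2 + wid ≤ c'.2 + wid') : Cr M ω b c' len wid' := by
  obtain ⟨u, v, hu, hv, h4⟩ := h
  refine ⟨u, v, h1 ▸ hu, h1 ▸ hv, mono h4 fun w hw => ?_⟩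
  rw [mem_rectB] at hw ⊢
  omega

theorem glue {l1 l2 d r : ℤ} (h1 : Cr M ω b c l1 r) (h2 : Cr M ω b (c.1 + d, c.2) l2 r)
    (h3 : Cr M ω (!b) (c.2, c.1 + d) r r) (k1 : 0 ≤ d) (k2 : d + r ≤ l1) (k3 : r ≤ l2)
    (k4 : l1 ≤ d + l2) : Cr M ω b c (d + l2) r := by
  obtain ⟨u, v, hu, hv, p, p1, p2⟩ := h1
  obtain ⟨u', v', hu', hv', p', p3, p4⟩ := h2
  obtain ⟨x, y, hx, hy, q, q1, q2⟩ := h3
  rw [sw_not_fst] at hx hy
  simp only [In, mem_rectB, sw_not_fst, sw_not_snd] at q1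
  obtain ⟨z, z1, z2⟩ := meet p q p1 (fun w hw => by
    have := q1 w hw
    rw [mem_rectB]
    omega) hu hv hx hy
  obtain ⟨z', z3, z4⟩ := meet p' q p3 (fun w hw => by
    have := q1 w hw
    simp only [mem_rectB]
    omega) hu' hv' hx hy
  simp only [In, mem_rectB] at p1 p3
  refine ⟨u, v', hu, hv'.trans (add_assoc _ _ _), trans (of_mem (fun w hw => ?_) p2
    p.start_mem_support z1) (trans (of_mem (fun w hw => ?_) q2 z2 z4)
      (of_mem (fun w hw => ?_) p4 z3 p'.end_mem_support))⟩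
  · have := p1 w hw
    rw [mem_rectB]
    omega
  · have := q1 w hw
    rw [mem_rectB]
    omega
  · have := p3 w hw
    rw [mem_rectB]
    omega

theorem step {r : ℤ} (hr : 3 ≤ r) (h1 : Cr M ω b c (3 * r) r)
    (h2 : Cr M ω b (c.1 + 2 * r, c.2) (3 * r) r) (h3 : Cr M ω b (c.1 + 4 * r, c.2) (3 * r) r)
    (h4 : Cr M ω (!b) (c.2, c.1 + 2 * r) (3 * r) r)
    (h5 : Cr M ω (!b) (c.2, c.1 + 4 * r) (3 * r) r) : Cr M ω b c (3 * (2 * r + 1)) r :=
  short (glue (glue h1 h2 (short h4 (by omega) (by omega)) (by omega) (by omega) (by omega)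
    (by omega)) h3 (short h5 (by omega) (by omega)) (by omega) (by omega) (by omega) (by omega))
    (by omega) (by omega)

theorem hit_low {u' x : V} (p : grid.Walk u u') (hp : In (rectB b c len wid) p)
    (hu : (sw b u).1 = c.1) (hu' : (sw b u').1 = c.1 + len) (h0 : 0 ≤ wid) (q : grid.Walk z x)
    (hz : (sw b z).2 = c.2) (hx : c.2 + wid ≤ (sw b x).2)
    (hq : In (rectB b c len wid') q) : ∃ v, v ∈ p.support ∧ v ∈ q.support := by
  obtain ⟨y, q', k1, k2, -⟩ := cut (I := fun a => (sw b a).2 ≤ c.2 + wid)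
    (P := fun a => (sw b a).2 = c.2 + wid) (fun a a' h k k' => by
      have := sw_adj b h
      omega) q (by omega) (by omega)
  obtain ⟨v, v1, v2⟩ := meet p q' hp (fun w hw => ⟨(hq w (k2 w hw).2).1, (hq w (k2 w hw).2).2.1,
    (hq w (k2 w hw).2).2.2.1, (k2 w hw).1⟩) hu hu' hz k1
  exact ⟨v, v1, (k2 v v2).2⟩

theorem hit_high {u' x : V} (p : grid.Walk u u') (hp : In (rectB b c len wid) p)
    (hu : (sw b u).1 = c.1) (hu' : (sw b u').1 = c.1 + len) (h0 : 0 ≤ wid) (q : grid.Walk z x)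
    (hz : (sw b z).2 = c.2 + wid) (hx : (sw b x).2 ≤ c.2) (hq : In (rectB b c' len wid') q)
    (h1 : c'.1 = c.1) (h2 : c'.2 + wid' = c.2 + wid) :
    ∃ v, v ∈ p.support ∧ v ∈ q.support := by
  obtain ⟨y, q', k1, k2, -⟩ := cut (I := fun a => c.2 ≤ (sw b a).2)
    (P := fun a => (sw b a).2 = c.2) (fun a a' h k k' => by
      have := sw_adj b h
      omega) q (by omega) (by omega)
  obtain ⟨v, v1, v2⟩ := meet p q'.reverse hp (fun w hw => by
    have := k2 w (by simpa using hw)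
    have := mem_rectB.1 (hq w this.2)
    rw [mem_rectB]
    omega) hu hu' k1 hz
  exact ⟨v, v1, (k2 v (by simpa using v2)).2⟩

theorem shift {s : V} (h : Cr M (shiftO s ω) b c len wid) : Cr M ω b (c + sw b s) len wid := by
  obtain ⟨u, v, hu, hv, p, h1, h2⟩ := h
  refine ⟨u + s, v + s, by rw [sw_add, Prod.fst_add, Prod.fst_add, hu],
    by rw [sw_add, Prod.fst_add, Prod.fst_add, hv, add_right_comm],
    p.map ⟨(· + s), fun h => adj_add h s⟩, fun w hw => ?_, fun e he => ?_⟩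
  · rw [SimpleGraph.Walk.support_map, List.mem_map] at hw
    obtain ⟨w, hw, rfl⟩ := hw
    have := mem_rectB.1 (h1 w hw)
    simp only [mem_rectB, RelHom.coeFn_mk, sw_add, Prod.fst_add, Prod.snd_add]
    omega
  · rw [SimpleGraph.Walk.edges_map, List.mem_map] at he
    obtain ⟨e, he, rfl⟩ := he
    exact h2 e he

theorem shield_shift {s x : V} {k : ℕ} (h : Shield M (shiftO s ω) k x) :
    Shield M ω k (x + s) := by
  obtain ⟨h1, h2, h3, h4⟩ := h
  refine ⟨?_, ?_, ?_, ?_⟩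
  · convert shift h1 using 1
    ext <;> simp [shc, sw] <;> ring
  · convert shift h2 using 1
    ext <;> simp [shc, sw] <;> ring
  · convert shift h3 using 1
    ext <;> simp [shc, sw] <;> ring
  · convert shift h4 using 1
    ext <;> simp [shc, sw] <;> ring

theorem rk_eq (k : ℕ) : ∃ h : ℤ, 2 ≤ h ∧ 2 ^ (k + 1) = h ∧ rk k = 2 * h - 1 :=
  ⟨_, le_self_pow₀ one_le_two k.succ_ne_zero, rfl, by rw [rk, pow_succ']⟩

end Sh

theorem measurableSet_OConn (S : Set V) (u v : V) : MeasurableSet {ω : Om | OConn M ω S u v} := by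
  have : Countable (grid.Walk u v) := SimpleGraph.Walk.support_injective.countable
  exact measurableSet_setOfPred.2 (Measurable.exists fun p => measurable_const.and
    (Measurable.forall fun e => measurable_const.imp
      (measurableSet_le (measurable_pi_apply e) measurable_const).mem))

theorem measurableSet_Cr (b : Bool) (c : V) (len wid : ℤ) :
    MeasurableSet {ω : Om | Cr M ω b c len wid} :=
  measurableSet_setOfPred.2 (Measurable.exists fun u => Measurable.exists fun v =>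
    measurable_const.and (measurable_const.and (measurableSet_OConn _ u v).mem))

theorem measurableSet_Shield (k : ℕ) (x : V) : MeasurableSet {ω : Om | Shield M ω k x} :=
  (measurableSet_Cr _ _ _ _).inter ((measurableSet_Cr _ _ _ _).inter
    ((measurableSet_Cr _ _ _ _).inter (measurableSet_Cr _ _ _ _)))

theorem dep_Cr (b : Bool) (c : V) (len wid : ℤ) :
    Dep (edgesIn (rectB b c len wid)) {ω | Cr M ω b c len wid} := by
  intro ω ω' h
  refine exists₂_congr fun u v => and_congr_right fun _ => and_congr_right fun _ =>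
    exists_congr fun p => and_congr_right fun hp => forall₂_congr fun e he => ?_
  rw [h e fun w hw => hp w (SimpleGraph.Walk.mem_support_of_mem_edges he hw)]

theorem dep_Shield (k : ℕ) (x : V) :
    Dep (edgesIn (ball x (2 * rk k))) {ω | Shield M ω k x} := by
  intro ω ω' h
  obtain ⟨g, h1, h2, h3⟩ := Sh.rk_eq k
  refine and_congr (dep_Cr _ _ _ _ _ _ ?_) (and_congr (dep_Cr _ _ _ _ _ _ ?_)
    (and_congr (dep_Cr _ _ _ _ _ _ ?_) (dep_Cr _ _ _ _ _ _ ?_))) <;>
  · refine fun e he => h e fun v hv => ?_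
    have := Sh.mem_rectB.1 (he v hv)
    simp only [sw, shc, h2, if_true, Bool.false_eq_true, if_false, Prod.fst_swap,
      Prod.snd_swap] at this
    rw [mem_ball]
    omega

theorem Shield_congr {ω ω' : Om} (h : ∀ e, ω e ≤ M ↔ ω' e ≤ M) (k : ℕ) (x : V) :
    Shield M ω k x ↔ Shield M ω' k x := by
  simp only [Shield, Cr, OConn, h]

theorem Shield_shift (ω : Om) (k : ℕ) (x s : V) :
    Shield M (shiftO s ω) k x ↔ Shield M ω k (x + s) := by
  refine ⟨Sh.shield_shift, fun h => ?_⟩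
  have e : shiftO (-s) (shiftO s ω) = ω := by
    rw [shiftO_add, neg_add_cancel]
    funext e
    simp [shiftO]
  rw [← e] at h
  simpa using Sh.shield_shift h

theorem prob_not_Cr (hM : G (Set.Ioi M) ≤ 1 / 1024) (k : ℕ) (b : Bool) (c : V) :
    PP G {ω | ¬ Cr M ω b c (3 * rk k) (rk k)} ≤ 25⁻¹ * 2⁻¹ ^ (2 ^ k) := by
  induction k generalizing b c with
  | zero =>
    have hadj : ∀ i : ℤ, 0 ≤ i → i < 9 →
        grid.Adj (sw b (c.1 + i, c.2)) (sw b (c.1 + (i + 1), c.2)) := fun i _ _ => by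
      rw [adj_iff]
      cases b <;> simp [sw, add_assoc]
    obtain ⟨p, -, h1, h2, -⟩ := exists_walk_seg (f := fun i => sw b (c.1 + i, c.2)) (by norm_num)
      hadj
    have h3 : {ω : Om | ¬ Cr M ω b c (3 * rk 0) (rk 0)} ⊆ ⋃ i ∈ Ico (0 : ℤ) 9,
        (fun ω : Om => ω s(sw b (c.1 + i, c.2), sw b (c.1 + (i + 1), c.2))) ⁻¹' Set.Ioi M := by
      intro ω hω
      by_contra hn
      simp only [Set.mem_iUnion, Set.mem_preimage, Set.mem_Ioi, not_exists, not_lt, mem_Ico] at hn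
      refine hω ⟨_, _, by simp [Sh.sw_sw], by simp [Sh.sw_sw, rk], p, fun v hv => ?_,
        fun e he => ?_⟩
      · obtain ⟨i, k1, k2, rfl⟩ := (h1 v).1 hv
        simp only [Sh.mem_rectB, Sh.sw_sw, rk]
        omega
      · obtain ⟨i, k1, k2, rfl⟩ := (h2 e).1 he
        exact hn i ⟨k1, k2⟩
    refine (measure_mono h3).trans ((measure_biUnion_finset_le _ _).trans
      ((sum_le_card_nsmul _ _ _ fun i _ => ((eval_mp _).measure_preimage
        measurableSet_Ioi.nullMeasurableSet).trans_le hM).trans ?_))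
    rw [show (Ico (0 : ℤ) 9).card = 9 from rfl, nsmul_eq_mul,
      ← ENNReal.toReal_le_toReal (by finiteness) (by finiteness)]
    norm_num
  | succ k ih =>
    obtain ⟨g, h1, h2, h3⟩ := Sh.rk_eq k
    have e : rk (k + 1) = 2 * rk k + 1 := by
      rw [rk, rk, pow_succ' _ (k + 2)]
      ring
    have k1 : ∀ c : V, PP G {ω | Cr M ω b c (3 * (2 * rk k + 1)) (rk k)}ᶜ ≤
        5 * (25⁻¹ * 2⁻¹ ^ (2 ^ k)) := fun c => by
      have k2 : {ω | Cr M ω b c (3 * (2 * rk k + 1)) (rk k)}ᶜ ⊆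
          {ω | ¬ Cr M ω b c (3 * rk k) (rk k)} ∪
          {ω | ¬ Cr M ω b (c.1 + 2 * rk k, c.2) (3 * rk k) (rk k)} ∪
          {ω | ¬ Cr M ω b (c.1 + 4 * rk k, c.2) (3 * rk k) (rk k)} ∪
          {ω | ¬ Cr M ω (!b) (c.2, c.1 + 2 * rk k) (3 * rk k) (rk k)} ∪
          {ω | ¬ Cr M ω (!b) (c.2, c.1 + 4 * rk k) (3 * rk k) (rk k)} := fun ω hω => by
        by_contra hn
        simp only [Set.mem_union, Set.mem_ofPred_eq, not_or, not_not] at hn
        exact hω (Sh.step (by omega) hn.1.1.1.1 hn.1.1.1.2 hn.1.1.2 hn.1.2 hn.2)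
      refine (measure_mono k2).trans (((measure_union_le _ _).trans (add_le_add
        ((measure_union_le _ _).trans (add_le_add ((measure_union_le _ _).trans (add_le_add
          ((measure_union_le _ _).trans (add_le_add (ih _ _) (ih _ _))) (ih _ _))) (ih _ _)))
        (ih _ _))).trans_eq ?_)
      ring
    have k2 : {ω | ¬ Cr M ω b c (3 * rk (k + 1)) (rk (k + 1))} ⊆
        {ω | Cr M ω b c (3 * (2 * rk k + 1)) (rk k)}ᶜ ∩
          {ω | Cr M ω b (c.1, c.2 + rk k + 1) (3 * (2 * rk k + 1)) (rk k)}ᶜ := fun ω hω => by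
      rw [e] at hω
      exact ⟨fun h => hω (Sh.widen h rfl le_rfl (by omega)),
        fun h => hω (Sh.widen h rfl (by simp only; omega) (by simp only; omega))⟩
    refine (measure_mono k2).trans ?_
    have k4 : ∀ c : V, Dep (edgesIn (rectB b c (3 * (2 * rk k + 1)) (rk k)))
        {ω | Cr M ω b c (3 * (2 * rk k + 1)) (rk k)}ᶜ := fun c _ _ h => (dep_Cr b c _ _ _ _ h).not
    refine (indep_dep (edgesIn_disjoint (Set.disjoint_left.2 fun v h h' => by
      simp only [Sh.mem_rectB] at h h'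
      omega)) (k4 c) (k4 _) (measurableSet_Cr _ _ _ _).compl
      (measurableSet_Cr _ _ _ _).compl).trans_le ((mul_le_mul' (k1 _) (k1 _)).trans_eq ?_)
    have k3 : (25 : ℝ≥0∞) * 25⁻¹ = 1 := ENNReal.mul_inv_cancel (by norm_num) (by norm_num)
    rw [pow_succ, pow_mul]
    calc _ = (25 : ℝ≥0∞) * 25⁻¹ * (25⁻¹ * (2⁻¹ ^ 2 ^ k) ^ 2) := by ring
      _ = _ := by rw [k3, one_mul]

theorem prob_not_Shield (hM : G (Set.Ioi M) ≤ 1 / 1024) (k : ℕ) (x : V) :
    PP G {ω | ¬ Shield M ω k x} ≤ 2⁻¹ ^ (2 ^ k) := by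
  have k2 : {ω | ¬ Shield M ω k x} ⊆ {ω | ¬ Cr M ω false (shc k x) (3 * rk k) (rk k)} ∪
      {ω | ¬ Cr M ω false ((shc k x).1, (shc k x).2 + 2 * rk k) (3 * rk k) (rk k)} ∪
      {ω | ¬ Cr M ω true ((shc k x).2, (shc k x).1) (3 * rk k) (rk k)} ∪
      {ω | ¬ Cr M ω true ((shc k x).2, (shc k x).1 + 2 * rk k) (3 * rk k) (rk k)} := by
    intro ω hω
    by_contra hn
    simp only [Set.mem_union, Set.mem_ofPred_eq, not_or, not_not] at hn
    exact hω ⟨hn.1.1.1, hn.1.1.2, hn.1.2, hn.2⟩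
  have ih := prob_not_Cr hM k
  refine (measure_mono k2).trans (((measure_union_le _ _).trans (add_le_add
    ((measure_union_le _ _).trans (add_le_add ((measure_union_le _ _).trans
      (add_le_add (ih _ _) (ih _ _))) (ih _ _))) (ih _ _))).trans ?_)
  rw [← add_mul, ← add_mul, ← add_mul]
  refine mul_le_of_le_one_left' ?_
  rw [← ENNReal.toReal_le_toReal (by finiteness) (by finiteness),
    ENNReal.toReal_add (by finiteness) (by finiteness),
    ENNReal.toReal_add (by finiteness) (by finiteness),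
    ENNReal.toReal_add (by finiteness) (by finiteness)]
  norm_num

theorem ae_shield (hM : G (Set.Ioi M) ≤ 1 / 1024) :
    ∀ᵐ ω ∂PP G, ∀ x, ∀ᶠ k in atTop, Shield M ω k x := by
  refine ae_all_iff.2 fun x => ?_
  have h : ∑' k, PP G {ω | ¬ Shield M ω k x} ≠ ∞ := by
    refine ne_top_of_le_ne_top ?_ (ENNReal.tsum_le_tsum fun k => (prob_not_Shield hM k x).trans
      (pow_le_pow_of_le_one zero_le (by norm_num) (Nat.lt_two_pow_self (n := k)).le))
    rw [ENNReal.tsum_geometric, ENNReal.one_sub_inv_two, inv_inv]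
    norm_num
  filter_upwards [ae_eventually_notMem h] with ω hω
  exact hω.mono fun k hk => not_not.1 hk

/-- The open configuration around `x` given by a shield. -/
theorem Shield.exists_set {ω : Om} {k : ℕ} {x : V} (h : Shield M ω k x) :
    ∃ H : Set V, (∀ u ∈ H, ∀ v ∈ H, OConn M ω (box (shc k x) (3 * rk k)) u v) ∧
      (∀ u ∈ H, u ∉ ball x (2 ^ (k + 1) - 2)) ∧
      (∃ u ∈ H, ∃ v ∈ H, u.1 + 3 * rk k = v.1) ∧
      ∀ (u v : V) (p : grid.Walk u v),
        (u ∈ ball x (2 ^ (k + 1) - 2) ∨ u = x + (1, 0) ∨ u = x + (0, 1)) →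
        (v ∉ box (shc k x) (3 * rk k) ∨ v ∈ bdry (shc k x) (3 * rk k)) →
        ∃ z ∈ p.support, z ∈ H := by
  obtain ⟨g, g1, g2, g3⟩ := Sh.rk_eq k
  have o1 : (shc k x).1 = x.1 - rk k - (g - 1) := by rw [← g2, shc]
  have o2 : (shc k x).2 = x.2 - rk k - (g - 1) := by rw [← g2, shc]
  unfold Shield at h
  rw [g2]
  clear g2
  generalize shc k x = o at *
  generalize rk k = r at *
  obtain ⟨⟨u1, v1, a1, b1, p1, c1, d1⟩, ⟨u2, v2, a2, b2, p2, c2, d2⟩, ⟨u3, v3, a3, b3, p3, c3, d3⟩,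
    ⟨u4, v4, a4, b4, p4, c4, d4⟩⟩ := h
  have m1 : ∀ v ∈ p1.support, v ∈ box o (3 * r) ∧ v.2 ≤ o.2 + r := fun v hv => by
    have := Sh.mem_rectB.1 (c1 v hv)
    simp only [sw, Bool.false_eq_true, if_false] at this
    rw [mem_box]
    omega
  have m2 : ∀ v ∈ p2.support, v ∈ box o (3 * r) ∧ o.2 + 2 * r ≤ v.2 := fun v hv => by
    have := Sh.mem_rectB.1 (c2 v hv)
    simp only [sw, Bool.false_eq_true, if_false] at this
    rw [mem_box]
    omega
  have m3 : ∀ v ∈ p3.support, v ∈ box o (3 * r) ∧ v.1 ≤ o.1 + r := fun v hv => by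
    have := Sh.mem_rectB.1 (c3 v hv)
    simp only [sw, if_true, Prod.fst_swap, Prod.snd_swap] at this
    rw [mem_box]
    omega
  have m4 : ∀ v ∈ p4.support, v ∈ box o (3 * r) ∧ o.1 + 2 * r ≤ v.1 := fun v hv => by
    have := Sh.mem_rectB.1 (c4 v hv)
    simp only [sw, if_true, Prod.fst_swap, Prod.snd_swap] at this
    rw [mem_box]
    omega
  have n1 : In (box o (3 * r)) p1 := fun v hv => (m1 v hv).1
  have n2 : In (box o (3 * r)) p2 := fun v hv => (m2 v hv).1
  have n3 : In (box o (3 * r)) p3 := fun v hv => (m3 v hv).1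
  have n4 : In (box o (3 * r)) p4 := fun v hv => (m4 v hv).1
  obtain ⟨z13, e1, e2⟩ := lrtb p1 p3 n1 n3 a1 b1 a3 b3
  obtain ⟨z14, e3, e4⟩ := lrtb p1 p4 n1 n4 a1 b1 a4 b4
  obtain ⟨z23, e5, e6⟩ := lrtb p2 p3 n2 n3 a2 b2 a3 b3
  refine ⟨{v | v ∈ p1.support ∨ v ∈ p2.support ∨ v ∈ p3.support ∨ v ∈ p4.support}, ?_, ?_,
    ⟨u1, Or.inl p1.start_mem_support, v1, Or.inl p1.end_mem_support,
      (congrArg (· + 3 * r) a1).trans b1.symm⟩, fun u v p hu hv => ?_⟩
  · have key : ∀ v, v ∈ p1.support ∨ v ∈ p2.support ∨ v ∈ p3.support ∨ v ∈ p4.support →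
        OConn M ω (box o (3 * r)) v z13 := by
      rintro v (h | h | h | h)
      · exact Sh.of_mem n1 d1 h e1
      · exact Sh.trans (Sh.of_mem n2 d2 h e5) (Sh.of_mem n3 d3 e6 e2)
      · exact Sh.of_mem n3 d3 h e2
      · exact Sh.trans (Sh.of_mem n4 d4 h e4) (Sh.of_mem n1 d1 e3 e1)
    exact fun u hu v hv => Sh.trans (key u hu) (Sh.symm (key v hv))
  · intro u hu
    rw [mem_ball]
    rcases hu with h | h | h | h
    · have := (m1 u h).2
      omega
    · have := (m2 u h).2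
      omega
    · have := (m3 u h).2
      omega
    · have := (m4 u h).2
      omega
  · have hu' : o.1 + r ≤ u.1 ∧ u.1 ≤ o.1 + 2 * r ∧ o.2 + r ≤ u.2 ∧ u.2 ≤ o.2 + 2 * r := by
      rcases hu with h | rfl | rfl
      · rw [mem_ball] at h
        omega
      · simp only [Prod.fst_add, Prod.snd_add]
        omega
      · simp only [Prod.fst_add, Prod.snd_add]
        omega
    obtain ⟨z, q, k1, k2, -⟩ := Sh.cut (I := fun a => a ∈ box o (3 * r))
      (P := fun a => a ∈ bdry o (3 * r)) (fun a a' h k k' => by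
        have := adj_iff.1 h
        simp only [bdry, Set.mem_ofPred_eq, mem_box] at k k' ⊢
        omega) p (by rw [mem_box]; omega) hv
    have q1 : In (rectB false o (3 * r) (3 * r)) q.reverse := fun w hw =>
      (k2 w (by simpa using hw)).1
    have q2 : In (rectB true (o.2, o.1) (3 * r) (3 * r)) q.reverse := fun w hw =>
      ⟨(q1 w hw).2.2.1, (q1 w hw).2.2.2, (q1 w hw).1, (q1 w hw).2.1⟩
    have fin : ∀ w ∈ q.reverse.support, w ∈ p.support := fun w hw => (k2 w (by simpa using hw)).2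
    rcases k1.2 with h | h | h | h
    · obtain ⟨w, w1, w2⟩ := Sh.hit_low p3 c3 a3 b3 (by omega) q.reverse h hu'.1 q2
      exact ⟨w, fin w w2, Or.inr (Or.inr (Or.inl w1))⟩
    · obtain ⟨w, w1, w2⟩ := Sh.hit_high p4 c4 a4 b4 (by omega) q.reverse
        (h.trans (by simp only; omega)) hu'.2.1 q2 rfl (by simp only; omega)
      exact ⟨w, fin w w2, Or.inr (Or.inr (Or.inr w1))⟩
    · obtain ⟨w, w1, w2⟩ := Sh.hit_low p1 c1 a1 b1 (by omega) q.reverse h hu'.2.2.1 q1
      exact ⟨w, fin w w2, Or.inl w1⟩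
    · obtain ⟨w, w1, w2⟩ := Sh.hit_high p2 c2 a2 b2 (by omega) q.reverse
        (h.trans (by simp only; omega)) hu'.2.2.2 q1 rfl (by simp only; omega)
      exact ⟨w, fin w w2, Or.inr (Or.inl w1)⟩

end Vale.Agent.P158
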