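import Vale.Agent.P158.Shield
import Vale.Agent.P158.Cpt

/-! The truncated environment: elementary properties, modifications, reduction. -/

namespace Vale.Agent.P158

open Finset MeasureTheory Filter
open scoped NNReal ENNReal Classical Topology

variable {G : Measure ℝ≥0} [IsProbabilityMeasure G] {q1 q2 M : ℝ≥0}

theorem psi_le (H t : ℝ) : psi H t ≤ t := by
  unfold psi
  split_ifs with h
  · exact le_rfl
  · have : (t - H) / (1 + (t - H)) ≤ t - H := div_le_self (by linarith) (by linarith)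
    linarith

theorem psi_lt_add_one (H t : ℝ) : psi H t < H + 1 := by
  unfold psi
  split_ifs with h
  · linarith
  · have : (t - H) / (1 + (t - H)) < 1 := by
      rw [div_lt_one (by linarith)]
      linarith
    linarith

theorem psi_strict {H t t' : ℝ} (h : t < t') : psi H t < psi H t' ∧ psi H t' - psi H t ≤ t' - t := by
  unfold psi
  split_ifs with h1 h2 h2
  · exact ⟨h, le_rfl⟩
  · have c1 : (t' - H) / (1 + (t' - H)) ≤ t' - H := div_le_self (by linarith) (by linarith)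
    have c2 : 0 < (t' - H) / (1 + (t' - H)) := div_pos (by linarith) (by linarith)
    constructor <;> linarith
  · linarith
  · have c1 : 0 < 1 + (t - H) := by linarith
    have c2 : 0 < 1 + (t' - H) := by linarith
    have e : (t' - H) / (1 + (t' - H)) - (t - H) / (1 + (t - H)) =
        (t' - t) / ((1 + (t - H)) * (1 + (t' - H))) := by
      field_simp
      ring
    have c3 : 0 < (t' - t) / ((1 + (t - H)) * (1 + (t' - H))) :=
      div_pos (by linarith) (mul_pos c1 c2)
    have c4 : (t' - t) / ((1 + (t - H)) * (1 + (t' - H))) ≤ t' - t :=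
      div_le_self (by linarith) (one_le_mul_of_one_le_of_one_le (by linarith) (by linarith))
    constructor <;> linarith

theorem trunc_rk_ge (k : ℕ) : 3 ≤ rk k := by
  unfold rk
  have : (1 : ℤ) ≤ 2 ^ k := one_le_pow₀ (by norm_num)
  rw [pow_add]
  omega

theorem trunc_rk_lt {k l : ℕ} (h : k < l) : rk k < rk l := by
  unfold rk
  have : (2 : ℤ) ^ (k + 2) < 2 ^ (l + 2) := pow_lt_pow_right₀ (by norm_num) (by omega)
  omega

theorem trunc_psi_eq {H t : ℝ} (h : t ≤ H) : psi H t = t := if_pos h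

theorem M_lt_zk (k : ℕ) : (M : ℝ) < zk M k - 1 := by
  unfold zk
  have h : (3 : ℝ) ≤ rk k := by exact_mod_cast trunc_rk_ge k
  have h1 : (1 : ℝ) ≤ 3 * (3 * rk k + 1) ^ 2 := by nlinarith
  nlinarith [mul_le_mul_of_nonneg_left h1 (NNReal.coe_nonneg M)]

theorem zk_mono : Monotone (zk M) := by
  refine monotone_nat_of_le_succ fun k => ?_
  unfold zk
  have h : (3 : ℝ) ≤ rk k := by exact_mod_cast trunc_rk_ge k
  have h1 : (rk k : ℝ) ≤ rk (k + 1) := by exact_mod_cast (trunc_rk_lt (Nat.lt_succ_self k)).le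
  gcongr

theorem zk_le (k : ℕ) : zk M k ≤ (432 * M + 2) * 4 ^ k := by
  unfold zk
  have h : (3 : ℝ) ≤ rk k := by exact_mod_cast trunc_rk_ge k
  have h1 : (rk k : ℝ) = 4 * 2 ^ k - 1 := by
    unfold rk
    push_cast
    ring
  have h2 : (4 : ℝ) ^ k = (2 ^ k) ^ 2 := by
    rw [← pow_mul, mul_comm, pow_mul]
    norm_num
  have h3 : (3 * (rk k : ℝ) + 1) ^ 2 ≤ (12 * 2 ^ k) ^ 2 := by
    gcongr
    linarith
  have h4 : (1 : ℝ) ≤ 4 ^ k := one_le_pow₀ (by norm_num)
  have h5 := mul_le_mul_of_nonneg_left h3 (NNReal.coe_nonneg M)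
  rw [mul_pow, ← h2] at h5
  linarith

theorem W_nn (ω : Om) : NN (W M ω) := by
  intro e
  have h0 : 0 ≤ zk M (kk M ω e.inf) - 1 := (NNReal.coe_nonneg M).trans (M_lt_zk _).le
  rcases (NNReal.coe_nonneg (ω e)).eq_or_lt with h | h
  · unfold W
    rw [← h, trunc_psi_eq h0]
  · have := (psi_strict (H := zk M (kk M ω e.inf) - 1) h).1
    rw [trunc_psi_eq h0] at this
    exact this.le

theorem W_le (ω : Om) (e : Sym2 V) : W M ω e ≤ ω e := by
  exact psi_le _ _

theorem W_le_zk (ω : Om) (e : Sym2 V) : W M ω e ≤ zk M (kk M ω e.inf) := by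
  have := psi_lt_add_one (zk M (kk M ω e.inf) - 1) (ω e)
  rw [sub_add_cancel] at this
  exact this.le

theorem W_eq {ω : Om} {e : Sym2 V} (h : ω e ≤ M) : W M ω e = ω e := by
  exact trunc_psi_eq ((NNReal.coe_le_coe.2 h).trans (M_lt_zk _).le)

theorem W_gt {ω : Om} {e : Sym2 V} (h : M < ω e) : (M : ℝ) < W M ω e := by
  have := (psi_strict (H := zk M (kk M ω e.inf) - 1) (NNReal.coe_lt_coe.2 h)).1
  rwa [trunc_psi_eq (M_lt_zk _).le] at this

theorem W_mem_Ioc {ω : Om} {e : Sym2 V} {q : ℝ≥0} :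
    W M ω e ∈ Set.Ioc (q : ℝ) M ↔ ω e ∈ Set.Ioc q M := by
  rcases le_or_gt (ω e) M with h | h
  · rw [W_eq h]
    simp
  · constructor
    · exact fun h' => absurd h'.2 (not_le.2 (W_gt h))
    · exact fun h' => absurd h'.2 (not_le.2 h)

theorem trunc_kk_congr {ω ω' : Om} (h : ∀ e, ω e ≤ M ↔ ω' e ≤ M) (x : V) :
    kk M ω x = kk M ω' x := by
  unfold kk
  simp only [Shield_congr h]

theorem W_congr {ω ω' : Om} (h : ∀ e, ω e ≤ M ↔ ω' e ≤ M) {e : Sym2 V} (he : ω e = ω' e) :
    W M ω e = W M ω' e := by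
  unfold W
  rw [trunc_kk_congr h, he]

theorem measurable_kk (x : V) : Measurable fun ω : Om => kk M ω x := by
  refine measurable_to_countable' fun n => ?_
  have e : (fun ω : Om => kk M ω x) ⁻¹' {n} =
      ({ω | Shield M ω n x} ∩ ⋂ m, ⋂ (_ : m < n), {ω | Shield M ω m x}ᶜ) ∪
        ⋂ (_ : True), ((⋂ m, {ω | Shield M ω m x}ᶜ) ∩ {_ω | n = 0}) := by
    ext ω
    simp only [Set.mem_preimage, Set.mem_singleton_iff, Set.mem_union, Set.mem_inter_iff,
      Set.mem_iInter, Set.mem_compl_iff, Set.mem_ofPred_eq, forall_const, kk]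
    constructor
    · rintro rfl
      by_cases h : {k | Shield M ω k x}.Nonempty
      · exact Or.inl ⟨Nat.sInf_mem h, fun m hm => Nat.notMem_of_lt_sInf hm⟩
      · refine Or.inr ⟨fun m hm => h ⟨m, hm⟩, ?_⟩
        rw [Set.not_nonempty_iff_eq_empty.1 h, Nat.sInf_empty]
    · rintro (⟨h1, h2⟩ | ⟨h1, rfl⟩)
      · refine le_antisymm (Nat.sInf_le h1) (not_lt.1 fun h => ?_)
        exact h2 _ h (Nat.sInf_mem (s := {k | Shield M ω k x}) ⟨n, h1⟩)
      · rw [Set.eq_empty_of_forall_notMem (s := {k | Shield M ω k x}) h1, Nat.sInf_empty]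
  rw [e]
  refine ((measurableSet_Shield n x).inter (MeasurableSet.iInter fun m =>
    MeasurableSet.iInter fun _ => (measurableSet_Shield m x).compl)).union
    (MeasurableSet.iInter fun _ => (MeasurableSet.iInter fun m =>
      (measurableSet_Shield m x).compl).inter (MeasurableSet.const _))

theorem measurable_W : Measurable (W M) := by
  refine measurable_pi_lambda _ fun e => ?_
  have h1 : Measurable fun ω : Om => zk M (kk M ω e.inf) - 1 :=
    ((measurable_of_countable (zk M)).comp (measurable_kk _)).sub_const 1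
  have h2 : Measurable fun ω : Om => (ω e : ℝ) := (measurable_pi_apply e).coe_nnreal_real
  unfold W psi
  exact Measurable.ite (measurableSet_le h2 h1) h2
    (h1.add ((h2.sub h1).div ((h2.sub h1).const_add 1)))

theorem W_shift (s : V) (ω : Om) : W M (shiftO s ω) = shiftW s (W M ω) := by
  funext e
  have e1 : (e.map (· + s)).inf = e.inf + s := by
    induction e using Sym2.ind with
    | h a b => simp only [Sym2.map_mk, Sym2.inf_mk, inf_add]
  unfold W shiftW kk
  simp only [Shield_shift, e1]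
  rfl

theorem Pe_W {ω : Om} {x : V} {k : ℤ} :
    Pe q2 M (W M ω) x k ↔ Pe q2 M (fun e => (ω e : ℝ)) x k := by
  unfold Pe cntA
  have e : ∀ e, (W M ω e ∈ Set.Ioc (q2 : ℝ) M) = ((ω e : ℝ) ∈ Set.Ioc (q2 : ℝ) M) := by
    intro e
    rw [W_mem_Ioc]
    simp
  simp only [e]

theorem Par.hM (hP : Par G q1 q2 M) : G (Set.Ioi M) ≤ 1 / 1024 := by
  refine le_trans (measure_mono ?_) hP.hA
  exact fun t ht h => not_le.2 ht h.2

theorem Par.q2_pos (hP : Par G q1 q2 M) : (0 : ℝ) < q2 := by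
  exact lt_of_le_of_lt (NNReal.coe_nonneg q1) (NNReal.coe_lt_coe.2 hP.h12)

theorem trunc_W_one {ω y : Om} {e : Sym2 V} (h : y e ≤ M ↔ ω e ≤ M) :
    W M (mix (({e} : Finset (Sym2 V)) : Set (Sym2 V)) y ω) =
      Function.update (W M ω) e (psi (zk M (kk M ω e.inf) - 1) (y e)) := by
  have hc : ∀ e', mix (({e} : Finset (Sym2 V)) : Set (Sym2 V)) y ω e' ≤ M ↔ ω e' ≤ M := by
    intro e'
    unfold mix
    split_ifs with he
    · obtain rfl : e' = e := by simpa using he
      exact h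
    · rfl
  funext e'
  by_cases he : e' = e
  · subst he
    rw [Function.update_self]
    unfold W
    rw [trunc_kk_congr hc]
    simp [mix]
  · rw [Function.update_of_ne he]
    exact W_congr hc (by simp [mix, he])

theorem trunc_psi_nonneg {H t : ℝ} (hH : 0 ≤ H) (ht : 0 ≤ t) : 0 ≤ psi H t := by
  rcases ht.eq_or_lt with h | h
  · rw [← h, trunc_psi_eq hH]
  · have := (psi_strict (H := H) h).1
    rw [trunc_psi_eq hH] at this
    exact this.le

theorem trunc_H_nonneg (k : ℕ) : 0 ≤ zk M k - 1 := (NNReal.coe_nonneg M).trans (M_lt_zk k).le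

/-- Small changes of one edge keep almost sure properties. -/
theorem mod1 [NullSingletonClass G] {p : Wt → Prop} (h : ∀ᵐ ω ∂PP G, p (W M ω)) :
    ∀ᵐ ω ∂PP G, ∀ (e : Sym2 V) (ε : ℝ), 0 < ε →
      (∃ t, 0 ≤ t ∧ t < W M ω e ∧ p (Function.update (W M ω) e t)) ∧
      ∃ δ, 0 < δ ∧ δ < ε ∧ p (upE (W M ω) e δ) := by
  have h1 : ∀ᵐ ω ∂PP G, ∀ e : Sym2 V, ω e ≠ M ∧ ∀ ε : ℝ, 0 < ε →
      G {s : ℝ≥0 | (ω e : ℝ) < s ∧ (s : ℝ) < ω e + ε} ≠ 0 ∧
        G {s : ℝ≥0 | (ω e : ℝ) - ε < s ∧ (s : ℝ) < ω e} ≠ 0 := by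
    refine ae_all_iff.2 fun e => (eval_mp (G := G) e).quasiMeasurePreserving.ae
      (p := fun t : ℝ≥0 => t ≠ M ∧ ∀ ε : ℝ, 0 < ε →
        G {s : ℝ≥0 | (t : ℝ) < s ∧ (s : ℝ) < t + ε} ≠ 0 ∧
          G {s : ℝ≥0 | (t : ℝ) - ε < s ∧ (s : ℝ) < t} ≠ 0) ?_
    refine Filter.Eventually.and ?_ acc
    rw [ae_iff]
    simp
  filter_upwards [res h, h1] with ω h2 h3 e ε hε
  obtain ⟨h4, h5⟩ := h3 e
  have hη : 0 < |(ω e : ℝ) - M| := abs_pos.2 (sub_ne_zero.2 (by exact_mod_cast h4))
  have hcl : ∀ s : ℝ≥0, |(s : ℝ) - ω e| < |(ω e : ℝ) - M| → (s ≤ M ↔ ω e ≤ M) := by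
    intro s hs
    rw [← NNReal.coe_le_coe, ← NNReal.coe_le_coe]
    have c1 := abs_lt.1 hs
    rcases abs_cases ((ω e : ℝ) - M) with c | c
    · rw [c.1] at c1 hη
      constructor <;> intro _ <;> linarith
    · rw [c.1] at c1
      constructor <;> intro _ <;> linarith
  obtain ⟨h6, h7⟩ := h5 (min ε |(ω e : ℝ) - M|) (lt_min hε hη)
  have m1 := min_le_left ε |(ω e : ℝ) - M|
  have m2 := min_le_right ε |(ω e : ℝ) - M|
  have mm : ∀ a b : ℝ, MeasurableSet {s : ℝ≥0 | a < s ∧ (s : ℝ) < b} := fun a b =>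
    measurable_coe_nnreal_real (measurableSet_Ioo (a := a) (b := b))
  constructor
  · obtain ⟨y, y1, y2⟩ := pick (h2 {e}) {e} (fun _ => _) (fun _ => mm _ _) fun _ _ => h7
    obtain ⟨y3, y4⟩ := y2 e (Finset.mem_singleton_self e)
    rw [trunc_W_one (hcl _ (abs_lt.2 ⟨by linarith, by linarith⟩))] at y1
    exact ⟨_, trunc_psi_nonneg (trunc_H_nonneg _) (NNReal.coe_nonneg _), (psi_strict y4).1, y1⟩
  · obtain ⟨y, y1, y2⟩ := pick (h2 {e}) {e} (fun _ => _) (fun _ => mm _ _) fun _ _ => h6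
    obtain ⟨y3, y4⟩ := y2 e (Finset.mem_singleton_self e)
    rw [trunc_W_one (hcl _ (abs_lt.2 ⟨by linarith, by linarith⟩))] at y1
    obtain ⟨c1, c2⟩ := psi_strict (H := zk M (kk M ω e.inf) - 1) y3
    refine ⟨psi (zk M (kk M ω e.inf) - 1) (y e) - W M ω e, sub_pos.2 c1, ?_, ?_⟩
    · unfold W
      linarith
    · unfold upE
      rwa [add_sub_cancel]

/-- Lowering finitely many edges from `(q2, M]` to `[0, q1]`. -/
theorem mod2 (hP : Par G q1 q2 M) {p : Wt → Prop} (h : ∀ᵐ ω ∂PP G, p (W M ω)) :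
    ∀ᵐ ω ∂PP G, ∀ S : Finset (Sym2 V), (∀ e ∈ S, W M ω e ∈ Set.Ioc (q2 : ℝ) M) →
      ∃ w', p w' ∧ (∀ e, e ∉ S → w' e = W M ω e) ∧ ∀ e ∈ S, w' e ≤ q1 := by
  filter_upwards [res h] with ω h1 S hS
  obtain ⟨y, y1, y2⟩ := pick (h1 S) S (fun _ => Set.Iic q1) (fun _ => measurableSet_Iic)
    fun _ _ => hP.hU
  refine ⟨_, y1, fun e he => ?_, fun e he => ?_⟩
  · refine W_congr (fun e' => ?_) (by simp [mix, he])
    unfold mix
    split_ifs with h'
    · exact iff_of_true ((y2 e' h').trans (hP.h12.trans hP.h2M).le) (W_mem_Ioc.1 (hS e' h')).2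
    · rfl
  · refine (W_le _ e).trans ?_
    have : mix S y ω e = y e := if_pos he
    rw [this]
    exact_mod_cast y2 e he

theorem W_mix {x y : Om} {J : Finset (Sym2 V)} (hq : q1 < q2) (hM : q2 < M)
    (hJ : ∀ e ∈ J, x e ∈ Set.Ioc q2 M ∧ y e ∈ Set.Iic q1) :
    (∀ e, e ∉ J → W M x e = W M (mix J y x) e) ∧
      ∀ e ∈ J, W M (mix J y x) e + (q2 - q1) ≤ W M x e ∧ W M x e ≤ W M (mix J y x) e + M := by
  refine ⟨fun e he => ?_, fun e he => ?_⟩
  · refine W_congr (fun e' => ?_) (by simp [mix, he])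
    unfold mix
    split_ifs with h'
    · exact iff_of_true (hJ e' h').1.2 ((hJ e' h').2.trans (hq.trans hM).le)
    · rfl
  · have e1 : mix J y x e = y e := if_pos he
    obtain ⟨⟨c1, c2⟩, c3⟩ := hJ e he
    rw [W_eq c2, W_eq (e1 ▸ c3.trans (hq.trans hM).le), e1]
    have d1 : (q2 : ℝ) < x e := by exact_mod_cast c1
    have d2 : (x e : ℝ) ≤ M := by exact_mod_cast c2
    have d3 : (y e : ℝ) ≤ q1 := by exact_mod_cast c3
    constructor <;> linarith [NNReal.coe_nonneg (y e)]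

/-- A measurable set of weights with countable sections along one edge is null. -/
theorem sec [NullSingletonClass G] {A : Set Wt} (hA : MeasurableSet A) (e : Sym2 V)
    (h : ∀ w, NN w → {t : ℝ | 0 ≤ t ∧ Function.update w e t ∈ A}.Countable) :
    ∀ᵐ ω ∂PP G, W M ω ∉ A := by
  have hB : MeasurableSet (W M ⁻¹' A) := measurable_W hA
  rw [ae_iff]
  simp only [not_not]
  change PP G (W M ⁻¹' A) = 0
  have hm := mix_mp (G := G) (({e} : Finset (Sym2 V)) : Set (Sym2 V))
  rw [← hm.measure_preimage hB.nullMeasurableSet, Measure.measure_prod_null (hm.measurable hB)]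
  refine Filter.Eventually.of_forall fun x => ?_
  have key : ∀ c : ℝ≥0, ∃ C : Set ℝ≥0, C.Countable ∧ ∀ y : Om, (y e ≤ M ↔ c ≤ M) →
      W M (mix (({e} : Finset (Sym2 V)) : Set (Sym2 V)) y x) ∈ A → y e ∈ C := by
    intro c
    refine ⟨(fun s : ℝ≥0 => psi (zk M (kk M (Function.update x e c) e.inf) - 1) s) ⁻¹'
      {t : ℝ | 0 ≤ t ∧ Function.update (W M (Function.update x e c)) e t ∈ A},
      (h _ (W_nn _)).preimage (StrictMono.injective fun s s' hs =>
        (psi_strict (NNReal.coe_lt_coe.2 hs)).1), fun y hy hA' => ?_⟩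
    refine ⟨trunc_psi_nonneg (trunc_H_nonneg _) (NNReal.coe_nonneg _), ?_⟩
    rw [← trunc_W_one (by simpa using hy)]
    convert hA' using 2
    funext e'
    unfold mix
    split_ifs with he
    · rfl
    · rw [Function.update_of_ne (by simpa using he)]
  obtain ⟨C1, c1, d1⟩ := key 0
  obtain ⟨C2, c2, d2⟩ := key (M + 1)
  have hC := c1.union c2
  refine measure_mono_null (t := (fun y : Om => y e) ⁻¹' (C1 ∪ C2)) (fun y hy => ?_) ?_
  · rcases le_or_gt (y e) M with h' | h'
    · exact Or.inl (d1 y (by simpa using h') hy)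
    · exact Or.inr (d2 y (by simpa using h') hy)
  · rw [(eval_mp (G := G) e).measure_preimage hC.measurableSet.nullMeasurableSet]
    exact hC.measure_zero G

theorem trunc_T_open {ω : Om} {c u v : V} {n : ℤ} (hn : 0 ≤ n) (h : OConn M ω (box c n) u v) :
    T Set.univ (W M ω) u v ≤ M * ((n : ℝ) + 1) ^ 2 := by
  obtain ⟨p, hp, ho⟩ := h
  refine (T_le_wt (p := p.bypass) (W_nn ω) fun _ _ => trivial).trans ?_
  have h1 : wt (W M ω) p.bypass ≤ (p.bypass.edges.map (W M ω)).length • (M : ℝ) := by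
    refine List.sum_le_card_nsmul _ _ fun x hx => ?_
    obtain ⟨e, he, rfl⟩ := List.mem_map.1 hx
    exact (W_le ω e).trans (by exact_mod_cast ho e (p.edges_bypass_subset_edges he))
  rw [List.length_map, SimpleGraph.Walk.length_edges, nsmul_eq_mul, mul_comm] at h1
  refine h1.trans (mul_le_mul_of_nonneg_left ?_ (NNReal.coe_nonneg M))
  have h2 : p.bypass.support.toFinset.card ≤ (boxF c n).card :=
    Finset.card_le_card fun z hz =>
      mem_boxF.2 (hp z (p.support_bypass_subset_support (List.mem_toFinset.1 hz)))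
  rw [List.toFinset_card_of_nodup p.bypass_isPath.support_nodup,
    SimpleGraph.Walk.length_support] at h2
  have h3 := card_rectF (c := c) hn hn
  have h4 : (p.bypass.length : ℤ) ≤ (n + 1) ^ 2 := by
    unfold boxF at h2
    rw [sq, ← h3]
    omega
  exact_mod_cast h4

theorem trunc_cut {ω : Om} {c u g : V} {n : ℤ} (q : grid.Walk u g) (ho : ∀ e ∈ q.edges, ω e ≤ M)
    (hu : u ∈ box c n) (hg : g ∉ box c n) : ∃ g' ∈ bdry c n, OConn M ω (box c n) u g' := by
  induction q with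
  | nil => exact absurd hu hg
  | @cons a b d hab q ih =>
    by_cases hb : b ∈ box c n
    · obtain ⟨g', h1, p, h2, h3⟩ := ih (fun e he => ho e (by simp [he])) hb hg
      refine ⟨g', h1, SimpleGraph.Walk.cons hab p, fun v hv => ?_, fun e he => ?_⟩
      · rcases List.mem_cons.1 hv with rfl | hv
        · exact hu
        · exact h2 v hv
      · rcases List.mem_cons.1 he with rfl | he
        · exact ho _ (by simp)
        · exact h3 e he
    · refine ⟨a, ⟨hu, ?_⟩, SimpleGraph.Walk.nil, fun v hv => ?_, fun e he => by simp at he⟩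
      · rw [adj_iff] at hab
        rw [mem_box] at hu hb
        omega
      · rw [SimpleGraph.Walk.support_nil, List.mem_singleton] at hv
        exact hv ▸ hu

theorem trunc_T_support {w : Wt} (hw : NN w) {a c z : V} (p : grid.Walk a c) (hz : z ∈ p.support) :
    T Set.univ w a z ≤ wt w p := by
  have h1 := T_le_wt (S := Set.univ) (p := p.takeUntil z hz) hw fun _ _ => trivial
  have h2 := wt_append (w := w) (p.takeUntil z hz) (p.dropUntil z hz)
  rw [p.take_spec hz] at h2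
  linarith [wt_nonneg hw (p.dropUntil z hz)]

theorem trunc_split {a b : V} (p : grid.Walk a b) {e : Sym2 V} (he : e ∈ p.edges) :
    ∃ (c d : V) (p1 : grid.Walk a c) (p2 : grid.Walk d b), grid.Adj c d ∧ e = s(c, d) ∧
      ∀ w : Wt, wt w p = wt w p1 + w e + wt w p2 := by
  induction p with
  | nil => simp at he
  | @cons a b d hab q ih =>
    rcases List.mem_cons.1 he with rfl | he
    · exact ⟨a, b, SimpleGraph.Walk.nil, q, hab, rfl, fun w => by rw [wt_cons]; simp [wt]⟩
    · obtain ⟨c, d', p1, p2, h1, h2, h3⟩ := ih he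
      exact ⟨c, d', SimpleGraph.Walk.cons hab p1, p2, h1, h2, fun w => by
        rw [wt_cons, wt_cons, h3]; ring⟩

/-- From one end of the geodesic the shield of the edge is reached cheaply. -/
theorem trunc_side {ω : Om} {o a c g : V} {n : ℤ} {S H : Set V} (hn : 0 ≤ n)
    (hH : ∀ (v : V) (p : grid.Walk c v), (v ∉ box o n ∨ v ∈ bdry o n) → ∃ z ∈ p.support, z ∈ H)
    (p : grid.Walk a c) (hg : g ∉ box o n) (hag : OConn M ω S a g) :
    ∃ z ∈ H, T Set.univ (W M ω) a z ≤ wt (W M ω) p + M * ((n : ℝ) + 1) ^ 2 := by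
  have h0 : 0 ≤ (M : ℝ) * ((n : ℝ) + 1) ^ 2 := by positivity
  by_cases ha : a ∈ box o n
  · obtain ⟨q, -, hq⟩ := hag
    obtain ⟨g', h1, q', h2, h3⟩ := trunc_cut q hq ha hg
    obtain ⟨z, hz, hzH⟩ := hH g' (p.reverse.append q') (Or.inr h1)
    refine ⟨z, hzH, ?_⟩
    rw [SimpleGraph.Walk.mem_support_append_iff, SimpleGraph.Walk.support_reverse,
      List.mem_reverse] at hz
    rcases hz with hz | hz
    · linarith [trunc_T_support (W_nn (M := M) ω) p hz]
    · have := trunc_T_open (M := M) (ω := ω) hn ⟨q'.takeUntil z hz,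
        fun v hv => h2 v (q'.support_takeUntil_subset_support hz hv),
        fun e he => h3 e (q'.edges_takeUntil_subset_edges hz he)⟩
      linarith [wt_nonneg (W_nn (M := M) ω) p]
  · obtain ⟨z, hz, hzH⟩ := hH a p.reverse (Or.inl ha)
    rw [SimpleGraph.Walk.support_reverse, List.mem_reverse] at hz
    exact ⟨z, hzH, by linarith [trunc_T_support (W_nn (M := M) ω) p hz]⟩

theorem trunc_inf {c d : V} (h : grid.Adj c d) (r : ℤ) (hr : 0 ≤ r) :
    c ∈ ball s(c, d).inf r ∨ c = s(c, d).inf + (1, 0) ∨ c = s(c, d).inf + (0, 1) := by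
  rw [adj_iff] at h
  simp only [Sym2.inf_mk, mem_ball, Prod.ext_iff, Prod.fst_add, Prod.snd_add, Prod.fst_inf,
    Prod.snd_inf]
  omega

/-- A geodesic between two points of a shield only uses untruncated edges. -/
theorem trunc_geo {ω : Om} (hs : ∀ x, ∀ᶠ k in atTop, Shield M ω k x) {K : ℕ} {x a b : V}
    {H : Set V} (h1 : ∀ u ∈ H, ∀ v ∈ H, OConn M ω (box (shc K x) (3 * rk K)) u v)
    (h2 : ∃ u ∈ H, ∃ v ∈ H, u.1 + 3 * rk K = v.1) (ha : a ∈ H) (hb : b ∈ H) (p : grid.Walk a b)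
    (hp : wt (W M ω) p = T Set.univ (W M ω) a b) {e : Sym2 V} (he : e ∈ p.edges) :
    W M ω e = ω e := by
  by_contra hne
  set k := kk M ω e.inf with hk
  have c1 : zk M k - 1 < ω e := by
    by_contra hc
    exact hne (trunc_psi_eq (not_lt.1 hc))
  have c2 : zk M k - 1 < W M ω e := by
    have := (psi_strict (H := zk M k - 1) c1).1
    rwa [trunc_psi_eq le_rfl] at this
  obtain ⟨c, d, p1, p2, hcd, rfl, hsplit⟩ := trunc_split p he
  have c3 := hsplit (W M ω)
  have n1 := wt_nonneg (W_nn (M := M) ω) p1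
  have n2 := wt_nonneg (W_nn (M := M) ω) p2
  have hrk := trunc_rk_ge k
  have hzk : zk M k - 1 = 3 * (M * (((3 * rk k : ℤ) : ℝ) + 1) ^ 2) + 1 := by
    unfold zk
    push_cast
    ring
  rcases le_or_gt K k with hK | hK
  · have c4 := trunc_T_open (by linarith [trunc_rk_ge K]) (h1 a ha b hb)
    have c5 := zk_mono (M := M) hK
    have c6 : (0 : ℝ) ≤ M * (((3 * rk K : ℤ) : ℝ) + 1) ^ 2 := by positivity
    have c7 : zk M K - 1 = 3 * (M * (((3 * rk K : ℤ) : ℝ) + 1) ^ 2) + 1 := by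
      unfold zk
      push_cast
      ring
    linarith
  · have hsh : Shield M ω k s(c, d).inf := Nat.sInf_mem (s := {k | Shield M ω k s(c, d).inf})
      (hs _).exists
    obtain ⟨H', g1, -, -, g4⟩ := hsh.exists_set
    obtain ⟨g, hg, hgb⟩ : ∃ g ∈ H, g ∉ box (shc k s(c, d).inf) (3 * rk k) := by
      obtain ⟨u, hu, v, hv, huv⟩ := h2
      by_contra hc
      push Not at hc
      have d1 := hc u hu
      have d2 := hc v hv
      have := trunc_rk_lt hK
      rw [mem_box] at d1 d2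
      omega
    have hr : (0 : ℤ) ≤ 2 ^ (k + 1) - 2 := by
      have : (1 : ℤ) ≤ 2 ^ k := one_le_pow₀ (by norm_num)
      rw [pow_succ]
      omega
    obtain ⟨z, hz, t1⟩ := trunc_side (by omega) (fun v q => g4 c v q (trunc_inf hcd _ hr)) p1 hgb
      (h1 a ha g hg)
    obtain ⟨z', hz', t2⟩ := trunc_side (by omega) (fun v q => g4 d v q (by
      rw [Sym2.eq_swap]
      exact trunc_inf hcd.symm _ hr)) p2.reverse hgb (h1 b hb g hg)
    have t3 := trunc_T_open (by omega) (g1 z hz z' hz')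
    have t4 := T_tri (S := Set.univ) (x := a) (y := z) (z := b) (W_nn (M := M) ω) conn_univ
      trivial trivial trivial
    have t5 := T_tri (S := Set.univ) (x := z) (y := z') (z := b) (W_nn (M := M) ω) conn_univ
      trivial trivial trivial
    rw [wt_reverse, T_comm] at t2
    linarith

/-- Bigeodesics of the original weights are bigeodesics of the truncated weights. -/
theorem red {ω : Om} (hn : Nice (W M ω)) (hs : ∀ x, ∀ᶠ k in atTop, Shield M ω k x)
    {γ : ℤ → V} (hinj : Function.Injective γ) (h : Bi (fun e => (ω e : ℝ)) γ) :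
    Bi (W M ω) γ := by
  refine ⟨h.1, fun i j hij => ?_⟩
  obtain ⟨K, hK1, hK2⟩ := ((hs (γ i)).and (eventually_ge_atTop (j - i + 2).toNat)).exists
  have hK3 : j - i ≤ 2 ^ (K + 1) - 2 := by
    have c1 : K < 2 ^ K := Nat.lt_two_pow_self
    have c2 : (K : ℤ) < 2 ^ K := by exact_mod_cast c1
    rw [pow_succ]
    omega
  obtain ⟨H, g1, -, g3, g4⟩ := hK1.exists_set
  obtain ⟨L, hL⟩ := escape hinj (B := box (shc K (γ i)) (3 * rk K))
    ((boxF _ _).finite_toSet.subset fun v hv => mem_boxF.2 hv)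
  have l1 := le_abs_self L
  have l2 := abs_nonneg L
  have l3 := neg_abs_le i
  have l4 := le_abs_self j
  have l5 := abs_nonneg i
  have l6 := abs_nonneg j
  obtain ⟨p1, -, s1, -⟩ := exists_walk_seg (f := γ) (lo := -(|L| + |i|)) (hi := i) (by omega)
    fun k _ _ => h.1 k
  obtain ⟨p2, -, s2, -⟩ := exists_walk_seg (f := γ) (lo := j) (hi := |L| + |j|) (by omega)
    fun k _ _ => h.1 k
  obtain ⟨z, z1, z2⟩ := g4 _ _ p1.reverse (Or.inl (cpt_ball_mono (by omega)
    (cpt_mem_ball_zero.2 rfl))) (Or.inl (hL _ (by rw [abs_neg, abs_of_nonneg (by omega)]; omega)))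
  rw [SimpleGraph.Walk.support_reverse, List.mem_reverse, s1] at z1
  obtain ⟨lo, -, lo2, rfl⟩ := z1
  obtain ⟨z', z3, z4⟩ := g4 _ _ p2 (Or.inl (by
    have := mem_ball_of_adj (f := γ) (lo := i) (hi := j) (i := i) (j := j) (fun k _ _ => h.1 k)
      le_rfl hij hij le_rfl
    rw [abs_of_nonneg (by omega)] at this
    exact cpt_ball_mono hK3 this)) (Or.inl (hL _ (by rw [abs_of_nonneg (by omega)]; omega)))
  rw [s2] at z3
  obtain ⟨hi, hi1, -, rfl⟩ := z3
  obtain ⟨p, -, -, hp⟩ := exists_geo_walk (x := γ lo) (y := γ hi) hn conn_univ trivial trivial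
  have e1 : wt (fun e => (ω e : ℝ)) p = wt (W M ω) p := by
    unfold wt
    congr 1
    exact List.map_congr_left fun e he => (trunc_geo hs g1 g3 z2 z4 p hp he).symm
  have e2 := T_le_wt (S := Set.univ) (w := fun e => (ω e : ℝ)) (p := p)
    (fun e => NNReal.coe_nonneg _) fun _ _ => trivial
  have e3 := h.2 lo hi (by omega)
  have e4 : seg (W M ω) γ lo hi ≤ seg (fun e => (ω e : ℝ)) γ lo hi :=
    Finset.sum_le_sum fun k _ => W_le ω _
  exact (geoFn_of_seg (S := Set.univ) (f := γ) (lo := lo) (hi := hi) hn.nn conn_univ (by omega)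
    (fun k _ _ => h.1 k) (fun _ _ _ => trivial) (by linarith)).add i j lo2 hij hi1

end Vale.Agent.P158
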