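import Vale.Agent.P158.Mom
import Vale.Agent.P158.K1
import Vale.Agent.P158.KDet
import Vale.Agent.P158.App
import Vale.Agent.P158.Meas

/-! Almost sure structure of bigeodesics of the truncated environment. -/

namespace Vale.Agent.P158

open Finset MeasureTheory Filter
open scoped NNReal ENNReal Classical Topology

variable {G : Measure ℝ≥0} [IsProbabilityMeasure G] [NullSingletonClass G] {q1 q2 M : ℝ≥0}

theorem typ_path_eq {x y : V} (p : grid.Walk x y) : ∀ q : grid.Walk x y, p.IsPath → q.IsPath →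
    (∀ e ∈ p.edges, e ∈ q.edges) → p = q := by
  induction p with
  | nil => exact fun q _ hq _ => (SimpleGraph.Walk.isPath_iff_eq_nil.1 hq).symm
  | @cons x z y h p ih =>
    intro q hp hq hsub
    rw [SimpleGraph.Walk.cons_isPath_iff] at hp
    have h1 := hsub s(x, z) (by simp)
    cases q with
    | nil => simp at h1
    | @cons _ z' _ h' q =>
      rw [SimpleGraph.Walk.cons_isPath_iff] at hq
      rw [SimpleGraph.Walk.edges_cons, List.mem_cons] at h1
      have hz : z = z' := by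
        rcases h1 with h1 | h1
        · exact Sym2.congr_right.1 h1
        · exact absurd (q.fst_mem_support_of_mem_edges h1) hq.2
      subst hz
      congr 1
      refine ih q hp.1 hq.1 fun e he => ?_
      have h2 := hsub e (by simp [he])
      rw [SimpleGraph.Walk.edges_cons, List.mem_cons] at h2
      rcases h2 with rfl | h2
      · exact absurd (p.fst_mem_support_of_mem_edges he) hp.2
      · exact h2

theorem typ_wt_lt {x y : V} (p : grid.Walk x y) (w : Wt) {e : Sym2 V} (he : e ∈ p.edges)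
    {t t' : ℝ} (h : t < t') : wt (Function.update w e t) p < wt (Function.update w e t') p := by
  refine List.sum_lt_sum _ _ (fun i _ => ?_) ⟨e, he, by simpa using h⟩
  by_cases hi : i = e
  · subst hi
    simpa using h.le
  · simp [Function.update_of_ne hi]

theorem typ_wt_const {x y : V} (q : grid.Walk x y) (w : Wt) {e : Sym2 V} (he : e ∉ q.edges)
    (t : ℝ) : wt (Function.update w e t) q = wt w q := by
  unfold wt
  congr 1
  exact List.map_congr_left fun i hi => Function.update_of_ne (ne_of_mem_of_not_mem hi he) _ _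

theorem typ_uniq (x y : V) (p q : grid.Walk x y) :
    ∀ᵐ ω ∂PP G, p.IsPath → q.IsPath → wt (W M ω) p = wt (W M ω) q → p = q := by
  by_cases hsub : ∀ e ∈ p.edges, e ∈ q.edges
  · exact ae_of_all _ fun ω hp hq _ => typ_path_eq p q hp hq hsub
  push Not at hsub
  obtain ⟨e, he, he'⟩ := hsub
  have h := sec (G := G) (M := M) (A := {w : Wt | wt w p = wt w q})
    (measurableSet_eq_fun (measurable_wt p) (measurable_wt q)) e fun w _ => by
      refine Set.Subsingleton.countable fun t ht t' ht' => ?_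
      have h1 := ht.2
      have h2 := ht'.2
      simp only [Set.mem_ofPred_eq, typ_wt_const q w he'] at h1 h2
      rcases lt_trichotomy t t' with h3 | h3 | h3
      · exact absurd (h1.trans h2.symm) (typ_wt_lt p w he h3).ne
      · exact h3
      · exact absurd (h2.trans h1.symm) (typ_wt_lt p w he h3).ne
  filter_upwards [h] with ω hω _ _ h4
  exact absurd h4 hω

theorem typ_pos (e : Sym2 V) : ∀ᵐ ω ∂PP G, 0 < W M ω e := by
  have h := sec (G := G) (M := M) (A := {w : Wt | w e = 0})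
    (measurableSet_eq_fun (measurable_pi_apply e) measurable_const) e fun w _ => by
      refine Set.Subsingleton.countable fun t ht t' ht' => ?_
      have h1 := ht.2
      have h2 := ht'.2
      simp only [Set.mem_ofPred_eq, Function.update_self] at h1 h2
      rw [h1, h2]
  filter_upwards [h] with ω hω
  exact lt_of_le_of_ne (W_nn ω e) fun h => hω h.symm

theorem typ_proper {w : Wt} (hw : NN w) {q M : ℝ} (hq : 0 < q) {x : V} {k : ℤ}
    (h : Pe q M w x k) (C : ℝ) : ∃ k : ℤ, ∀ (f : ℤ → V) (n : ℤ), f 0 = x → k ≤ n → PathFn f 0 n →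
      C < seg w f 0 n := by
  refine ⟨max k (⌈2 * C / q⌉ + 1), fun f n h0 hn hf => ?_⟩
  have h1 : (n : ℝ) ≤ 2 * (cntA q M w f 0 n : ℝ) := by
    exact_mod_cast h f n h0 ((le_max_left _ _).trans hn) hf
  have h2 : ((⌈2 * C / q⌉ + 1 : ℤ) : ℝ) ≤ n := by exact_mod_cast (le_max_right _ _).trans hn
  have h3 := Int.le_ceil (2 * C / q)
  have h4 : 2 * C / q < n := by
    push_cast at h2
    linarith
  rw [div_lt_iff₀ hq] at h4
  have h5 : (cntA q M w f 0 n : ℝ) * q ≤ seg w f 0 n := by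
    rw [cntA, ← nsmul_eq_mul]
    refine (card_nsmul_le_sum _ (fun i => w s(f i, f (i + 1))) _ fun i hi => ?_).trans
      (sum_le_sum_of_subset_of_nonneg (filter_subset _ _) fun i _ _ => hw _)
    exact (mem_filter.1 hi).2.1.le
  nlinarith

theorem ae_nice (hP : Par G q1 q2 M) : ∀ᵐ ω ∂PP G, Nice (W M ω) := by
  have hc : ∀ x y : V, Countable (grid.Walk x y) := fun x y =>
    SimpleGraph.Walk.support_injective.countable
  have h1 : ∀ᵐ ω ∂PP G, ∀ e, 0 < W M ω e := ae_all_iff.2 typ_pos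
  have h2 : ∀ᵐ ω ∂PP G, ∀ (x y : V) (p q : grid.Walk x y),
      p.IsPath → q.IsPath → wt (W M ω) p = wt (W M ω) q → p = q :=
    ae_all_iff.2 fun x => ae_all_iff.2 fun y => ae_all_iff.2 fun p => ae_all_iff.2 fun q =>
      typ_uniq x y p q
  filter_upwards [h1, h2, ae_pe hP] with ω a b c
  refine ⟨a, b, fun x C => ?_⟩
  obtain ⟨k, hk⟩ := c x
  exact typ_proper (W_nn ω) hP.q2_pos hk C

theorem typ_card_int {n : ℕ} (hn : 2 ≤ n) :
    (n : ℝ) ^ 2 / 4 ≤ ((boxF 0 n).filter fun c => c ∉ bdry 0 n).card := by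
  have h1 : boxF (1, 1) (n - 2) ⊆ (boxF 0 n).filter fun c => c ∉ bdry 0 n := by
    intro c hc
    rw [mem_boxF, mem_box] at hc
    simp only [mem_filter, mem_boxF, bdry, Set.mem_ofPred_eq, mem_box, Prod.fst_zero,
      Prod.snd_zero] at hc ⊢
    omega
  have h2 := card_rectF (c := (1, 1)) (m := (n : ℤ) - 2) (n := (n : ℤ) - 2) (by omega) (by omega)
  have h3 : ((boxF (1, 1) (n - 2)).card : ℝ) = ((n : ℝ) - 2 + 1) * ((n : ℝ) - 2 + 1) := by
    exact_mod_cast h2
  have h4 : (2 : ℝ) ≤ n := by exact_mod_cast hn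
  refine le_trans ?_ (Nat.cast_le.2 (card_le_card h1))
  rw [h3]
  nlinarith

theorem typ_slBr_bound (hP : Par G q1 q2 M) {δ : ℝ} (hδ : 0 < δ) {CZ : ℝ} (hCZ : 0 < CZ)
    (hper : ∀ (o : V) (n : ℕ),
      ∫⁻ ω, ENNReal.ofReal (perim o n (W M ω)) ∂PP G ≤ ENNReal.ofReal (CZ * n))
    (c : V) (r n : ℕ) (hn : 2 ≤ n) (hr : r ≤ n) :
    r * ((n : ℝ) ^ 2 / 4) * (PP G {ω | SlBr δ (W M ω) c}).toReal ≤
      (4 * n + 2 * r + 1) * (4 * n) + 4 * n * r * (1 + 2 * r) + 4 * r ^ 2 / δ * (CZ * n) := by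
  set I := (boxF 0 n).filter fun c => c ∉ bdry 0 n with hI
  have n0 : (0 : ℤ) < n := by omega
  have hE : ∀ c', MeasurableSet {ω : Om | BrEv 0 n δ (W M ω) c'} := fun c' =>
    measurable_W (measurableSet_BrEv δ)
  have h1 : ∀ c' ∈ I, PP G {ω | SlBr δ (W M ω) c} ≤ PP G {ω | BrEv 0 n δ (W M ω) c'} := by
    intro c' hc'
    obtain ⟨h2, h3⟩ := mem_filter.1 hc'
    rw [← measure_shift (c' - c)]
    refine measure_mono_ae ?_
    filter_upwards [ae_nice hP] with ω hω h4
    have h5 : SlBr δ (W M (shiftO (c' - c) ω)) c := h4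
    rw [W_shift, SlBr_shift, add_sub_cancel] at h5
    exact brEv_of_slBr hω n0 hδ (mem_boxF.1 h2) h3 h5
  have h2 : (I.card : ℝ≥0∞) * PP G {ω | SlBr δ (W M ω) c} ≤
      ∫⁻ ω, ∑ c' ∈ I, {ω : Om | BrEv 0 n δ (W M ω) c'}.indicator 1 ω ∂PP G := by
    rw [lintegral_finsetSum _ fun c' _ => measurable_one.indicator (hE c'), ← nsmul_eq_mul]
    refine card_nsmul_le_sum _ _ _ fun c' hc' => ?_
    rw [lintegral_indicator_one (hE c')]
    exact h1 c' hc'
  set A : ℝ := (4 * n + 2 * r + 1) * (4 * n) + 4 * n * r * (1 + 2 * r) with hA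
  have A0 : 0 ≤ A := by positivity
  have B0 : 0 ≤ 4 * (r : ℝ) ^ 2 / δ := by positivity
  have h3 : ∀ᵐ ω ∂PP G, (r : ℝ≥0∞) * ∑ c' ∈ I, {ω : Om | BrEv 0 n δ (W M ω) c'}.indicator 1 ω ≤
      ENNReal.ofReal A + ENNReal.ofReal (4 * r ^ 2 / δ) * ENNReal.ofReal (perim 0 n (W M ω)) := by
    filter_upwards [ae_nice hP] with ω hω
    have h4 := k1_count (o := 0) hω n0 hδ r (by exact_mod_cast hr)
    have h5 : ∑ c' ∈ I, {ω : Om | BrEv 0 n δ (W M ω) c'}.indicator (1 : Om → ℝ≥0∞) ω =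
        (((boxF 0 n).filter fun c => c ∉ bdry 0 n ∧ BrEv 0 n δ (W M ω) c).card : ℝ≥0∞) := by
      simp only [Set.indicator, Set.mem_ofPred_eq, Pi.one_apply, sum_boole, hI, filter_filter]
    rw [h5, ← ENNReal.ofReal_mul B0, ← ENNReal.ofReal_add A0 (mul_nonneg B0 (perim_nonneg hω.nn)),
      ← ENNReal.ofReal_natCast, ← ENNReal.ofReal_natCast, ← ENNReal.ofReal_mul (by positivity)]
    refine ENNReal.ofReal_le_ofReal (h4.trans (le_of_eq ?_))
    rw [hA]
    push_cast
    ring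
  have h6 : (r : ℝ≥0∞) * ((I.card : ℝ≥0∞) * PP G {ω | SlBr δ (W M ω) c}) ≤
      ENNReal.ofReal (A + 4 * r ^ 2 / δ * (CZ * n)) := by
    refine (mul_le_mul_right h2 _).trans ?_
    rw [← lintegral_const_mul' _ _ (ENNReal.natCast_ne_top r)]
    refine (lintegral_mono_ae h3).trans ?_
    rw [lintegral_add_left measurable_const, lintegral_const, measure_univ, mul_one,
      lintegral_const_mul' _ _ ENNReal.ofReal_ne_top, ENNReal.ofReal_add A0 (by positivity),
      ENNReal.ofReal_mul B0]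
    gcongr
    exact hper 0 n
  have h7 := ENNReal.toReal_le_of_le_ofReal (by positivity) h6
  rw [ENNReal.toReal_mul, ENNReal.toReal_mul, ENNReal.toReal_natCast, ENNReal.toReal_natCast] at h7
  refine le_trans ?_ h7
  rw [mul_assoc]
  gcongr
  exact typ_card_int hn

theorem ae_not_slBr (hP : Par G q1 q2 M) {δ : ℝ} (hδ : 0 < δ) (c : V) :
    ∀ᵐ ω ∂PP G, ¬ SlBr δ (W M ω) c := by
  obtain ⟨CZ, hCZ, hper⟩ := lintegral_perim (G := G) hP.hM
  have key : ∀ r : ℕ, r * (PP G {ω | SlBr δ (W M ω) c}).toReal ≤ 68 := by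
    intro r
    obtain ⟨K, hK⟩ := exists_nat_ge (4 * (2 * (r : ℝ) + 1) + 4 * r * (1 + 2 * r) + 4 * r ^ 2 / δ * CZ)
    have h := typ_slBr_bound hP hδ hCZ hper c r (K + r + 2) (by omega) (by omega)
    have h1 : (K : ℝ) ≤ (K + r + 2 : ℕ) := by exact_mod_cast (by omega : K ≤ K + r + 2)
    have h2 : (0 : ℝ) < (K + r + 2 : ℕ) := by positivity
    generalize ((K + r + 2 : ℕ) : ℝ) = n at h h1 h2
    have h3 := mul_le_mul_of_nonneg_right (hK.trans h1) h2.le
    refine le_of_mul_le_mul_right ?_ (show 0 < n ^ 2 / 4 by positivity)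
    nlinarith
  have h0 : (PP G {ω | SlBr δ (W M ω) c}).toReal = 0 := by
    by_contra h
    have h1 : 0 < (PP G {ω | SlBr δ (W M ω) c}).toReal :=
      lt_of_le_of_ne ENNReal.toReal_nonneg (Ne.symm h)
    obtain ⟨r, hr⟩ := exists_nat_gt (68 / (PP G {ω | SlBr δ (W M ω) c}).toReal)
    rw [div_lt_iff₀ h1] at hr
    linarith [key r]
  rw [ae_iff]
  simp only [not_not]
  exact ((ENNReal.toReal_eq_zero_iff _).1 h0).resolve_right (measure_ne_top _ _)

theorem ae_noBr (hP : Par G q1 q2 M) : ∀ᵐ ω ∂PP G, NoBr (W M ω) := by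
  have h : ∀ᵐ ω ∂PP G, ∀ (k : ℕ) (c : V), ¬ SlBr (1 / (k + 1)) (W M ω) c :=
    ae_all_iff.2 fun k => ae_all_iff.2 fun c => ae_not_slBr hP (by positivity) c
  filter_upwards [mod1 (p := fun w => ∀ (k : ℕ) (c : V), ¬ SlBr (1 / (k + 1)) w c) h] with ω hω
  exact noBr_of (W_nn ω) fun e => (hω e 1 one_pos).1

theorem ae_r1 (hP : Par G q1 q2 M) : ∀ᵐ ω ∂PP G, R1 (W M ω) := by
  filter_upwards [mod2 hP (p := fun w => Nice w ∧ NoBr w) ((ae_nice hP).and (ae_noBr hP)),
    ae_nice hP, ae_pe hP] with ω h1 h2 h3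
  refine r1_det (q1 := q1) h2 (by exact_mod_cast hP.h12) h3 fun S hS => ?_
  obtain ⟨w', a, b⟩ := h1 S hS
  exact ⟨w', a.1, a.2, b⟩

/-- Central translates: `ball v (n/4) ⊆ box 0 n` for `n = 16^j`. -/
noncomputable def cen (j : ℕ) : Finset V := boxF (16 ^ j / 4, 16 ^ j / 4) (16 ^ j / 2)

theorem cen_ball {j : ℕ} (hj : 1 ≤ j) {v : V} (hv : v ∈ cen j) (a : V) :
    ball a (16 ^ j / 4) ⊆ box (a - v) (16 ^ j) := by
  intro u hu
  rw [cen, mem_boxF, mem_box] at hv
  rw [mem_ball] at hu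
  rw [mem_box, Prod.fst_sub, Prod.snd_sub]
  dsimp only at hv
  generalize (16 : ℤ) ^ j = N at *
  omega

theorem card_cen {j : ℕ} (hj : 1 ≤ j) : (16 : ℝ) ^ j * 16 ^ j / 4 ≤ (cen j).card := by
  have h0 : (0 : ℤ) ≤ 16 ^ j / 2 := by positivity
  have h1 := card_rectF (c := (16 ^ j / 4, 16 ^ j / 4)) h0 h0
  have h2 : (16 : ℤ) ^ j ≤ 2 * (16 ^ j / 2 + 1) := by omega
  have h3 : (16 : ℤ) ^ j * 16 ^ j ≤ 4 * ((cen j).card : ℤ) := by
    rw [cen, boxF, h1]
    have h4 : (0 : ℤ) ≤ 16 ^ j := by positivity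
    nlinarith
  have h5 : (16 : ℝ) ^ j * 16 ^ j ≤ 4 * ((cen j).card : ℝ) := by exact_mod_cast h3
  linarith

/-- The averaging step, packaged: for a covariant family of cell weights whose sum over the
central translates is at most `β` times the number of vertices of the geodesic, there are
boxes around `a` in which the expected mass on a good event is at most `C β`. -/
theorem typ_shiftO_zero (ω : Om) : shiftO 0 ω = ω := by
  funext e
  simp [shiftO]

theorem avg_mass (hP : Par G q1 q2 M) :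
    ∃ C Cg : ℝ, 0 < C ∧ ∃ Gd : ℕ → Set Om, (∀ j, MeasurableSet (Gd j)) ∧
      (∀ j, ∀ ω ∈ Gd j, Nice (W M ω) ∧ GEv Cg 0 (16 ^ j) (W M ω)) ∧
      Tendsto (fun j => PP G (Gd j)ᶜ) atTop (𝓝 0) ∧
      ∀ (j : ℕ), 1 ≤ j → ∀ (φ : V → V → Om → V → V → ℝ) (β : ℝ), 0 ≤ β →
        (∀ o a x y, Measurable fun ω => φ o a ω x y) → (∀ o a ω x y, 0 ≤ φ o a ω x y) →
        (∀ o a s ω x y, φ (o + s) (a + s) ω (x + s) (y + s) = φ o a (shiftO s ω) x y) →
        (∀ ω, Nice (W M ω) → ∀ x ∈ box 0 (16 ^ j), ∀ y ∈ box 0 (16 ^ j),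
          ∑ v ∈ cen j, φ 0 v ω x y ≤
            β * cntOn (box 0 (16 ^ j)) (W M ω) x y (boxF 0 (16 ^ j))) →
        ∀ a, ∃ v ∈ cen j, ∫⁻ ω, (shiftO (a - v) ⁻¹' Gd j).indicator
          (fun ω => ENNReal.ofReal (mass (a - v) (16 ^ j) (W M ω) (φ (a - v) a ω))) ω ∂PP G ≤
            ENNReal.ofReal (C * β) := by
  obtain ⟨Cg, hCg, hg⟩ := gev_prob hP
  obtain ⟨CZ, hCZ, hper⟩ := lintegral_perim (G := G) hP.hM
  refine ⟨16 * Cg * CZ, Cg, by positivity,
    fun j => (toMeasurable (PP G) {ω | ¬ (Nice (W M ω) ∧ GEv Cg 0 (16 ^ j) (W M ω))})ᶜ,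
    fun j => (measurableSet_toMeasurable _ _).compl, fun j ω hω => ?_, ?_, ?_⟩
  · by_contra h
    exact hω (subset_toMeasurable _ _ h)
  · refine hg.congr fun j => ?_
    rw [compl_compl, measure_toMeasurable]
    refine measure_congr ?_
    filter_upwards [ae_nice hP] with ω hω
    exact propext ⟨fun h h' => h.2 h'.2, fun h => ⟨hω, fun h' => h ⟨hω, h'⟩⟩⟩
  intro j hj φ β hβ hm h0 hcov hsum a
  beta_reduce
  generalize hGd : (toMeasurable (PP G)
    {ω | ¬ (Nice (W M ω) ∧ GEv Cg 0 (16 ^ j) (W M ω))})ᶜ = Gd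
  have mG : MeasurableSet Gd := hGd ▸ (measurableSet_toMeasurable _ _).compl
  have hG : ∀ ω ∈ Gd, Nice (W M ω) ∧ GEv Cg 0 (16 ^ j) (W M ω) := by
    intro ω hω
    rw [← hGd] at hω
    by_contra h
    exact hω (subset_toMeasurable _ _ h)
  have N0 : (0 : ℤ) < 16 ^ j := by positivity
  have hcard := card_cen hj
  refine avg (G := G) (fun o a ω => (shiftO o ⁻¹' Gd).indicator
    (fun ω => ENNReal.ofReal (mass o (16 ^ j) (W M ω) (φ o a ω))) ω) (fun o a => ?_)
    (fun o a s ω => ?_) (cen j) ?_ _ ?_ a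
  · exact (measurable_mass measurable_W (hm o a)).ennreal_ofReal.indicator
      (measurable_shiftO o mG)
  · simp only [Set.indicator, Set.mem_preimage, shiftO_add, mass_shift, W_shift, hcov]
  · rw [← card_pos]
    have : (0 : ℝ) < (cen j).card := lt_of_lt_of_le (by positivity) hcard
    exact_mod_cast this
  have B0 : 0 ≤ 4 * (β * (Cg * 16 ^ j)) := by positivity
  have h1 : ∀ ω, ∑ v ∈ cen j, (shiftO 0 ⁻¹' Gd).indicator
      (fun ω => ENNReal.ofReal (mass 0 (16 ^ j) (W M ω) (φ 0 v ω))) ω ≤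
      ENNReal.ofReal (4 * (β * (Cg * 16 ^ j))) * ENNReal.ofReal (perim 0 (16 ^ j) (W M ω)) := by
    intro ω
    by_cases hω : ω ∈ shiftO 0 ⁻¹' Gd
    · simp only [Set.indicator_of_mem hω]
      rw [Set.mem_preimage, typ_shiftO_zero] at hω
      obtain ⟨n1, n2⟩ := hG ω hω
      rw [← ENNReal.ofReal_sum_of_nonneg fun v _ => mass_nonneg n1.nn N0 (h0 0 v ω),
        ← ENNReal.ofReal_mul B0]
      refine ENNReal.ofReal_le_ofReal ?_
      have h2 := mass_sum (o := 0) (n := 16 ^ j) (w := W M ω) (cen j) (fun _ => 1)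
        fun v => φ 0 v ω
      simp only [one_mul] at h2
      rw [h2]
      refine mass_le n1.nn N0 (by positivity) fun i k => ?_
      refine (hsum ω n1 _ (bd_mem N0) _ (bd_mem N0)).trans (mul_le_mul_of_nonneg_left ?_ hβ)
      exact_mod_cast n2.1 i k
    · simp [Set.indicator_of_notMem hω]
  refine (lintegral_mono h1).trans ?_
  rw [lintegral_const_mul' _ _ ENNReal.ofReal_ne_top]
  have h3 := hper 0 (16 ^ j)
  push_cast at h3
  refine (mul_le_mul_right h3 _).trans ?_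
  rw [← ENNReal.ofReal_mul B0, ← ENNReal.ofReal_natCast, ← ENNReal.ofReal_mul (by positivity)]
  refine ENNReal.ofReal_le_ofReal ?_
  have h4 := mul_le_mul_of_nonneg_left hcard (show 0 ≤ 16 * Cg * CZ * β by positivity)
  linarith

/-- Fatou step. -/
theorem fatou_bound {α : Type*} [MeasurableSpace α] (μ : Measure α) (X : ℕ → α → ℝ≥0∞)
    (hX : ∀ j, Measurable (X j)) (B : ℕ → Set α) (hB : ∀ j, MeasurableSet (B j))
    (h0 : Tendsto (fun j => μ (B j)ᶜ) atTop (𝓝 0)) (β Y : ℝ≥0∞) (hY : Y ≠ ⊤)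
    (hβ : ∀ᶠ j in atTop, ∫⁻ ω, (B j).indicator (X j) ω ∂μ ≤ β) :
    ∫⁻ ω, liminf (fun j => if ω ∈ B j then X j ω else Y) atTop ∂μ ≤ β := by
  refine (lintegral_liminf_le (f := fun j ω => if ω ∈ B j then X j ω else Y)
    fun j => Measurable.ite (hB j) (hX j) measurable_const).trans ?_
  have h1 : Tendsto (fun j => β + Y * μ (B j)ᶜ) atTop (𝓝 β) := by
    have := (ENNReal.Tendsto.const_mul h0 (Or.inr hY)).const_add β
    rwa [mul_zero, add_zero] at this
  rw [← h1.liminf_eq]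
  refine liminf_le_liminf ?_
  filter_upwards [hβ] with j hj
  have e : (fun ω => if ω ∈ B j then X j ω else Y)
      = fun ω => (B j).indicator (X j) ω + (B j)ᶜ.indicator (fun _ => Y) ω := by
    funext ω
    by_cases h : ω ∈ B j <;> simp [h]
  rw [e, lintegral_add_left ((hX j).indicator (hB j)), lintegral_indicator_const (hB j).compl]
  gcongr

theorem typ_upE_update (w : Wt) (e : Sym2 V) (t δ : ℝ) :
    upE (Function.update w e t) e δ = Function.update w e (t + δ) := by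
  rw [upE, Function.update_idem, Function.update_self]

theorem typ_tight (hP : Par G q1 q2 M) (a : V) : ∃ (Cg : ℝ) (v : ℕ → V),
    (∀ j, 1 ≤ j → v j ∈ cen j) ∧ ∀ᵐ ω ∂PP G, ∃ k : ℕ, ¬ ∀ᶠ j in atTop,
      GEv Cg (a - v j) (16 ^ j) (W M ω) → (k : ℝ) ≤ mass (a - v j) (16 ^ j) (W M ω)
        (fun x y => ind (On (box (a - v j) (16 ^ j)) (W M ω) x a y)) := by
  obtain ⟨C, Cg, -, Gd, mG, hG, h0, H⟩ := avg_mass hP
  have H' : ∀ j : ℕ, ∃ v, 1 ≤ j → v ∈ cen j ∧ ∫⁻ ω, (shiftO (a - v) ⁻¹' Gd j).indicator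
      (fun ω => ENNReal.ofReal (mass (a - v) (16 ^ j) (W M ω)
        (fun x y => ind (On (box (a - v) (16 ^ j)) (W M ω) x a y)))) ω ∂PP G ≤
        ENNReal.ofReal (C * 1) := by
    intro j
    by_cases hj : 1 ≤ j
    · obtain ⟨v, hv⟩ := H j hj (fun o a ω x y => ind (On (box o (16 ^ j)) (W M ω) x a y)) 1
        zero_le_one (fun o a x y => measurable_ind (measurable_W measurableSet_On))
        (fun o a ω x y => by unfold ind; split_ifs <;> norm_num)
        (fun o a s ω x y => by rw [W_shift, On_shift fun v => box_shift]) (fun ω _ x _ y _ => by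
          simp only [ind, sum_boole, one_mul, cntOn, Nat.cast_le]
          refine card_le_card fun v hv => ?_
          exact mem_filter.2 ⟨mem_boxF.2 (mem_filter.1 hv).2.1, (mem_filter.1 hv).2⟩) a
      exact ⟨v, fun _ => hv⟩
    · exact ⟨0, fun h => absurd h hj⟩
  choose v hv using H'
  refine ⟨Cg, v, fun j hj => (hv j hj).1, ?_⟩
  set X : ℕ → Om → ℝ≥0∞ := fun j ω => ENNReal.ofReal (mass (a - v j) (16 ^ j) (W M ω)
    (fun x y => ind (On (box (a - v j) (16 ^ j)) (W M ω) x a y))) with hX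
  have mX : ∀ j, Measurable (X j) := fun j => (measurable_mass measurable_W fun x y =>
    measurable_ind (measurable_W measurableSet_On)).ennreal_ofReal
  have mB : ∀ j, MeasurableSet (shiftO (a - v j) ⁻¹' Gd j) := fun j => measurable_shiftO _ (mG j)
  have h1 : Tendsto (fun j => PP G (shiftO (a - v j) ⁻¹' Gd j)ᶜ) atTop (𝓝 0) :=
    h0.congr fun j => by rw [← Set.preimage_compl, measure_shift]
  rw [ae_iff]
  generalize hBad : {ω : Om | ¬ ∃ k : ℕ, ¬ ∀ᶠ j in atTop,
      GEv Cg (a - v j) (16 ^ j) (W M ω) → (k : ℝ) ≤ mass (a - v j) (16 ^ j) (W M ω)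
        (fun x y => ind (On (box (a - v j) (16 ^ j)) (W M ω) x a y))} = Bad
  have h2 : ∀ k : ℕ, (k : ℝ≥0∞) * PP G Bad ≤ ENNReal.ofReal (C * 1) := by
    intro k
    refine le_trans ?_ (fatou_bound (PP G) X mX _ mB h1 _ k (ENNReal.natCast_ne_top k)
      (eventually_atTop.2 ⟨1, fun j hj => (hv j hj).2⟩))
    refine le_trans (mul_le_mul_right (measure_mono fun ω hω => ?_) _) (mul_meas_ge_le_lintegral
      (Measurable.liminf (f := fun j ω => if ω ∈ shiftO (a - v j) ⁻¹' Gd j then X j ω else k)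
        fun j => Measurable.ite (mB j) (mX j) measurable_const) k)
    rw [← hBad] at hω
    have h3 := not_not.1 (not_exists.1 hω k)
    rw [Set.mem_ofPred_eq]
    refine le_liminf_of_le (by isBoundedDefault) ?_
    filter_upwards [h3] with j hj
    split_ifs with h4
    · have h5 := (hG j _ h4).2
      rw [W_shift, GEv_shift, zero_add] at h5
      rw [← ENNReal.ofReal_natCast]
      exact ENNReal.ofReal_le_ofReal (hj h5)
    · exact le_rfl
  by_contra h
  obtain ⟨k, hk⟩ := ENNReal.exists_nat_mul_gt h (ENNReal.ofReal_ne_top (r := C * 1))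
  exact absurd (h2 k) (not_le.2 hk)

theorem ae_finite (hP : Par G q1 q2 M) (a b : V) :
    ∀ᵐ ω ∂PP G, (biSet (W M ω) a b).Finite := by
  obtain ⟨Cg, v, hv, h⟩ := typ_tight hP a
  have hK : ∀ᵐ ω ∂PP G, Nice (W M ω) ∧ KP (W M ω) (ball a 0) := by
    filter_upwards [ae_nice hP, ae_noBr hP, ae_r1 hP] with ω h1 h2 h3
    exact ⟨h1, kp_point h1 h2 h3 a⟩
  filter_upwards [hK, mod1 (p := fun w => (Nice w ∧ KP w (ball a 0)) ∧ ∃ k : ℕ, ¬ ∀ᶠ j in atTop,
    GEv Cg (a - v j) (16 ^ j) w → (k : ℝ) ≤ mass (a - v j) (16 ^ j) w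
      (fun x y => ind (On (box (a - v j) (16 ^ j)) w x a y))) (hK.and h)] with ω h1 h2
  obtain ⟨t, -, t1, ⟨n1, n2⟩, k, hk⟩ := (h2 s(a, b) 1 one_pos).1
  have δ0 : 0 < W M ω s(a, b) - t := by linarith
  have e : upE (Function.update (W M ω) s(a, b) t) s(a, b) (W M ω s(a, b) - t) = W M ω := by
    rw [typ_upE_update, add_sub_cancel, Function.update_eq_self]
  by_contra hinf
  obtain ⟨m, hm⟩ := exists_nat_ge (k / (W M ω s(a, b) - t))
  obtain ⟨I, hI, hc⟩ := Set.Infinite.exists_subset_card_eq hinf m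
  obtain ⟨L, hL⟩ := app_pt (C := Cg) n1 δ0 (by rw [e]; exact h1.1) n2 (by rw [e]; exact h1.2) I
    (by rw [e]; exact fun γ hγ => hI hγ)
  refine hk ?_
  have h3 : Tendsto (fun j : ℕ => (16 : ℤ) ^ j) atTop atTop :=
    tendsto_pow_atTop_atTop_of_one_lt (by norm_num)
  filter_upwards [h3.eventually_ge_atTop L, eventually_ge_atTop 1] with j j1 j2 hg
  refine le_trans ?_ (hL _ _ j1 (cen_ball j2 (hv j j2) a) hg)
  rw [hc, mul_comm]
  exact (div_le_iff₀ δ0).1 hm

theorem typ_biSet_anti {w : Wt} (hw : NN w) (a b : V) {t t' : ℝ} (ht : 0 ≤ t) (h : t ≤ t') :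
    biSet (Function.update w s(a, b) t') a b ⊆ biSet (Function.update w s(a, b) t) a b := by
  rintro γ ⟨h1, h2, h3⟩
  exact ⟨h1.update_le hw ht h ⟨0, by rw [zero_add, h2, h3]⟩, h2, h3⟩

theorem typ_jump (a b : V) : ∀ᵐ ω ∂PP G, ∃ k : ℕ, ∀ N : ℕ,
    (N : ℕ∞) ≤ (biSet (W M ω) a b).encard →
      (N : ℕ∞) ≤ (biSet (upE (W M ω) s(a, b) (1 / (k + 1))) a b).encard := by
  have h := sec (G := G) (M := M) (A := {w : Wt | ∀ k : ℕ, ∃ N : ℕ,
    (N : ℕ∞) ≤ (biSet w a b).encard ∧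
      ¬ (N : ℕ∞) ≤ (biSet (upE w s(a, b) (1 / (k + 1))) a b).encard}) (by
      simp only [Set.ofPred_forall, Set.ofPred_exists, Set.ofPred_and]
      exact MeasurableSet.iInter fun k => MeasurableSet.iUnion fun N => (measurableSet_biSet N).inter
        (measurable_upE _ _ (measurableSet_biSet N)).compl) s(a, b) fun w hw => by
      have key : ∀ t t' : ℝ, 0 ≤ t → t < t' → (∀ k : ℕ, ∃ N : ℕ,
          (N : ℕ∞) ≤ (biSet (Function.update w s(a, b) t) a b).encard ∧ ¬ (N : ℕ∞) ≤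
            (biSet (upE (Function.update w s(a, b) t) s(a, b) (1 / (k + 1))) a b).encard) →
          (biSet (Function.update w s(a, b) t') a b).encard <
            (biSet (Function.update w s(a, b) t) a b).encard := by
        intro t t' t0 htt h
        obtain ⟨k, hk⟩ := exists_nat_one_div_lt (sub_pos.2 htt)
        obtain ⟨N, h1, h2⟩ := h k
        rw [typ_upE_update, not_le] at h2
        exact ((Set.encard_le_encard (typ_biSet_anti hw a b (by positivity)
          (by linarith))).trans_lt h2).trans_le h1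
      refine Set.countable_of_injective_of_countable_image
        (f := fun t => (biSet (Function.update w s(a, b) t) a b).encard)
        (fun t ht t' ht' e => ?_) (Set.to_countable _)
      rcases lt_trichotomy t t' with h3 | h3 | h3
      · exact absurd e (key t t' ht.1 h3 ht.2).ne'
      · exact h3
      · exact absurd e (key t' t ht'.1 h3 ht'.2).ne
  filter_upwards [h] with ω hω
  simp only [Set.mem_ofPred_eq, not_forall, not_exists, not_and, not_not] at hω
  exact hω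

theorem ae_ps (hP : Par G q1 q2 M) :
    ∀ᵐ ω ∂PP G, ∀ γ, Bi (W M ω) γ → ∃ δ, 0 < δ ∧ Bi (upE (W M ω) s(γ 0, γ 1) δ) γ := by
  have h1 : ∀ᵐ ω ∂PP G, ∀ a b, (biSet (W M ω) a b).Finite :=
    ae_all_iff.2 fun a => ae_all_iff.2 fun b => ae_finite hP a b
  have h2 := ae_all_iff.2 fun a => ae_all_iff.2 fun b => typ_jump (G := G) (M := M) a b
  filter_upwards [h1, h2] with ω f1 f2 γ hγ
  obtain ⟨k, hk⟩ := f2 (γ 0) (γ 1)
  have k0 : (0 : ℝ) < 1 / (k + 1) := by positivity
  have hsub : biSet (upE (W M ω) s(γ 0, γ 1) (1 / (k + 1))) (γ 0) (γ 1) ⊆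
      biSet (W M ω) (γ 0) (γ 1) := by
    have := typ_biSet_anti (W_nn (M := M) ω) (γ 0) (γ 1) (W_nn (M := M) ω s(γ 0, γ 1))
      (le_add_of_nonneg_right k0.le)
    rwa [Function.update_eq_self] at this
  have f3 := f1 (γ 0) (γ 1)
  have e := (f3.subset hsub).eq_of_subset_of_encard_le hsub (by
    have := hk (biSet (W M ω) (γ 0) (γ 1)).ncard (by rw [f3.cast_ncard_eq])
    rwa [f3.cast_ncard_eq] at this)
  have h3 : γ ∈ biSet (W M ω) (γ 0) (γ 1) := ⟨hγ, rfl, rfl⟩
  rw [← e] at h3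
  exact ⟨_, k0, h3.1⟩

theorem ae_kp (hP : Par G q1 q2 M) : ∀ᵐ ω ∂PP G, ∀ B, KP (W M ω) B := by
  filter_upwards [ae_nice hP, ae_noBr hP, ae_r1 hP, ae_ps hP,
    mod1 (p := fun w => Nice w ∧ R1 w) ((ae_nice hP).and (ae_r1 hP))] with ω h1 h2 h3 h4 h5
  exact k3 h1 h2 h3 h4 fun e ε hε => (h5 e ε hε).2

end Vale.Agent.P158
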